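import Vale.Agent.P269.Vir.Gen2
import Vale.Agent.P269.Orb.Vir3
import Vale.Agent.P269.Spl.Cyc
import Vale.Agent.P269.Holo.Etale
import Vale.Agent.P269.Holo.Set2

set_option linter.unusedSectionVars false

/-!
# The virtual pull-back of Kuranishi data: definitions
-/

namespace Vale.Agent.P269.Ch.KD

open Set Function Topology Filter Module Vale.Agent.P291Z Vale.Agent.P269.Orb Holo

variable {A A' W W' P P' : Type} [NormedRing A] [NormedAlgebra ℂ A] [NormedAddCommGroup W]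
  [NormedSpace ℂ W] [AddCommGroup P] [Module ℂ P] [TopologicalSpace P] [NormedRing A']
  [NormedAlgebra ℂ A'] [NormedAddCommGroup W'] [NormedSpace ℂ W'] [AddCommGroup P'] [Module ℂ P']
  [TopologicalSpace P'] {act : A → W → W} {Z S O : Set W} {D : KD A W P} {n r : ℕ}

/-- `D` is a Kuranishi structure of rank `r` on the orbifold `O` with zero set `Z`. -/
structure Gd (D : KD A W P) (act : A → W → W) (Z O : Set W) (n r : ℕ) : Prop where
  dom : D.Dom act Z O O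
  ok : D.Ok act O n r

open Classical in
/-- The virtual pull-back from `O` to the zero set `Z`. -/
noncomputable def vr (D : KD A W P) (act : A → W → W) (Z O : Set W) :
    BM (Quo act O) →ₗ[ℂ] BM (Quo act Z) :=
  if h : ∃ (h : D.Dom act Z O O) (k : KP h.sp) (i : k.P.W →ₗ[ℂ] P), h.IsKP k i then
    h.choose_spec.choose.vir (Quo.incl act h.choose.sub) else 0

theorem Dom.self (h : D.Dom act Z S O) : D.Dom act Z O O :=
  ⟨h.sub, ⟨univ, isOpen_univ, (inter_univ _).symm⟩, h.isAct, h.orb, h.zero⟩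

theorem Dom.vr_eq (h : D.Dom act Z S O) {k : KP h.sp} {i : k.P.W →ₗ[ℂ] P} (hk : h.IsKP k i) :
    D.vr act Z O = k.vir (Quo.incl act h.sub) := by
  have e : ∃ (h : D.Dom act Z O O) (k : KP h.sp) (i : k.P.W →ₗ[ℂ] P), h.IsKP k i :=
    ⟨h.self, k, i, hk⟩
  obtain ⟨i', h'⟩ := e.choose_spec.choose_spec
  exact (dif_pos e).trans
    ((KP.Cmp.of_id (hk.cmp h' (Mor.id _) (fun _ => rfl) fun _ => rfl)).vir_id (h.isZ h'))

/-- A linear comparison map over `f`, equivariant along `θ`. -/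
structure Lin (D : KD A W P) (D' : KD A' W' P') (θ : A → A') (f : W → W') (O : Set W)
    (B : P →ₗ[ℂ] P') : Prop where
  mem : ∀ w ∈ D.P₀, B w ∈ D'.P₀
  eqv : ∀ a, IsUnit a → ∀ w ∈ D.P₀, B (D.ρ a w) = D'.ρ (θ a) (B w)
  van : ∀ x ∈ O, ∀ w ∈ D.van x, B w ∈ D'.van (f x)
  sec : ∀ x ∈ O, B (D.s x) - D'.s (f x) ∈ D'.van (f x)
  obs : ∀ x ∈ O, D.s x ∈ D.van x → ∀ w ∈ D.obs x, B w ∈ D'.obs (f x)

theorem Lin.mono {D' : KD A' W' P'} {θ : A → A'} {f : W → W'} {B : P →ₗ[ℂ] P'} {O' : Set W}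
    (h : D.Lin D' θ f O B) (e : O' ⊆ O) : D.Lin D' θ f O' B :=
  ⟨h.mem, h.eqv, fun x hx => h.van x (e hx), fun x hx => h.sec x (e hx), fun x hx => h.obs x (e hx)⟩

/-- `B` is injective on the obstruction spaces along `Z`. -/
def Inj (D : KD A W P) (D' : KD A' W' P') (f : W → W') (Z : Set W) (B : P →ₗ[ℂ] P') : Prop :=
  ∀ x ∈ Z, ∀ w ∈ D.obs x, B w ∈ D'.van (f x) → w ∈ D.van x

/-- `B` is surjective on the obstruction spaces along `Z`. -/
def Srj (D : KD A W P) (D' : KD A' W' P') (f : W → W') (Z : Set W) (B : P →ₗ[ℂ] P') : Prop :=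
  ∀ x ∈ Z, ∀ w ∈ D'.obs (f x), ∃ w' ∈ D.obs x, B w' - w ∈ D'.van (f x)

/-- A test of the section near `x`: functionals `m y` that kill `van y`, such that `m y (s y)` is
holomorphic. -/
structure Tst (D : KD A W P) (O : Set W) (x : W) (m : W → P →ₗ[ℂ] ℂ) (ψ : W → ℂ) : Prop where
  an : AnalyticAt ℂ ψ x
  cont : ∀ w ∈ D.P₀, ∀ᶠ y in 𝓝[O] x, ContinuousWithinAt (fun z => m z w) O y
  van : ∀ᶠ y in 𝓝[O] x, ∀ w ∈ D.van y, m y w = 0
  sec : ∀ᶠ y in 𝓝[O] x, m y (D.s y) = ψ y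

/-- The Zariski tangent space of a set. -/
def Tan (S : Set W) (x : W) : Set W := {v | ∃ h : x ∈ S, v ∈ tan (Subtype.val : S → W) ⟨x, h⟩}

/-- The section cuts out `Z` to first order at `x`. -/
def Trv (D : KD A W P) (Z O : Set W) (x : W) : Prop :=
  ∀ v ∈ Tan O x, (∀ m ψ, D.Tst O x m ψ → fderiv ℂ ψ x v = 0) → v ∈ Tan Z x

/-- `O` is a manifold whose orbit space has dimension `d`. -/
def Mf (A : Type) [NormedRing A] [NormedAlgebra ℂ A] (O : Set W) (d : ℕ) : Prop :=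
  ∀ x ∈ O, MfdAt O (finrank ℂ A + d) x

/-- The fundamental class of the orbifold `O` of dimension `d`. -/
noncomputable def Gd.fu (h : D.Gd act Z O n r) (d : ℕ) : BM (Quo act O) :=
  haveI := h.dom.isAct
  fnd act O d

/-- `v` is the virtual class for the smooth base `S` of dimension `d`. -/
def IsW (D : KD A W P) (act : A → W → W) (Z S : Set W) (d : ℕ) (v : BM (Quo act Z)) : Prop :=
  ∃ (O : Set W) (n r : ℕ) (h : D.Gd act Z O n r), (∃ U, IsOpen U ∧ O = S ∩ U) ∧ Mf A O d ∧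
    v = D.vr act Z O (h.fu d)

/-- `D` is regular on the invariant open part `O` of `S`, with zero set `Z`. -/
structure Reg (D : KD A W P) (act : A → W → W) (Z S O : Set W) (n r : ℕ) : Prop where
  sub : Z ⊆ O
  opn : ∃ U, IsOpen U ∧ O = S ∩ U
  inv : Ivt act O
  lc : IsLocallyClosed O
  zero : ∀ x ∈ O, D.s x ∈ D.van x ↔ x ∈ Z
  ok : D.Ok act O n r

/-- An equivariant linear splitting `x = p x + ι (q x)`. -/
structure Spt {V : Type} [NormedAddCommGroup V] [NormedSpace ℂ V] (act : A → W → W)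
    (ρ : A → V → V) (p : W →L[ℂ] W) (q : W →L[ℂ] V) (ι : V →L[ℂ] W) : Prop where
  add : ∀ x, p x + ι (q x) = x
  q_ι : ∀ v, q (ι v) = v
  rep : IsRepOn ρ ⊤
  p_act : ∀ a, IsUnit a → ∀ x, p (act a x) = act a (p x)
  q_act : ∀ a, IsUnit a → ∀ x, q (act a x) = ρ a (q x)

end Vale.Agent.P269.Ch.KD
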