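import Vale.Agent.P269.Map.SQD
import Vale.Agent.P269.Bas.Nat

set_option linter.unusedSectionVars false
set_option linter.unusedVariables false

/-!
# Characteristic classes of bundles of subquotients
-/

namespace Vale.Agent.P269.Ch

open Set Function Topology Filter P291Z

section rev

variable {R R' : Type*} [CommRing R] [CommRing R'] {r s : ℕ} {F G : Polynomial R}

theorem Mon.reverse_map (h : Mon r F) (φ : R →+* R') :
    ((F.map φ).reverse : PowerSeries R') = PowerSeries.map φ (F.reverse : PowerSeries R) := by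
  rw [h.reverse_eq, (h.map φ).reverse_eq, Polynomial.reflect_map, Polynomial.polynomial_map_coe]

theorem Mon.reverse_mul (h : Mon r F) (h' : Mon s G) : ((F * G).reverse : PowerSeries R) =
    (F.reverse : PowerSeries R) * (G.reverse : PowerSeries R) := by
  rw [h.reverse_eq, h'.reverse_eq, (h.mul h').reverse_eq, Polynomial.reflect_mul _ _ h.le h'.le,
    Polynomial.coe_mul]

theorem Mon.coeff_reverse (h : Mon r F) (m : ℕ) : PowerSeries.coeff m (F.reverse : PowerSeries R) =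
    if m ≤ r then F.coeff (r - m) else 0 := by
  rw [Polynomial.coeff_coe, h.reverse_eq, Polynomial.coeff_reflect]
  split_ifs with hm
  · rw [Polynomial.revAt_le hm]
  · rw [Polynomial.revAt_eq_self_of_lt (not_le.1 hm),
      Polynomial.coeff_eq_zero_of_natDegree_lt (h.le.trans_lt (not_le.1 hm))]

end rev

/-- The total Chern class. -/
noncomputable def VB.chR {Y : Sp} (E : VB Y) : PowerSeries (Hev Y.X) :=
  (E.chern.reverse : Polynomial (Hev Y.X))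

theorem VB.coeff_chR {Y : Sp} (E : VB Y) (m : ℕ) :
    PowerSeries.coeff m E.chR = if m ≤ E.r then E.chern.coeff (E.r - m) else 0 :=
  E.chern_mon.coeff_reverse m

theorem Iso.chR {Y Y' : Sp} {m : Mor Y' Y} {E' : VB Y'} {E : VB Y} {F : Y'.T → E'.W →ₗ[ℂ] E.W}
    (h : Iso m E' E F) : E'.chR = PowerSeries.map (Hev.map m.map).toRingHom E.chR := by
  rw [VB.chR, h.chern]
  exact E.chern_mon.reverse_map _

theorem Exact.chR {Y : Sp} {E' E E'' : VB Y} {F : Y.T → E'.W →ₗ[ℂ] E.W}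
    {F' : Y.T → E.W →ₗ[ℂ] E''.W} (h : Exact E' E E'' F F') : E.chR = E'.chR * E''.chR := by
  rw [VB.chR, h.chern]
  exact E'.chern_mon.reverse_mul E''.chern_mon

theorem VB.chR_zero {Y : Sp} (E : VB Y) (h : E.r = 0) : E.chR = 1 := by
  rw [VB.chR, E.chern_zero h, mon_one.reverse_eq, Polynomial.reflect_one, pow_zero,
    Polynomial.coe_one]

theorem finrank_map_quo {P Q : Type} [AddCommGroup P] [Module ℂ P] [AddCommGroup Q] [Module ℂ Q]
    {B N : Submodule ℂ P} [FiniteDimensional ℂ B] (le : N ≤ B) {ψ : P →ₗ[ℂ] Q}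
    (h : ∀ w ∈ B, ψ w = 0 ↔ w ∈ N) :
    Module.finrank ℂ (B.map ψ) + Module.finrank ℂ N = Module.finrank ℂ B := by
  rw [← (ψ.domRestrict B).finrank_range_add_finrank_ker, LinearMap.range_domRestrict,
    show LinearMap.ker (ψ.domRestrict B) = N.comap B.subtype from
      Submodule.ext fun w => h w w.2, (Submodule.comapSubtypeEquivOfLe le).finrank_eq]

variable {A A' W W' P P' P'' : Type} [NormedRing A] [NormedAlgebra ℂ A] [NormedAddCommGroup W]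
  [NormedSpace ℂ W] [AddCommGroup P] [Module ℂ P] [TopologicalSpace P] [NormedRing A']
  [NormedAlgebra ℂ A'] [NormedAddCommGroup W'] [NormedSpace ℂ W'] [AddCommGroup P'] [Module ℂ P']
  [TopologicalSpace P'] [AddCommGroup P''] [Module ℂ P''] [TopologicalSpace P'']

namespace IsMod

variable {act : A → W → W} {act' : A' → W' → W'} {S : Set W} {S' : Set W'} {Y Y' : Sp}
  {p : Pres Y act S} {p' : Pres Y' act' S'} {ρ : A → P → P} {ρ' : A' → P' → P'}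
  {B N : W → Submodule ℂ P} {B' N' : W' → Submodule ℂ P'} {E₀ E₁ : VB Y} {E₀' E₁' : VB Y'}
  {ι : E₀.W →ₗ[ℂ] P} {ι' : E₀'.W →ₗ[ℂ] P'} {M : Y.T → E₀.W →ₗ[ℂ] E₁.W}
  {M' : Y'.T → E₀'.W →ₗ[ℂ] E₁'.W} (h : IsMod p ρ B N E₀ E₁ ι M)
  (h' : IsMod p' ρ' B' N' E₀' E₁' ι' M') {m : Mor Y Y'} {L : Y.T → P →ₗ[ℂ] P'}

include h in
theorem map_eq_iff {t : Y.T} {w w' : E₀.W} (hw : w ∈ E₀.F t) (hw' : w' ∈ E₀.F t) :
    M t w = M t w' ↔ ι w - ι w' ∈ N (p.i t) := by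
  rw [← sub_eq_zero, ← map_sub, h.ker _ _ (sub_mem hw hw'), map_sub]

include h h'

/-- **A homomorphism of families of subquotients induces a map of the models** -/
theorem exists_hom (cont : Continuous fun y : E₀.V => L y.1.1 (ι y.1.2))
    (mapB : ∀ t, ∀ w ∈ B (p.i t), L t w ∈ B' (p'.i (m.f t)))
    (mapN : ∀ t, ∀ w ∈ N (p.i t), L t w ∈ N' (p'.i (m.f t)))
    (eqv : ∀ g t, ∀ w ∈ B (p.i t),
      L (g • t) (ρ (p.u g) w) - ρ' (p'.u (m.ρ g)) (L t w) ∈ N' (p'.i (m.f (g • t)))) :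
    ∃ F : Y.T → E₁.W →ₗ[ℂ] E₁'.W, Hom m E₁ E₁' F ∧ ∀ t, ∀ w ∈ E₀.F t,
      ∃ v ∈ E₀'.F (m.f t), ι' v = L t (ι w) ∧ F t (M t w) = M' (m.f t) v := by
  obtain ⟨R, hR, h1⟩ := h.hom.exists_sect h.surj
  obtain ⟨κ, hκ⟩ := ι'.exists_leftInverse_of_injective (LinearMap.ker_eq_bot.2 h'.emb.injective)
  have h2 : ∀ t, ∀ w ∈ E₀.F t, κ (L t (ι w)) ∈ E₀'.F (m.f t) ∧ ι' (κ (L t (ι w))) = L t (ι w) := by
    intro t w hw
    obtain ⟨v, h5, h6⟩ := (h'.map _).ge (mapB t _ (h.mem hw))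
    rw [← show ι' v = _ from h6, show κ (ι' v) = v from LinearMap.congr_fun hκ v]
    exact ⟨h5, rfl⟩
  have h3 : ∀ t, ∀ w ∈ E₀.F t, ∀ v ∈ E₀'.F (m.f t), ι' v - L t (ι w) ∈ N' (p'.i (m.f t)) →
      M' (m.f t) (κ (L t (ι (R t (M t w))))) = M' (m.f t) v := by
    intro t w hw v hv e
    have h4 := hR.mem t _ (h.hom.mem t w hw)
    rw [h'.map_eq_iff (h2 t _ h4).1 hv, (h2 t _ h4).2, ← sub_sub_sub_cancel_right _ _ (L t (ι w)),
      ← map_sub]
    exact sub_mem (mapN t _ ((h.map_eq_iff h4 hw).1 (h1 t _ (h.hom.mem t w hw)))) e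
  refine ⟨fun t => M' (m.f t) ∘ₗ κ ∘ₗ L t ∘ₗ ι ∘ₗ R t, ⟨fun t w hw =>
    h'.hom.mem _ _ (h2 t _ (hR.mem t w hw)).1, ?_, fun g t w hw => ?_⟩, fun t w hw =>
    ⟨_, (h2 t w hw).1, (h2 t w hw).2, h3 t w hw _ (h2 t w hw).1 (by
      rw [(h2 t w hw).2, sub_self]; exact zero_mem _)⟩⟩
  · exact h'.hom.continuous (m.cf.comp (by fun_prop)) (h'.emb.continuous_iff.2
      ((cont.comp hR.mor.cf).congr fun y => (h2 _ _ (hR.mem _ _ y.2)).2.symm))
      fun y => (h2 _ _ (hR.mem _ _ y.2)).1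
  · obtain ⟨u, hu, rfl⟩ := h.surj t w hw
    obtain ⟨h4, h5⟩ := h2 t u hu
    have h6 := h'.eqv (m.ρ g) _ _ h4
    have h7 := E₀'.inv (m.ρ g) _ _ h4
    have h8 : M' (m.ρ g • m.f t) _ = m.ρ g • _ := h'.hom.eqv (m.ρ g) _ _ h4
    have h9 : M (g • t) _ = g • _ := h.hom.eqv g t u hu
    rw [← m.eqv] at h6 h7 h8
    rw [h5] at h6
    refine (congrArg _ h9.symm).trans ((h3 _ _ (E₀.inv g t u hu) _ h7 ?_).trans (h8.trans
      (congrArg _ (h3 t u hu _ h4 (by rw [h5, sub_self]; exact zero_mem _)).symm)))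
    have := sub_mem (sub_mem h6 (eqv g t _ (h.mem hu))) (mapN _ _ (h.eqv g t u hu))
    rwa [map_sub, sub_sub_sub_cancel_right, sub_sub_sub_cancel_right] at this

variable {F : Y.T → E₁.W →ₗ[ℂ] E₁'.W}
  (hF : ∀ t, ∀ w ∈ E₀.F t, ∃ v ∈ E₀'.F (m.f t), ι' v = L t (ι w) ∧ F t (M t w) = M' (m.f t) v)
include hF

theorem hom_inj (hi : ∀ t, ∀ w ∈ B (p.i t), L t w ∈ N' (p'.i (m.f t)) → w ∈ N (p.i t)) (t : Y.T)
    (w : E₁.W) (hw : w ∈ E₁.F t) (e : F t w = 0) : w = 0 := by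
  obtain ⟨u, hu, rfl⟩ := h.surj t w hw
  obtain ⟨v, h1, h2, h3⟩ := hF t u hu
  exact (h.ker t u hu).2 (hi t _ (h.mem hu) (h2 ▸ (h'.ker _ v h1).1 (h3.symm.trans e)))

theorem hom_surj (hs : ∀ t, ∀ w ∈ B' (p'.i (m.f t)), ∃ w' ∈ B (p.i t),
      L t w' - w ∈ N' (p'.i (m.f t))) (t : Y.T) (w : E₁'.W) (hw : w ∈ E₁'.F (m.f t)) :
    ∃ w' ∈ E₁.F t, F t w' = w := by
  obtain ⟨v, hv, rfl⟩ := h'.surj _ w hw
  obtain ⟨q, h1, h2⟩ := hs t _ (h'.mem hv)
  obtain ⟨u, hu, rfl⟩ := (h.map t).ge h1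
  obtain ⟨v', h3, h4, h5⟩ := hF t u hu
  exact ⟨_, h.hom.mem t u hu, h5.trans ((h'.map_eq_iff h3 hv).2 (h4 ▸ h2))⟩

end IsMod

namespace SD

variable [IsTopologicalAddGroup P] [ContinuousSMul ℂ P] [T2Space P]
  [IsTopologicalAddGroup P'] [ContinuousSMul ℂ P'] [T2Space P']
  [IsTopologicalAddGroup P''] [ContinuousSMul ℂ P''] [T2Space P'']
  {act : A → W → W} {act' : A' → W' → W'} {S S₀ : Set W} {S' : Set W'} {E : SD A W P}
  {E' : SD A' W' P'} {r r' q q' p p' : ℕ} {θ : A → A'} {f : W → W'} {L : W → P →ₗ[ℂ] P'}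

theorem _root_.Vale.Agent.P269.Ch.IsFam.mono {ρ : A → P → P} {P₀ : Submodule ℂ P}
    {B : W → Submodule ℂ P} (h : IsFam act ρ S P₀ B r) (e : S₀ ⊆ S) : IsFam act ρ S₀ P₀ B r :=
  ⟨fun x hx => h.le x (e hx), h.closed.preimage (f := fun z : S₀ × P => (inclusion e z.1, z.2))
    ((continuous_inclusion e).prodMap continuous_id), fun x hx => h.rank x (e hx),
    fun x hx => h.inv x (e hx)⟩

theorem Ok.mono (h : E.Ok act S r r') (e : S₀ ⊆ S) : E.Ok act S₀ r r' :=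
  ⟨h.fin, h.rep, h.famB.mono e, h.famN.mono e, fun x hx => h.le x (e hx)⟩

theorem Hom.mono (h : E.Hom E' act S θ f L) (e : S₀ ⊆ S) : E.Hom E' act S₀ θ f L :=
  ⟨fun w hw => (h.cont w hw).mono e, fun x hx => h.mapB x (e hx), fun x hx => h.mapN x (e hx),
    fun x hx => h.eqv x (e hx)⟩

theorem Ok.finB (h : E.Ok act S r r') {x : W} (hx : x ∈ S) : FiniteDimensional ℂ (E.B x) :=
  haveI := h.fin
  Submodule.finiteDimensional_of_le (h.famB.le x hx)

theorem Ok.rank_le (h : E.Ok act S r r') {x : W} (hx : x ∈ S) : r' ≤ r := by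
  have := h.finB hx
  rw [← h.famB.rank x hx, ← h.famN.rank x hx]
  exact Submodule.finrank_mono (h.le x hx)

/-- ranks: injective and surjective are equivalent if the ranks agree -/
theorem Hom.rank (h : E.Ok act S r r') (h' : E'.Ok act' S' q q') (hm : MapsTo f S S')
    (hL : E.Hom E' act S θ f L) (hi : E.Inj E' S f L) :
    E.Srj E' S f L ↔ (S.Nonempty → r + q' = q + r') := by
  have key : ∀ x ∈ S, (∀ w ∈ E'.B (f x), ∃ w' ∈ E.B x, L x w' - w ∈ E'.N (f x)) ↔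
      r + q' = q + r' := by
    intro x hx
    have := h.finB hx
    have := h'.finB (hm hx)
    have h1 := finrank_map_quo (h.le x hx) (ψ := (E'.N (f x)).mkQ ∘ₗ L x) fun w hw =>
      (Submodule.Quotient.mk_eq_zero _).trans ⟨hi x hx w hw, hL.mapN x hx w⟩
    have h2 := finrank_map_quo (h'.le _ (hm hx)) (ψ := (E'.N (f x)).mkQ) fun w _ =>
      Submodule.Quotient.mk_eq_zero _
    rw [h.famB.rank x hx, h.famN.rank x hx] at h1
    rw [h'.famB.rank _ (hm hx), h'.famN.rank _ (hm hx)] at h2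
    have h3 : (E.B x).map ((E'.N (f x)).mkQ ∘ₗ L x) ≤ (E'.B (f x)).map (E'.N (f x)).mkQ := by
      rintro _ ⟨w, hw, rfl⟩
      exact ⟨_, hL.mapB x hx w hw, rfl⟩
    refine ⟨fun hs => ?_, fun e w hw => ?_⟩
    · rw [h3.antisymm (by
        rintro _ ⟨w, hw, rfl⟩
        obtain ⟨w', h4, h5⟩ := hs w hw
        exact ⟨w', h4, (Submodule.Quotient.eq _).2 h5⟩)] at h1
      omega
    · obtain ⟨w', h4, h5⟩ := (Submodule.eq_of_le_of_finrank_eq h3 (by omega)).ge ⟨w, hw, rfl⟩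
      exact ⟨w', h4, (Submodule.Quotient.eq _).1 h5⟩
  exact ⟨fun hs ⟨x, hx⟩ => (key x hx).1 (hs x hx), fun e x hx => (key x hx).2 (e ⟨x, hx⟩)⟩

/-- joint continuity of a homomorphism -/
theorem Hom.continuous (hL : E.Hom E' act S θ f L) {V Z : Type} [NormedAddCommGroup V]
    [NormedSpace ℂ V] [FiniteDimensional ℂ V] [TopologicalSpace Z] {ι : V →ₗ[ℂ] P}
    (hι : LinearMap.range ι = E.P₀) {x : Z → W} {w : Z → V} (hx : Continuous x)
    (hS : ∀ z, x z ∈ S) (hw : Continuous w) : Continuous fun z => L (x z) (ι (w z)) := by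
  let b := Module.finBasis ℂ V
  refine (continuous_finsetSum Finset.univ fun i _ =>
    (((b.coord i).continuous_of_finiteDimensional.comp hw).smul
      ((hL.cont (ι (b i)) (hι.le ⟨_, rfl⟩)).comp_continuous hx hS))).congr fun z => ?_
  conv_rhs => rw [← b.sum_repr (w z), map_sum, map_sum]
  simp only [map_smul]
  rfl

variable [Holo.IsAct act S] [Holo.IsAct act' S'] (ho : Orb.Orb Aˣ (Holo.Sp act S))
  (h : E.Ok act S r r')
include ho h

theorem Ok.exists_isMod : ∃ (E₀ E₁ : VB (spA ho)) (ι : E₀.W →ₗ[ℂ] P)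
    (M : (spA ho).T → E₀.W →ₗ[ℂ] E₁.W), E₀.r = r ∧ E₁.r = r - r' ∧
      IsMod (presA ho) E.ρ E.B E.N E₀ E₁ ι M ∧ LinearMap.range ι = E.P₀ ∧
      ∀ (g : (spA ho).G) w, ι (g • w) = E.ρ ((presA ho).u g) (ι w) :=
  haveI := h.fin
  Ch.exists_isMod (presA ho) h.rep h.famB h.famN h.le (MonoidHom.id _) continuous_id fun _ => rfl

omit h in
/-- the class of a model -/
theorem chernT_eq {Y : Sp} {p : Pres Y act S} (τ : Y.G →* Aˣ) (hτ : Continuous τ)
    (hu : ∀ g, p.u g = τ g) {ρ : A → P → P} {B N : W → Submodule ℂ P}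
    {E₀ E₁ : VB Y} {ι : E₀.W →ₗ[ℂ] P} {M : Y.T → E₀.W →ₗ[ℂ] E₁.W} (h : IsMod p ρ B N E₀ E₁ ι M)
    (h0 : ∃ (E₀ E₁ : VB (spA ho)) (ι : E₀.W →ₗ[ℂ] P) (M : (spA ho).T → E₀.W →ₗ[ℂ] E₁.W),
      IsMod (presA ho) ρ B N E₀ E₁ ι M) :
    chernT act ρ S B N = ((E₁.chern.map (Hev.map p.e).toRingHom).reverse : Polynomial _) := by
  rw [(E₁.chern_mon.map _).reverse_eq]
  exact IsMod.ch_eq (D := ⟨ρ, B, N⟩) h

omit h in
theorem chernT_presA {ρ : A → P → P} {B N : W → Submodule ℂ P} {E₀ E₁ : VB (spA ho)}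
    {ι : E₀.W →ₗ[ℂ] P} {M : (spA ho).T → E₀.W →ₗ[ℂ] E₁.W} (h : IsMod (presA ho) ρ B N E₀ E₁ ι M) :
    chernT act ρ S B N = E₁.chR := by
  rw [chernT_eq ho (MonoidHom.id _) continuous_id (fun _ => rfl) h ⟨_, _, _, _, h⟩]
  exact congrArg (fun F : Polynomial (Hev (Quo act S)) =>
    ((F.reverse : Polynomial _) : PowerSeries (Hev (Quo act S))))
    (Polynomial.ext fun n => (Polynomial.coeff_map _ _).trans (Hev.map_id (fun _ => rfl) _))

omit h in
theorem hcls_presA {ρ : A → P → P} {B N : W → Submodule ℂ P} {E₀ E₁ : VB (spA ho)}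
    {ι : E₀.W →ₗ[ℂ] P} {M : (spA ho).T → E₀.W →ₗ[ℂ] E₁.W} (h : IsMod (presA ho) ρ B N E₀ E₁ ι M) :
    hcls (eulerC act ρ S B N) = E₁.eu.1 := h.hcls_eulerC.trans (H.map_id (fun _ => rfl) _)

theorem Ok.cocycle : supp (δ (E.eu act S)) = ∅ :=
  let ⟨_, _, _, _, _, _, h1, _⟩ := h.exists_isMod ho
  h1.eulerC_cocycle

theorem Ok.deg : IsDeg (2 * (r - r' : ℕ)) (E.eu act S) :=
  let ⟨_, _, _, _, _, h0, h1, _⟩ := h.exists_isMod ho
  h0 ▸ h1.eulerC_deg

theorem Ok.constCoeff : PowerSeries.constantCoeff (E.ch act S) = 1 := by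
  obtain ⟨_, E₁, _, _, -, -, h1, -⟩ := h.exists_isMod ho
  rw [← PowerSeries.coeff_zero_eq_constantCoeff_apply, ch, chernT_presA ho h1]
  exact (E₁.coeff_chR 0).trans ((if_pos (Nat.zero_le _)).trans E₁.chern_mon.coeff)

theorem Ok.coeff_deg (m : ℕ) : PowerSeries.coeff m (E.ch act S) ∈ Hev.deg _ m := by
  obtain ⟨_, E₁, _, _, -, -, h1, -⟩ := h.exists_isMod ho
  rw [ch, chernT_presA ho h1]
  change PowerSeries.coeff m E₁.chR ∈ Hev.deg (spA ho).X m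
  rw [E₁.coeff_chR]
  split_ifs with hm
  · have := E₁.chern_deg (E₁.r - m)
    rwa [Nat.cast_sub hm, sub_sub_cancel] at this
  · exact zero_mem _

theorem Ok.coeff_top : (PowerSeries.coeff (r - r') (E.ch act S)).1 = hcls (E.eu act S) := by
  obtain ⟨_, E₁, _, _, -, h0, h1, -⟩ := h.exists_isMod ho
  rw [ch, eu, chernT_presA ho h1, hcls_presA ho h1, ← h0, ← E₁.chern_coeff_zero]
  exact congrArg Subtype.val ((E₁.coeff_chR _).trans
    ((if_pos le_rfl).trans (by rw [Nat.sub_self])))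

theorem Ok.ch_zero (e : r = r') : E.ch act S = 1 := by
  obtain ⟨_, E₁, _, _, -, h0, h1, -⟩ := h.exists_isMod ho
  exact (chernT_presA ho h1).trans (E₁.chR_zero (by omega))

/-- **pull-back** -/
theorem Ok.pull (ho' : Orb.Orb A'ˣ (Holo.Sp act' S')) (h' : E'.Ok act' S' q q')
    (hf : EqM act act' S S' θ f) (hL : E.Hom E' act S θ f L) (hi : E.Inj E' S f L)
    (hs : E.Srj E' S f L) :
    hcls (E.eu act S) = hcls (pull hf.map (E'.eu act' S')) ∧
      E.ch act S = PowerSeries.map (Hev.map hf.map).toRingHom (E'.ch act' S') := by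
  obtain ⟨E₀, E₁, ι, M, -, -, h1, h2, -⟩ := h.exists_isMod ho
  obtain ⟨E₀', E₁', ι', M', -, -, h1', -⟩ := h'.exists_isMod ho'
  obtain ⟨θ', h3, h4⟩ := hf.hom
  let m : Mor (spA ho) (spA ho') := ⟨θ', fun t => Holo.Sp.of act' (f t.val) (hf.maps t.val_mem), h3,
    (hf.cont.comp_continuous Holo.Sp.continuous_val fun t => t.val_mem).subtype_mk _,
    fun g t => Holo.Sp.ext ((hf.eqv _ g.isUnit _ t.val_mem).trans
      (congrArg (act' · (f t.val)) (h4 g).symm))⟩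
  obtain ⟨F, h5, h6⟩ := h1.exists_hom h1' (m := m) (L := fun t : Holo.Sp act S => L t.val)
    (hL.continuous h2 (Holo.Sp.continuous_val.comp (by fun_prop)) (fun y => y.1.1.val_mem)
      (by fun_prop)) (fun t => hL.mapB _ ((presA ho).mem t)) (fun t => hL.mapN _ ((presA ho).mem t))
    fun (g : Aˣ) (t : Holo.Sp act S) w hw => by
      have := hL.eqv _ t.val_mem _ g.isUnit w hw
      rwa [← h4] at this
  have h7 : Iso m E₁ E₁' F :=
    ⟨h5, h1.hom_inj h1' h6 fun t => hi _ ((presA ho).mem t), h1.hom_surj h1' h6 fun t => hs _ ((presA ho).mem t)⟩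
  have h8 : m.map = hf.map := ContinuousMap.ext fun z => Quot.inductionOn z fun x => m.map_π x
  refine ⟨?_, ?_⟩
  · rw [← H.map_hcls _ h1'.eulerC_cocycle, eu, hcls_presA ho h1, hcls_presA ho' h1', h7.eu, h8]
    rfl
  · rw [ch, ch, chernT_presA ho h1, chernT_presA ho' h1', h7.chR, h8]
    rfl

/-- **exact sequences** `0 → E₁ → E → E₂ → 0` -/
theorem Ok.exact {E₁ : SD A W P'} {E₂ : SD A W P''} (h₁ : E₁.Ok act S q q') (h₂ : E₂.Ok act S p p')
    {L₁ : W → P' →ₗ[ℂ] P} {L₂ : W → P →ₗ[ℂ] P''} (a₁ : E₁.Hom E act S id id L₁)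
    (a₂ : E.Hom E₂ act S id id L₂) (hi : E₁.Inj E S id L₁) (hs : E.Srj E₂ S id L₂)
    (hc : ∀ x ∈ S, ∀ w ∈ E₁.B x, L₂ x (L₁ x w) ∈ E₂.N x)
    (hr : S.Nonempty → r + q' + p' = q + p + r') :
    E.ch act S = E₁.ch act S * E₂.ch act S := by
  obtain ⟨U, V, ι, M, -, e, m, c, -⟩ := h.exists_isMod ho
  obtain ⟨U₁, V₁, ι₁, M₁, -, e₁, m₁, c₁, -⟩ := h₁.exists_isMod ho
  obtain ⟨U₂, V₂, ι₂, M₂, -, e₂, m₂, -⟩ := h₂.exists_isMod ho
  obtain ⟨F₁, f₁, g₁⟩ := m₁.exists_hom m (m := Mor.id _) (L := fun t : Holo.Sp act S => L₁ t.val)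
    (a₁.continuous c₁ (Holo.Sp.continuous_val.comp (by fun_prop)) (fun y => y.1.1.val_mem)
      (by fun_prop)) (fun t => a₁.mapB _ ((presA ho).mem t)) (fun t => a₁.mapN _ ((presA ho).mem t))
    fun (g : Aˣ) (t : Holo.Sp act S) => a₁.eqv _ t.val_mem _ g.isUnit
  obtain ⟨F₂, f₂, g₂⟩ := m.exists_hom m₂ (m := Mor.id _) (L := fun t : Holo.Sp act S => L₂ t.val)
    (a₂.continuous c (Holo.Sp.continuous_val.comp (by fun_prop)) (fun y => y.1.1.val_mem)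
      (by fun_prop)) (fun t => a₂.mapB _ ((presA ho).mem t)) (fun t => a₂.mapN _ ((presA ho).mem t))
    fun (g : Aˣ) (t : Holo.Sp act S) => a₂.eqv _ t.val_mem _ g.isUnit
  have i₁ := m₁.hom_inj m g₁ fun t => hi _ ((presA ho).mem t)
  have s₂ := m.hom_surj m₂ g₂ fun t => hs _ ((presA ho).mem t)
  have key : ∀ t, (V₁.F t).map (F₁ t) = V.F t ⊓ LinearMap.ker (F₂ t) := by
    intro t
    refine Submodule.eq_of_le_of_finrank_eq ?_ ?_
    · rintro _ ⟨w, hw, rfl⟩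
      refine ⟨f₁.mem t w hw, ?_⟩
      obtain ⟨u, hu, rfl⟩ := m₁.surj t w hw
      obtain ⟨v, h1, h2, h3⟩ := g₁ t u hu
      obtain ⟨v', h4, h5, h6⟩ := g₂ t v h1
      exact (congrArg (F₂ t) h3).trans (h6.trans ((m₂.ker _ _ h4).2
        (h5 ▸ h2 ▸ hc _ ((presA ho).mem t) _ (m₁.mem hu))))
    · have h1 := finrank_inf_ker (V.F t) (F₂ t)
      rw [show (V.F t).map (F₂ t) = V₂.F t from le_antisymm
        (by rintro _ ⟨w, hw, rfl⟩; exact f₂.mem t w hw) (s₂ t), V₂.rank, V.rank] at h1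
      have h2 := hr ⟨_, (presA ho).mem t⟩
      have h3 := h.rank_le ((presA ho).mem t)
      have h4 := h₁.rank_le ((presA ho).mem t)
      have h5 := h₂.rank_le ((presA ho).mem t)
      rw [finrank_map_of_inj (i₁ t), V₁.rank]
      omega
  have hE : Exact V₁ V V₂ F₁ F₂ := ⟨f₁, f₂, i₁, s₂, fun t w hw =>
    ⟨fun e => (key t).ge ⟨hw, e⟩, fun e => ((key t).le e).2⟩⟩
  rw [ch, ch, ch, chernT_presA ho m, chernT_presA ho m₁, chernT_presA ho m₂]
  exact hE.chR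

end SD

end Vale.Agent.P269.Ch
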