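import Vale.Agent.P269.Map.SQ
import Vale.Agent.P269.Map.Hol

set_option linter.unusedSectionVars false

/-!
# The cotangent line classes
-/

namespace Vale.Agent.P269.Ch

open Set Function Topology Filter P291Z Base

namespace Psi

/-- a family of subspaces with local frames is closed -/
theorem isClosed_span {T P κ : Type*} [TopologicalSpace T] [NormedAddCommGroup P] [NormedSpace ℂ P]
    [Finite κ] {B : T → Submodule ℂ P} (h : ∀ t₀, ∃ e : T → κ → P, ContinuousAt e t₀ ∧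
      LinearIndependent ℂ (e t₀) ∧ ∀ᶠ t in 𝓝 t₀, B t = Submodule.span ℂ (range (e t))) :
    IsClosed {z : T × P | z.2 ∈ B z.1} := by
  refine ⟨isOpen_iff_mem_nhds.2 fun z hz => ?_⟩
  obtain ⟨e, h1, h2, h3⟩ := h z.1
  have h4 : ContinuousAt (fun (y : T × P) (o : Option κ) => o.elim y.2 (e y.1)) z :=
    continuousAt_pi.2 fun o => by
      cases o
      exacts [continuousAt_snd, (continuousAt_pi.1 h1 _).comp continuousAt_fst]
  have h5 : LinearIndependent ℂ fun o : Option κ => o.elim z.2 (e z.1) :=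
    linearIndependent_option.2 ⟨h2, fun a => hz (h3.self_of_nhds.ge a)⟩
  filter_upwards [h4.tendsto.eventually h5.eventually, continuousAt_fst.tendsto.eventually h3]
    with y a b c
  exact (linearIndependent_option.1 a).2 (b.le c)

variable {ι ι' : Type} [Fintype ι] [DecidableEq ι] [Fintype ι'] [DecidableEq ι'] {M : ι → ℕ}
  {M' : ι' → ℕ} {o : ι} {C : Set (V M)} {c v : V M} {γ : ℂ → V M}

/-- the tangent vectors of the arcs through `c` -/
abbrev Tg (C : Set (V M)) (c : V M) : Submodule ℂ (V M) :=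
  Submodule.span ℂ {v | ∃ γ : ℂ → V M, AnalyticAt ℂ γ 0 ∧ (∀ᶠ t in 𝓝 0, γ t ∈ C) ∧ γ 0 = c ∧
    v = deriv γ 0}

/-- the tangent space of the orbit -/
abbrev Nr (c : V M) : Submodule ℂ (V M) := Submodule.span ℂ (range fun i => Pi.single i (c i))

theorem sum_single (b : ι → ℂ) (c : V M) : ∑ i, b i • (Pi.single i (c i) : V M) = b • c := by
  rw [← Finset.univ_sum_single (b • c)]
  exact Finset.sum_congr rfl fun i _ => (Pi.single_smul i _ _).symm

theorem mem_Nr : v ∈ Nr c ↔ ∃ b : ι → ℂ, v = b • c := by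
  simp only [Submodule.mem_span_range_iff_exists_fun, sum_single, eq_comm]

theorem li (hc : ∀ i, c i ≠ 0) : LinearIndependent ℂ fun i => (Pi.single i (c i) : V M) :=
  Fintype.linearIndependent_iff.2 fun b hb i =>
    (smul_eq_zero.1 (congrFun ((sum_single b c).symm.trans hb) i)).resolve_right (hc i)

theorem eq_zero (hγ : IsBranch o C γ) {a s : ℂ} (h : a • deriv γ 0 o = s • γ 0 o) : a = 0 :=
  (li_pair_iff.1 hγ.imm).2 a s h

theorem notMem (hγ : IsBranch o C γ) : deriv γ 0 ∉ Nr (γ 0) := fun h =>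
  let ⟨_, hb⟩ := mem_Nr.1 h
  one_ne_zero (eq_zero hγ ((one_smul ℂ _).trans (congrFun hb o)))

theorem Nr_le (h : Nod o C) (hc : c ∈ C) : Nr c ≤ Tg C c := fun v hv => by
  obtain ⟨b, rfl⟩ := mem_Nr.1 hv
  have h1 : AnalyticAt ℂ (fun t : ℂ => (1 : ι → ℂ) + t • b) 0 := by fun_prop
  have h2 : HasDerivAt (fun t : ℂ => (1 : ι → ℂ) + t • b) b 0 := by
    simpa using ((hasDerivAt_id (0 : ℂ)).smul_const b).const_add 1
  refine Submodule.subset_span ⟨fun t => (1 + t • b) • c, an_smul h1 analyticAt_const, ?_, by simp,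
    ?_⟩
  · filter_upwards [eventually_all.2 fun i =>
      (continuousAt_pi.1 h1.continuousAt i).eventually_ne (y := 0) (by simp)] with t ht
    exact h.cone _ ht c hc
  · simpa using (hasDerivAt_smul' h2 (hasDerivAt_const (0 : ℂ) c)).deriv.symm

theorem mem_Tg (h : Nod o C) (hγ : IsBranch o C γ) (hn : ¬IsNode o C (γ 0)) :
    v ∈ Tg C (γ 0) ↔ ∃ a : ℂ, v - a • deriv γ 0 ∈ Nr (γ 0) := by
  refine ⟨fun hv => ?_, fun ⟨a, ha⟩ => ?_⟩
  · have : Tg C (γ 0) ≤ Submodule.span ℂ {deriv γ 0} ⊔ Nr (γ 0) := Submodule.span_le.2 (by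
      rintro _ ⟨δ, a, b, c, rfl⟩
      obtain ⟨j, s, ψ, -, -, -, -, -, d⟩ := (h.loc_of_branch hγ hn).lift a b c
      exact d ▸ Submodule.add_mem_sup (Submodule.mem_span_singleton.2 ⟨_, rfl⟩) (mem_Nr.2 ⟨_, rfl⟩))
    obtain ⟨y, hy, z, hz, rfl⟩ := Submodule.mem_sup.1 (this hv)
    obtain ⟨a, rfl⟩ := Submodule.mem_span_singleton.1 hy
    exact ⟨a, by rwa [add_sub_cancel_left]⟩
  · rw [← sub_add_cancel v (a • deriv γ 0)]
    exact add_mem (Nr_le h hγ.mem.self_of_nhds ha)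
      (Submodule.smul_mem _ _ (Submodule.subset_span ⟨γ, hγ.holo, hγ.mem, rfl, rfl⟩))

/-- a frame -/
def fr (c v : V M) (j : Option ι) : V M := j.elim v fun i => Pi.single i (c i)

theorem Tg_eq (h : Nod o C) (hγ : IsBranch o C γ) (hn : ¬IsNode o C (γ 0)) :
    Tg C (γ 0) = Submodule.span ℂ (range (fr (γ 0) (deriv γ 0))) := by
  refine le_antisymm (fun v hv => ?_) (Submodule.span_le.2 ?_)
  · obtain ⟨a, ha⟩ := (mem_Tg h hγ hn).1 hv
    rw [← sub_add_cancel v (a • deriv γ 0)]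
    exact add_mem (Submodule.span_mono (range_comp_subset_range some (fr (γ 0) (deriv γ 0))) ha)
      (Submodule.smul_mem _ _ (Submodule.subset_span ⟨none, rfl⟩))
  · rintro _ ⟨_ | i, rfl⟩
    exacts [Submodule.subset_span ⟨γ, hγ.holo, hγ.mem, rfl, rfl⟩,
      Nr_le h hγ.mem.self_of_nhds (Submodule.subset_span ⟨i, rfl⟩)]

theorem li_fr (h : Nod o C) (hγ : IsBranch o C γ) : LinearIndependent ℂ (fr (γ 0) (deriv γ 0)) :=
  linearIndependent_option.2 ⟨li (h.ne_zero _ hγ.mem.self_of_nhds), notMem hγ⟩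

theorem exists_br (h : Nod o C) (hc : c ∈ C) : ∃ γ, IsBranch o C γ ∧ γ 0 = c :=
  let ⟨γ, l⟩ := h.exists_loc hc
  ⟨γ true, l.br _, l.zero _⟩

theorem Tg_map {C' : Set (V M')} (L : V M →L[ℂ] V M') (h : MapsTo L C C') (hv : v ∈ Tg C c) :
    L v ∈ Tg C' (L c) := by
  refine (Submodule.span_le (p := (Tg C' (L c)).comap (L : V M →ₗ[ℂ] V M'))).2 ?_ hv
  rintro _ ⟨γ, a, b, rfl, rfl⟩
  exact Submodule.subset_span ⟨L ∘ γ, (L.analyticAt _).comp a, b.mono fun t ht => h ht, rfl,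
    (L.hasFDerivAt.comp_hasDerivAt 0 a.differentiableAt.hasDerivAt).deriv.symm⟩

theorem continuousAt_single {T : Type*} [TopologicalSpace T] {f : T → V M} {t : T}
    (h : ContinuousAt f t) (i : ι) : ContinuousAt (fun t => (Pi.single i (f t i) : V M)) t :=
  (ContinuousLinearMap.single ℂ (fun i => Fin (M i) → ℂ) i).continuous.continuousAt.comp
    (continuousAt_pi.1 h i)

end Psi

open Psi

variable {S Λ R R' J J' ι ι' ν κ : Type} [Fintype S] [Fintype Λ] [Fintype R] [Fintype R']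
  [Fintype J] [Fintype J'] [Fintype ι] [DecidableEq ι] [Fintype ι'] [DecidableEq ι'] [Fintype ν]
  [Fintype κ] {ch : Ch ι J} {F : Wt S Λ R J} {Z Z' : Set (ch.WF ν κ Λ)} {x : ch.WF ν κ Λ}
  {n : Mk ν κ}

theorem mem_sdψ_N {v : V ch.M} : v ∈ (ch.sdψ S Λ n).N x ↔ ∃ b : ι → ℂ, v = b • x.2.p n := mem_Nr

theorem mem_sdψ_B (hx : x.2 ∈ ch.base _) {γ : ℂ → V ch.M} (hγ : IsBranch ch.o (crv x.2) γ)
    (e : γ 0 = x.2.p n) {v : V ch.M} :
    v ∈ (ch.sdψ S Λ n).B x ↔ ∃ a : ℂ, v - a • deriv γ 0 ∈ (ch.sdψ S Λ n).N x := by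
  have := mem_Tg (v := v) hx.2.2.1.nod hγ (e ▸ (hx.2.2.2.1 n).2)
  rwa [e] at this

theorem notMem_sdψ_N {γ : ℂ → V ch.M} (hγ : IsBranch ch.o (crv x.2) γ) (e : γ 0 = x.2.p n) :
    deriv γ 0 ∉ (ch.sdψ S Λ n).N x := by
  have := notMem hγ
  rwa [e] at this

theorem Cuts.okψ (hc : ch.Cuts) (hZ : ∀ x ∈ Z, x.2 ∈ ch.base _) (n : Mk ν κ) :
    (ch.sdψ S Λ n).Ok (actF F) Z (Fintype.card ι + 1) (Fintype.card ι) := by
  have hp : Continuous fun z : Z => z.1.2.p n := continuous_iff_continuousAt.2 fun z =>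
    (W.an_p analyticAt_snd n).continuousAt.comp continuousAt_subtype_val
  have hm := fun z hz => (hZ z hz).2.2.2.1 n
  have hN := fun z hz => (hZ z hz).2.2.1.nod
  have hcl : IsClosed {z : Z × V ch.M | z.2 ∈ Nr (z.1.1.2.p n)} :=
    isClosed_span (B := fun z : Z => Nr (z.1.2.p n)) fun z => ⟨fun z i => Pi.single i (z.1.2.p n i),
      continuousAt_pi.2 (continuousAt_single hp.continuousAt), li (crv_ne (hm _ z.2).1),
      .of_forall fun _ => rfl⟩
  have hr := fun z hz => finrank_span_eq_card (li (crv_ne (hm z hz).1))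
  refine ⟨inferInstance, ⟨fun _ _ _ _ => trivial, fun a _ q _ q' _ => funext fun i => ?_,
    fun a _ z q _ => funext fun i => ?_, fun q _ => funext fun i => one_smul ℂ (q i),
    fun a b _ _ q _ => funext fun i => ?_, fun q _ => continuous_pi fun i => ?_⟩,
    ⟨fun _ _ => le_top, isClosed_span (κ := Option ι) (B := fun z : Z => Tg (crv z.1.2) (z.1.2.p n))
      fun z => ?_, fun z hz => ?_,
      fun z hz a ha q hq => ?_⟩,
    ⟨fun _ _ => le_top, hcl, fun z hz => hr z hz,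
      fun z hz a ha q hq => ?_⟩, fun z hz => Nr_le (hN z hz) (hm z hz).1⟩
  · simp only [Pi.add_apply, map_add, smul_add]
  · simp only [Pi.smul_apply, map_smul, smul_comm z]
  · change ((dup a.2).2.2 n i * (dup b.2).2.2 n i) • a.2.1 i (b.2.1 i (q i)) = _
    simp only [map_smul, mul_smul]
  · have := Units.continuous_val (M := ch.AF ν κ S)
    simp only [dup]
    fun_prop
  · have h1 := hc.locFam ⟨z.1.2, hZ _ z.2⟩
    obtain ⟨v, v1, v2⟩ := (h1.smAt (hm _ z.2).1 (hm _ z.2).2).exists_tangent h1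
    have h2 : Continuous fun y : Z => y.1.2 := continuous_snd.comp continuous_subtype_val
    have h3 := ((h2.subtype_mk fun y => hZ _ y.2).prodMk hp).continuousAt.eventually v2
    refine ⟨fun y => fr (y.1.2.p n) (v (y.1.2, y.1.2.p n)), continuousAt_pi.2 fun j => ?_, ?_,
      h3.mono fun y hy => ?_⟩
    · cases j
      exacts [v1.continuousAt.comp_of_eq (h2.prodMk hp).continuousAt rfl,
        continuousAt_single hp.continuousAt _]
    · obtain ⟨γ, a, b, c⟩ := h3.self_of_nhds (hm _ z.2).1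
      have := li_fr (hN _ z.2) a
      rwa [b, c] at this
    · obtain ⟨γ, a, b, c⟩ := hy (hm _ y.2).1
      have := Tg_eq (hN _ y.2) a (b ▸ (hm _ y.2).2)
      rwa [b, c] at this
  · obtain ⟨γ, a, b⟩ := exists_br (hN z hz) (hm z hz).1
    have := finrank_span_eq_card (li_fr (hN z hz) a)
    rwa [← Tg_eq (hN z hz) a (b ▸ (hm z hz).2), b, Fintype.card_option] at this
  · obtain ⟨L, hL⟩ : ∃ L : V ch.M →L[ℂ] V ch.M, ∀ v, L v = (ch.sdψ S Λ n).ρ a v :=
      ⟨.pi fun i => (dup a.2).2.2 n i • (a.2.1 i).comp (.proj i), fun _ => rfl⟩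
    have := Tg_map (C' := crv (actF F a z).2) L (fun c hc => (mem_crv_actF ha).2
      ⟨_, (hN z hz).cone ((dup a.2).2.2 n) ((Cv.isUnit_iff.1 (isUnit_dupF ha)).2.2 n) c hc,
        (funext fun i => map_smul _ _ _).trans (hL c).symm⟩) hq
    rwa [hL, hL] at this
  · obtain ⟨b, rfl⟩ := mem_Nr.1 hq
    refine mem_Nr.2 ⟨b, funext fun i => ?_⟩
    simp only [actF_p, Pi.smul_apply', map_smul, smul_comm (b i)]

variable [Holo.IsAct (actF F) Z] (ho : Orb.Orb (ch.AF ν κ S)ˣ (Holo.Sp (actF F) Z)) (hc : ch.Cuts)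
  (hZ : ∀ x ∈ Z, x.2 ∈ ch.base _)
include ho hc hZ

theorem psiF_cocycle (n : Mk ν κ) : supp (δ (psiF n : Coch (Quo (actF F) Z))) = ∅ := by
  rw [psiF_eq]
  exact cocycle_neg ((hc.okψ hZ n).cocycle ho)

theorem psiF_deg (n : Mk ν κ) : IsDeg 2 (psiF n : Coch (Quo (actF F) Z)) := by
  have := ((hc.okψ hZ n).deg ho).neg
  rwa [Nat.add_sub_cancel_left, Nat.cast_one, mul_one] at this

/-- maps that do not change the curve -/
theorem psiF_same {F' : Wt S Λ R' J} [Holo.IsAct (actF F') Z']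
    (ho' : Orb.Orb (ch.AF ν κ S)ˣ (Holo.Sp (actF F') Z')) (hZ' : ∀ x ∈ Z', x.2 ∈ ch.base _)
    {f : ch.WF ν κ Λ → ch.WF ν κ Λ} (hf : EqM (actF F') (actF F) Z' Z id f)
    (e : ∀ x ∈ Z', crv (f x).2 = crv x.2 ∧ (f x).2.p = x.2.p) (n : Mk ν κ) :
    hcls (psiF n) = hcls (pull hf.map (psiF n)) := by
  have hB : ∀ x ∈ Z', (ch.sdψ S Λ n).B (f x) = (ch.sdψ S Λ n).B x := fun x hx => by
    simp only [(e x hx).1, (e x hx).2]
  have hN : ∀ x ∈ Z', (ch.sdψ S Λ n).N (f x) = (ch.sdψ S Λ n).N x := fun x hx => by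
    simp only [(e x hx).2]
  have h1 := (hc.okψ hZ n).cocycle ho
  rw [psiF_eq, psiF_eq, map_neg, hcls_neg ((hc.okψ hZ' n).cocycle ho'),
    hcls_neg (cocycle_pull hf.map.continuous h1)]
  exact congrArg Neg.neg ((hc.okψ hZ' n).pull ho' ho (hc.okψ hZ n) hf (L := fun _ => .id)
    ⟨fun _ _ => continuousOn_const, fun x hx _ h => (hB x hx).ge h, fun x hx _ h => (hN x hx).ge h,
      fun x hx a ha w hw => (Submodule.Quotient.eq _).1 rfl⟩ (fun x hx _ _ h => (hN x hx).le h)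
    fun x hx w hw => ⟨w, (hB x hx).le hw, (sub_self w).symm ▸ zero_mem _⟩).1

omit ho hc hZ in
/-- restriction to a smaller chart -/
theorem psiF_res {ch' : Ch ι' J'} {D : ch'.Res ι J} {F' : Wt S Λ R' J'} {Z : Set (D.ch.WF ν κ Λ)}
    {Z' : Set (ch'.WF ν κ Λ)} [Holo.IsAct (actF F) Z] [Holo.IsAct (actF F') Z']
    (ho : Orb.Orb (D.ch.AF ν κ S)ˣ (Holo.Sp (actF F) Z)) (hc : D.ch.Cuts)
    (hZ : ∀ x ∈ Z, x.2 ∈ D.ch.base _) (ho' : Orb.Orb (ch'.AF ν κ S)ˣ (Holo.Sp (actF F') Z'))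
    (hc' : ch'.Cuts) (hZ' : ∀ x ∈ Z', x.2 ∈ ch'.base _ ∧ Nod (D.σ D.o) (crv x.2))
    {f : ch'.WF ν κ Λ → D.ch.WF ν κ Λ} (hf : EqM (actF F') (actF F) Z' Z D.θF f)
    (e : ∀ x ∈ Z', crv (f x).2 = rV D.σ '' crv x.2 ∧ ∀ n, (f x).2.p n = rV D.σ (x.2.p n))
    (n : Mk ν κ) : hcls (psiF n) = hcls (pull hf.map (psiF n)) := by
  have o := hc.okψ (S := S) (F := F) hZ n
  have o' := hc'.okψ (S := S) (F := F') (fun x hx => (hZ' x hx).1) n
  have hL : (ch'.sdψ S Λ n).Hom (D.ch.sdψ S Λ n) (actF F') Z' D.θF f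
      fun _ => (rV D.σ : V ch'.M →L[ℂ] _) := by
    refine ⟨fun _ _ => continuousOn_const, fun x hx w hw => ?_, fun x hx w hw => ?_,
      fun x hx a ha w hw => (Submodule.Quotient.eq _).1 rfl⟩
    · have := Tg_map (rV D.σ) (mapsTo_image _ _) hw
      rwa [← (e x hx).1, ← (e x hx).2] at this
    · obtain ⟨b, rfl⟩ := mem_Nr.1 hw
      exact mem_Nr.2 ⟨fun i => b (D.σ i), ((e x hx).2 n).symm ▸ rfl⟩
  have hi : (ch'.sdψ S Λ n).Inj (D.ch.sdψ S Λ n) Z' f fun _ => (rV D.σ : V ch'.M →L[ℂ] _) := by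
    intro x hx w hw h1
    obtain ⟨h2, h3⟩ := hZ' x hx
    obtain ⟨γ, a, b⟩ := exists_br h2.2.2.1.nod (h2.2.2.2.1 n).1
    obtain ⟨c, h4⟩ := (mem_sdψ_B h2 a b).1 hw
    obtain ⟨s, h5⟩ := mem_Nr.1 h4
    obtain ⟨t, h6⟩ := mem_Nr.1 h1
    have h7 : w (D.σ D.o) = t D.o • x.2.p n (D.σ D.o) := by
      rw [(e x hx).2] at h6
      exact congrFun h6 D.o
    have h8 : w (D.σ D.o) - c • deriv γ 0 (D.σ D.o) = s _ • x.2.p n (D.σ D.o) := congrFun h5 _
    rwa [eq_zero (a.of_nod h3) (a := c) (s := t D.o - s (D.σ D.o)) (by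
      rw [b, sub_smul, ← h7, ← h8, sub_sub_cancel]), zero_smul, sub_zero] at h4
  rw [psiF_eq, psiF_eq, map_neg, hcls_neg (o'.cocycle ho'),
    hcls_neg (cocycle_pull hf.map.continuous (o.cocycle ho))]
  exact congrArg Neg.neg (o'.pull ho' ho o hf hL hi
    ((hL.rank o' o hf.maps hi).2 fun _ => by omega)).1

end Vale.Agent.P269.Ch
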