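import Vale.Agent.P269.Map.W
import Vale.Agent.P269.Prop.TopB

set_option linter.unusedSectionVars false
set_option linter.style.haveILetI false

/-!
# The calculus of virtual pull-backs
-/

namespace Vale.Agent.P269.Ch.KD

open Set Function Topology Filter Module Vale.Agent.P291Z Vale.Agent.P269.Orb Holo

variable {A A' W W' P P' P'' : Type} [NormedRing A] [NormedAlgebra ℂ A] [NormedAddCommGroup W]
  [NormedSpace ℂ W] [AddCommGroup P] [Module ℂ P] [TopologicalSpace P] [NormedRing A']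
  [NormedAlgebra ℂ A'] [NormedAddCommGroup W'] [NormedSpace ℂ W'] [AddCommGroup P'] [Module ℂ P']
  [TopologicalSpace P'] [AddCommGroup P''] [Module ℂ P''] [TopologicalSpace P'']
  [IsTopologicalAddGroup P] [ContinuousSMul ℂ P] [T2Space P]
  [IsTopologicalAddGroup P'] [ContinuousSMul ℂ P'] [T2Space P']
  [IsTopologicalAddGroup P''] [ContinuousSMul ℂ P''] [T2Space P'']
  [FiniteDimensional ℂ A] [FiniteDimensional ℂ A'] [FiniteDimensional ℂ W] [FiniteDimensional ℂ W']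
  {act : A → W → W} {act' : A' → W' → W'} {Z Z₀ S O O₀ : Set W} {Z' O' : Set W'} {D : KD A W P}
  {D' : KD A' W' P'} {n r n' r' n₀ r₀ d : ℕ}

theorem finrank_inf_ker' {V V' : Type} [AddCommGroup V] [Module ℂ V] [AddCommGroup V'] [Module ℂ V']
    (T : Submodule ℂ V) [FiniteDimensional ℂ T] (f : V →ₗ[ℂ] V') :
    finrank ℂ (T.map f) + finrank ℂ (T ⊓ LinearMap.ker f : Submodule ℂ V) = finrank ℂ T := by
  have h1 := LinearMap.finrank_range_add_finrank_ker (f.domRestrict T)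
  rwa [LinearMap.range_domRestrict, LinearMap.ker_domRestrict,
    ← Submodule.finrank_map_subtype_eq, Submodule.map_comap_subtype] at h1

namespace Gd

variable (h : D.Gd act Z O n r)
include h

theorem exists_isKP : ∃ (k : KP h.dom.sp) (i : k.P.W →ₗ[ℂ] P), h.dom.IsKP k i ∧ k.v = n ∧ k.r = r ∧
    D.vr act Z O = k.vir (Quo.incl act h.dom.sub) :=
  let ⟨k, i, h1, h2, h3⟩ := h.dom.exists_isKP h.ok Subset.rfl
  ⟨k, i, h1, h2, h3, h.dom.vr_eq h1⟩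

theorem nice : Nice (Quo act O) := h.dom.nice

theorem niceZ : Nice (Quo act Z) :=
  let ⟨_, _, h1, _⟩ := h.exists_isKP
  h.dom.niceZ h1

theorem ivt : Ivt act O := h.dom.isAct.mem

theorem ivtZ : Ivt act Z :=
  let ⟨_, _, h1, _⟩ := h.exists_isKP
  (h.dom.isActZ h1).mem

theorem isActZ : IsAct act Z := h.dom.isAct.mono h.dom.sub h.ivtZ

theorem lc : IsLocallyClosed O :=
  haveI := h.dom.niceT
  Subtype.range_coe (s := O) ▸ Orb.Dim.lc_range IsEmbedding.subtypeVal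

theorem clo : Clo Z O := by
  obtain ⟨k, i, h1, -⟩ := h.exists_isKP
  obtain ⟨C, h2, h3⟩ := isClosed_induced_iff.1 k.isClosed_Zs
  refine ⟨C, h2, Set.ext fun x => ⟨fun hx => ⟨h.dom.sub hx, ?_⟩, fun hx => ?_⟩⟩
  · exact h3.ge ((h.dom.mem_Zs h1 (t := ⟨x, h.dom.sub hx⟩)).2 hx)
  · exact (h.dom.mem_Zs h1 (t := ⟨x, hx.1⟩)).1 (h3.le hx.2)

theorem lcZ : IsLocallyClosed Z :=
  let ⟨_, h1, h2⟩ := h.clo
  h2 ▸ h.lc.inter h1.isLocallyClosed

theorem orbZ : haveI := h.isActZ; Orb Aˣ (Holo.Sp act Z) :=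
  haveI := h.isActZ
  haveI := h.dom.isAct
  orb_mono h.dom.orb h.dom.sub h.lcZ

theorem isClosedEmbedding : IsClosedEmbedding (Quo.incl act h.dom.sub) :=
  let ⟨_, _, h1, _⟩ := h.exists_isKP
  (h.dom.isZ h1).emb

/-- restriction to an invariant locally closed subset -/
theorem mono (e : O₀ ⊆ O) (hi : Ivt act O₀) (hl : IsLocallyClosed O₀) (hZ : Z₀ = Z ∩ O₀) :
    D.Gd act Z₀ O₀ n r :=
  haveI := h.dom.isAct
  haveI := h.dom.isAct.mono e hi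
  ⟨⟨hZ ▸ inter_subset_right, ⟨univ, isOpen_univ, (inter_univ _).symm⟩, ‹_›,
    orb_mono h.dom.orb e hl, fun x hx => (h.dom.zero x (e hx)).trans (hZ ▸ (and_iff_left hx).symm)⟩,
    h.ok.mono e⟩

theorem vr_deg {m : ℤ} {β : BM (Quo act O)} (hβ : BM.IsDeg m β) :
    BM.IsDeg (m - 2 * r) (D.vr act Z O β) := by
  obtain ⟨k, i, -, -, h1, h2⟩ := h.exists_isKP
  have h3 := KP.vir_deg hβ k (Quo.incl act h.dom.sub)
  rw [h1] at h3
  rw [h2]
  exact h3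

theorem vr_cap {c : Coch (Quo act O)} (hc : supp (δ c) = ∅) (β : BM (Quo act O)) :
    D.vr act Z O (cap (hcls c) β) =
      cap (hcls (pull (Quo.incl act h.dom.sub) c)) (D.vr act Z O β) := by
  obtain ⟨k, i, h1, -, -, h2⟩ := h.exists_isKP
  rw [h2]
  exact (h.dom.isZ h1).vir_cap' hc β

/-- open parts -/
theorem vr_res [Nice (Quo act O)] (e : O₀ ⊆ O) (hi : Ivt act O₀) (ho : ∃ U, IsOpen U ∧ O₀ = O ∩ U)
    (hZ : Z ⊆ O₀) (β : BM (Quo act O)) :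
    D.vr act Z O β = D.vr act Z O₀ (res (Quo.incl act e) β) := by
  obtain ⟨k, i, h1, -, -, h2⟩ := h.exists_isKP
  obtain ⟨U, hU, rfl⟩ := ho
  have h₀ := h.dom.inter hU (hZ.trans inter_subset_right) fun a ha x hx => (hi a ha x hx).2
  have h3 := h.dom.isKP_pb h1 h₀ e
  rw [h2, h₀.vr_eq h3]
  exact h.dom.vir_res h1 h₀ e h3 β

theorem holOrb (hm : Mf A O d) :
    haveI := h.dom.isAct; HolOrb Aˣ (Holo.Sp.val : Holo.Sp act O → W) d :=
  haveI := h.dom.isAct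
  holOrb_of_orb h.dom.orb fun x => (hm x x.2).2

theorem res_fu [Nice (Quo act O)] (hm : Mf A O d) {D₀ : KD A W P'} (h₀ : D₀.Gd act Z₀ O₀ n₀ r₀)
    (e : O₀ ⊆ O) (ho : ∃ U, IsOpen U ∧ O₀ = O ∩ U) :
    Mf A O₀ d ∧ res (Quo.incl act e) (h.fu d) = h₀.fu d := by
  haveI := h.dom.isAct
  haveI := h₀.dom.isAct
  refine ⟨fun x hx => ⟨hx, (isMfd_of_nhdsWithin hx e ?_).2 (hm x (e hx)).2⟩,
    (h.holOrb hm).res_open isQuo_sp isQuo_sp (Holo.Sp.isOpenEmbedding_incl e ho)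
      (Holo.Sp.incl_smul e) fun _ => rfl⟩
  obtain ⟨U, hU, rfl⟩ := ho
  exact inter_mem_nhdsWithin _ (hU.mem_nhds hx.2)

theorem isFund_fu (hm : Mf A O d) : P269.IsFund act O (h.fu d) :=
  haveI := h.dom.isAct
  haveI := h.dom.orb.proper
  haveI := h.dom.niceT
  (h.holOrb hm).isFund_sp

/-- the ranks agree if the comparison map is bijective somewhere -/
theorem rank_eq (h' : D'.Gd act' Z' O' n' r') {θ : A → A'} {f : W → W'} {B : P →ₗ[ℂ] P'}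
    (hm : MapsTo f O O') (hL : D.Lin D' θ f O B) (hi : D.Inj D' f Z B) (hs : D.Srj D' f Z B)
    (hZ : Z.Nonempty) : r = r' := by
  obtain ⟨x, hx⟩ := hZ
  have h1 := h.dom.sub hx
  have h2 := (h.dom.zero x h1).2 hx
  have h3 : D'.s (f x) ∈ D'.van (f x) := by
    have := (D'.van (f x)).sub_mem (hL.van x h1 _ h2) (hL.sec x h1)
    rwa [sub_sub_cancel] at this
  haveI := h.ok.fin
  haveI := h'.ok.fin
  haveI := Submodule.finiteDimensional_of_le (h.ok.obs_le x h1 h2)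
  haveI := Submodule.finiteDimensional_of_le (h'.ok.obs_le _ (hm h1) h3)
  have h4 := finrank_inf_ker' (D.obs x) ((D'.van (f x)).mkQ ∘ₗ B)
  have h5 := finrank_inf_ker' (D'.obs (f x)) (D'.van (f x)).mkQ
  have h6 : D.obs x ⊓ LinearMap.ker ((D'.van (f x)).mkQ ∘ₗ B) = D.van x :=
    le_antisymm (fun w hw => hi x hx w hw.1 ((Submodule.Quotient.mk_eq_zero _).1 hw.2)) fun w hw =>
      ⟨h.ok.le_obs x h1 h2 hw, (Submodule.Quotient.mk_eq_zero _).2 (hL.van x h1 w hw)⟩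
  have h7 : (D.obs x).map ((D'.van (f x)).mkQ ∘ₗ B) = (D'.obs (f x)).map (D'.van (f x)).mkQ := by
    refine le_antisymm ?_ ?_
    · rintro _ ⟨w, hw, rfl⟩
      exact ⟨B w, hL.obs x h1 h2 w hw, rfl⟩
    · rintro _ ⟨w, hw, rfl⟩
      obtain ⟨u, hu, e⟩ := hs x hx w hw
      exact ⟨u, hu, (Submodule.Quotient.eq _).2 e⟩
  rw [h6, h7, h.ok.fam.rank x h1, h.ok.obs_rank x h1 h2] at h4
  rw [Submodule.ker_mkQ, inf_eq_right.2 (h'.ok.le_obs _ (hm h1) h3), h'.ok.fam.rank _ (hm h1),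
    h'.ok.obs_rank _ (hm h1) h3] at h5
  omega

theorem dom' (ho : ∃ U, IsOpen U ∧ O = S ∩ U) : D.Dom act Z S O :=
  ⟨h.dom.sub, ho, h.dom.isAct, h.dom.orb, h.dom.zero⟩

theorem inter {U : Set W} (hU : IsOpen U) (hi : Ivt act (O ∩ U)) (hZ : Z ⊆ U) :
    D.Gd act Z (O ∩ U) n r :=
  h.mono inter_subset_left hi (h.lc.inter hU.isLocallyClosed)
    (inter_eq_left.2 (subset_inter h.dom.sub hZ)).symm

theorem vr_fu {U : Set W} (hU : IsOpen U) (hi : Ivt act (O ∩ U)) (hZ : Z ⊆ U) (hm : Mf A O d) :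
    Mf A (O ∩ U) d ∧ D.vr act Z O (h.fu d) = D.vr act Z (O ∩ U) ((h.inter hU hi hZ).fu d) := by
  haveI := h.nice
  have h1 := h.res_fu hm (h.inter hU hi hZ) inter_subset_left ⟨U, hU, rfl⟩
  exact ⟨h1.1, (h.vr_res inter_subset_left hi ⟨U, hU, rfl⟩ (subset_inter h.dom.sub hZ) _).trans
    (congrArg _ h1.2)⟩

end Gd

/-- A regular part with a proper action. -/
theorem Reg.gd [IsAct act O] (h : D.Reg act Z S O n r) (ho : Orb Aˣ (Holo.Sp act O)) :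
    D.Gd act Z O n r :=
  ⟨⟨h.sub, ⟨univ, isOpen_univ, (inter_univ _).symm⟩, ‹_›, ho, h.zero⟩, h.ok⟩

theorem Reg.inter [IsAct act univ] (h : D.Reg act Z S O n r) {U : Set W} (hU : IsOpen U)
    (hi : Ivt act (O ∩ U)) (hZ : Z ⊆ U) : D.Reg act Z S (O ∩ U) n r :=
  let ⟨V, h1, h2⟩ := h.opn
  ⟨subset_inter h.sub hZ, ⟨V ∩ U, h1.inter hU, by rw [h2, inter_assoc]⟩, hi,
    h.lc.inter hU.isLocallyClosed, fun x hx => h.zero x hx.1, h.ok.mono inter_subset_left⟩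

/-- the invariant open set on which two invariant sets agree locally -/
theorem exists_loc [IsAct act univ] {S' : Set W} (h : Ivt act S) (h' : Ivt act S')
    (e : ∀ x ∈ Z, ∀ᶠ y in 𝓝 x, y ∈ S ↔ y ∈ S') :
    ∃ U, IsOpen U ∧ Ivt act U ∧ Z ⊆ U ∧ S ∩ U = S' ∩ U := by
  haveI := FiniteDimensional.complete ℂ A
  obtain ⟨U, h1, h2, h3, h4⟩ :=
    TopB.exists_sat (act := act) (isOpen_interior (s := {y | y ∈ S ↔ y ∈ S'}))
  refine ⟨U, h1, fun _ ⟨g, hg⟩ x hx => hg ▸ h2 g x hx,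
    fun x hx => h3 (mem_interior_iff_mem_nhds.2 (e x hx)),
    Set.ext fun y => and_congr_left fun hy => ?_⟩
  obtain ⟨g, hg⟩ := h4 y hy
  have h5 : act g y ∈ S ↔ act g y ∈ S' := interior_subset (s := {y | y ∈ S ↔ y ∈ S'}) hg
  exact ⟨fun a => TopB.act_inv act g y ▸ h' _ g⁻¹.isUnit _ (h5.1 (h _ g.isUnit y a)),
    fun a => TopB.act_inv act g y ▸ h _ g⁻¹.isUnit _ (h5.2 (h' _ g.isUnit y a))⟩

variable {v v' : BM (Quo act Z)}

theorem IsW.eq_vr (hv : D.IsW act Z S d v) (h : D.Gd act Z O n r) (ho : ∃ U, IsOpen U ∧ O = S ∩ U)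
    (hm : Mf A O d) : v = D.vr act Z O (h.fu d) := by
  obtain ⟨O₁, n₁, r₁, h₁, ⟨U₁, a₁, b₁⟩, hm₁, rfl⟩ := hv
  obtain ⟨U, a, b⟩ := ho
  have h1 : O₁ ∩ U = O ∩ U₁ := by rw [b, b₁, inter_right_comm]
  have h2 : Ivt act (O ∩ U₁) := fun g hg x hx =>
    ⟨h.ivt g hg x hx.1, (b₁.le (h₁.ivt g hg x (h1.ge hx).1)).2⟩
  have h3 : Z ⊆ U₁ := fun x hx => (b₁.le (h₁.dom.sub hx)).2
  have h4 : Z ⊆ U := fun x hx => (b.le (h.dom.sub hx)).2
  have h5 : ∀ (T : Set W) (e : T = O ∩ U₁) (k : D.Gd act Z T n₁ r₁),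
      D.vr act Z T (k.fu d) = D.vr act Z (O ∩ U₁) ((h.inter a₁ h2 h3).fu d) := by
    rintro _ rfl k
    rfl
  rw [(h.vr_fu a₁ h2 h3 hm).2, (h₁.vr_fu a (h1 ▸ h2) h4 hm₁).2]
  exact h5 _ h1 _

theorem IsW.unique (hv : D.IsW act Z S d v) (hv' : D.IsW act Z S d v') : v = v' :=
  let ⟨_, _, _, h, h1, h2, h3⟩ := hv'
  (hv.eq_vr h h1 h2).trans h3.symm

/-- the domain can be shrunk -/
theorem IsW.exists_le (hv : D.IsW act Z S d v) {U : Set W} (hU : IsOpen U) (hi : Ivt act U)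
    (hZ : Z ⊆ U) : ∃ (O : Set W) (n r : ℕ) (h : D.Gd act Z O n r), O ⊆ U ∧
      (∃ U, IsOpen U ∧ O = S ∩ U) ∧ Mf A O d ∧ v = D.vr act Z O (h.fu d) := by
  obtain ⟨O, n, r, h, ⟨V, a, b⟩, hm, rfl⟩ := hv
  have h1 : Ivt act (O ∩ U) := fun g hg x hx => ⟨h.ivt g hg x hx.1, hi g hg x hx.2⟩
  exact ⟨O ∩ U, n, r, h.inter hU h1 hZ, inter_subset_right,
    ⟨V ∩ U, a.inter hU, by rw [b, inter_assoc]⟩, h.vr_fu hU h1 hZ hm⟩

theorem IsW.congr [IsAct act univ] {S' : Set W} (hv : D.IsW act Z S d v) (h : Ivt act S)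
    (h' : Ivt act S') (e : ∀ x ∈ Z, ∀ᶠ y in 𝓝 x, y ∈ S ↔ y ∈ S') : D.IsW act Z S' d v := by
  obtain ⟨U, h1, h2, h3, h4⟩ := exists_loc h h' e
  obtain ⟨O, n, r, k, a, ⟨V, b, c⟩, f⟩ := hv.exists_le h1 h2 h3
  refine ⟨O, n, r, k, ⟨U ∩ V, h1.inter b, ?_⟩, f⟩
  rw [← inter_assoc, ← h4, inter_right_comm, ← c, inter_eq_left.2 a]

theorem IsV.congr [IsAct act univ] {S' : Set W} (hv : D.IsV act Z S v) (h : Ivt act S)
    (h' : Ivt act S') (e : ∀ x ∈ Z, ∀ᶠ y in 𝓝 x, y ∈ S ↔ y ∈ S') : D.IsV act Z S' v := by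
  obtain ⟨U, h1, h2, h3, h4⟩ := exists_loc h h' e
  obtain ⟨O, h₀, k, i, β, hk, hβ, rfl⟩ := hv
  have h₁ := h₀.inter h1 h3 fun g hg x hx => h2 g hg x hx.2
  obtain ⟨V, b, c⟩ := h₀.opn
  have h₂ : D.Dom act Z S' (O ∩ U) := ⟨h₁.sub, ⟨U ∩ V, h1.inter b, by
    rw [← inter_assoc, ← h4, inter_right_comm, ← c]⟩, h₁.isAct, h₁.orb, h₁.zero⟩
  have h5 := h₀.isKP_pb hk h₁ inter_subset_left
  haveI := h₀.isAct
  haveI := h₁.isAct
  haveI := h₀.nice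
  rw [h₀.vir_res hk h₁ inter_subset_left h5]
  exact h₂.isV h5 (hβ.res_open inter_subset_left (h₁.isOpen h₀.subset))

theorem Gd.isV (h : D.Gd act Z O n r) (ho : ∃ U, IsOpen U ∧ O = S ∩ U) {β : BM (Quo act O)}
    (hβ : P269.IsFund act O β) : D.IsV act Z S (D.vr act Z O β) := by
  obtain ⟨k, i, h1, -, -, h2⟩ := h.exists_isKP
  rw [h2]
  exact (h.dom' ho).isV h1 hβ

theorem IsW.isV (hv : D.IsW act Z S d v) : D.IsV act Z S v :=
  let ⟨_, _, _, h, h1, h2, h3⟩ := hv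
  h3 ▸ h.isV h1 (h.isFund_fu h2)

theorem uf_of_str (hs : Str act O d) : UF act O := by
  rintro _ ⟨V, h1, rfl⟩ _ ho β β' hβ hβ'
  have h2 := hs.inter h1 IsAct.mem
  haveI := ho.proper
  haveI : LocallyCompactSpace ↥(O ∩ V) := ho.nice.lc
  have h3 := holOrb_of_orb ho h2.mfd
  have h4 := isQuo_sp.meets (h2.dense_fre.mono fun _ => Holo.Sp.free_iff.1)
  exact (hβ.eq_fundQ h3 h4).trans (hβ'.eq_fundQ h3 h4).symm

/-- On a smooth base with dense free points both notions agree. -/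
theorem IsV.isW (hv : D.IsV act Z S v) (h : D.Gd act Z O n r) (ho : ∃ U, IsOpen U ∧ O = S ∩ U)
    (hs : Str act O d) : D.IsW act Z S d v := by
  obtain ⟨k, i, h1, -, -, h2⟩ := h.exists_isKP
  have hm : Mf A O d := fun x hx => ⟨hx, hs.mfd ⟨x, hx⟩⟩
  refine ⟨O, n, r, h, ho, hm, ?_⟩
  rw [h2]
  exact hv.eq_vir' (uf_of_str hs) (h.dom' ho) h1 (h.isFund_fu hm)

theorem IsV.exists_gd (hv : D.IsV act Z S v) (h : D.Reg act Z S O n r) :
    ∃ (O₁ : Set W) (β : BM (Quo act O₁)), O₁ ⊆ O ∧ (∃ U, IsOpen U ∧ O₁ = S ∩ U) ∧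
      D.Gd act Z O₁ n r ∧ P269.IsFund act O₁ β ∧ v = D.vr act Z O₁ β := by
  obtain ⟨O₀, h₀, k, i, β, hk, hβ, rfl⟩ := hv
  have h₁ := h₀.inter' h.sub h.opn h.inv
  have h5 := h₀.isKP_pb hk h₁ inter_subset_left
  haveI := h₀.isAct
  haveI := h₁.isAct
  haveI := h₀.nice
  refine ⟨O₀ ∩ O, _, inter_subset_right, h₁.opn, ⟨h₁.self, h.ok.mono inter_subset_right⟩,
    hβ.res_open inter_subset_left (h₁.isOpen h₀.subset), ?_⟩
  rw [h₁.vr_eq h5]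
  exact h₀.vir_res hk h₁ inter_subset_left h5 β

end Vale.Agent.P269.Ch.KD
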