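import Vale.Agent.P269.Gen.Abs
import Vale.Agent.P269.Holo.Etale

set_option linter.unusedSectionVars false

/-!
# Bundles of subquotients: definitions
-/

namespace Vale.Agent.P269.Ch

open Set Function Topology Filter

section gen

variable {A A' W W' P P' : Type} [NormedRing A] [NormedAlgebra ℂ A] [NormedAddCommGroup W]
  [NormedSpace ℂ W] [AddCommGroup P] [Module ℂ P] [TopologicalSpace P] [NormedRing A']
  [NormedAlgebra ℂ A'] [NormedAddCommGroup W'] [NormedSpace ℂ W'] [AddCommGroup P'] [Module ℂ P']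
  [TopologicalSpace P']

/-- The data of a family of subquotients `B x / N x` of a representation `P₀`. -/
structure SD (A W P : Type) [AddCommGroup P] [Module ℂ P] where
  /-- the action -/
  ρ : A → P → P
  /-- the finite dimensional representation -/
  P₀ : Submodule ℂ P
  /-- the big subspaces -/
  B : W → Submodule ℂ P
  /-- the small subspaces -/
  N : W → Submodule ℂ P

namespace SD

/-- The Euler cocycle. -/
noncomputable abbrev eu (E : SD A W P) (act : A → W → W) (S : Set W) : P291Z.Coch (Quo act S) :=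
  eulerC act E.ρ S E.B E.N

/-- The total Chern class. -/
noncomputable abbrev ch (E : SD A W P) (act : A → W → W) (S : Set W) :
    PowerSeries (Hev (Quo act S)) := chernT act E.ρ S E.B E.N

/-- The pull-back. -/
@[reducible] def pb (E : SD A W P) (θ : A' → A) (f : W' → W) : SD A' W' P :=
  ⟨fun a => E.ρ (θ a), E.P₀, fun x => E.B (f x), fun x => E.N (f x)⟩

/-- `E` is an equivariant vector bundle of rank `r - r'` over `S`. -/
structure Ok (E : SD A W P) (act : A → W → W) (S : Set W) (r r' : ℕ) : Prop where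
  fin : FiniteDimensional ℂ E.P₀
  rep : IsRepOn E.ρ E.P₀
  famB : IsFam act E.ρ S E.P₀ E.B r
  famN : IsFam act E.ρ S E.P₀ E.N r'
  le : ∀ x ∈ S, E.N x ≤ E.B x

/-- A homomorphism over the map `f`, equivariant along `θ`. -/
structure Hom (E : SD A W P) (E' : SD A' W' P') (act : A → W → W) (S : Set W) (θ : A → A')
    (f : W → W') (L : W → P →ₗ[ℂ] P') : Prop where
  cont : ∀ w ∈ E.P₀, ContinuousOn (fun x => L x w) S
  mapB : ∀ x ∈ S, ∀ w ∈ E.B x, L x w ∈ E'.B (f x)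
  mapN : ∀ x ∈ S, ∀ w ∈ E.N x, L x w ∈ E'.N (f x)
  eqv : ∀ x ∈ S, ∀ a, IsUnit a → ∀ w ∈ E.B x,
    L (act a x) (E.ρ a w) - E'.ρ (θ a) (L x w) ∈ E'.N (f (act a x))

/-- injective on the quotients -/
def Inj (E : SD A W P) (E' : SD A' W' P') (S : Set W) (f : W → W') (L : W → P →ₗ[ℂ] P') : Prop :=
  ∀ x ∈ S, ∀ w ∈ E.B x, L x w ∈ E'.N (f x) → w ∈ E.N x

/-- surjective on the quotients -/
def Srj (E : SD A W P) (E' : SD A' W' P') (S : Set W) (f : W → W') (L : W → P →ₗ[ℂ] P') : Prop :=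
  ∀ x ∈ S, ∀ w ∈ E'.B (f x), ∃ w' ∈ E.B x, L x w' - w ∈ E'.N (f x)

end SD

/-- A continuous equivariant map. -/
structure EqM (act : A → W → W) (act' : A' → W' → W') (S : Set W) (S' : Set W') (θ : A → A')
    (f : W → W') : Prop where
  hom : ∃ θ' : Aˣ →* A'ˣ, Continuous θ' ∧ ∀ g, (θ' g : A') = θ g
  maps : MapsTo f S S'
  cont : ContinuousOn f S
  eqv : ∀ a, IsUnit a → ∀ x ∈ S, f (act a x) = act' (θ a) (f x)

namespace EqM

variable {act : A → W → W} {act' : A' → W' → W'} {S S₀ : Set W} {S' S₀' : Set W'} {θ : A → A'}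
  {f : W → W'}

theorem isUnit (h : EqM act act' S S' θ f) {a : A} (ha : IsUnit a) : IsUnit (θ a) :=
  let ⟨θ', _, e⟩ := h.hom
  ⟨θ' ha.unit, e _⟩

/-- the induced map of orbit spaces -/
def map (h : EqM act act' S S' θ f) : C(Quo act S, Quo act' S') :=
  ⟨Quot.map (fun x => ⟨f x, h.maps x.2⟩) fun x _ ⟨a, h1, h2⟩ =>
    ⟨θ a, h.isUnit h1, (congrArg f h2).trans (h.eqv a h1 x x.2)⟩,
    continuous_quot_lift _ (continuous_quot_mk.comp (h.cont.domRestrict.subtype_mk _))⟩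

theorem map_mk (h : EqM act act' S S' θ f) (x : S) :
    h.map (Quo.mk act x) = Quo.mk act' ⟨f x, h.maps x.2⟩ := rfl

theorem eq_map (h : EqM act act' S S' θ f) {Φ : Quo act S → Quo act' S'}
    (e : ∀ x : S, Φ (Quo.mk act x) = Quo.mk act' ⟨f x, h.maps x.2⟩) : Φ = h.map :=
  funext fun z => Quot.inductionOn z e

theorem mono (h : EqM act act' S S' θ f) (e : S₀ ⊆ S) (e' : MapsTo f S₀ S₀') :
    EqM act act' S₀ S₀' θ f := ⟨h.hom, e', h.cont.mono e, fun a ha x hx => h.eqv a ha x (e hx)⟩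

theorem same {act₂ : A → W' → W'} (hm : MapsTo f S S') (hc : ContinuousOn f S)
    (he : ∀ a, IsUnit a → ∀ x ∈ S, f (act a x) = act₂ a (f x)) : EqM act act₂ S S' id f :=
  ⟨⟨.id _, continuous_id, fun _ => rfl⟩, hm, hc, he⟩

theorem incl (e : S₀ ⊆ S) : EqM act act S₀ S id id := same e continuousOn_id fun _ _ _ _ => rfl

theorem incl_map (e : S₀ ⊆ S) : ⇑(incl (act := act) e).map = Quo.incl act e := rfl

theorem comp {A'' W'' : Type} [NormedRing A''] [NormedAlgebra ℂ A''] [NormedAddCommGroup W'']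
    [NormedSpace ℂ W''] {act'' : A'' → W'' → W''} {S'' : Set W''} {θ' : A' → A''} {f' : W' → W''}
    (h' : EqM act' act'' S' S'' θ' f') (h : EqM act act' S S' θ f) :
    EqM act act'' S S'' (θ' ∘ θ) (f' ∘ f) :=
  let ⟨a, b, c⟩ := h.hom
  let ⟨a', b', c'⟩ := h'.hom
  ⟨⟨a'.comp a, b'.comp b, fun g => (c' _).trans (congrArg θ' (c g))⟩, h'.maps.comp h.maps,
    h'.cont.comp h.cont h.maps, fun s hs x hx =>
      (congrArg f' (h.eqv s hs x hx)).trans (h'.eqv _ (h.isUnit hs) _ (h.maps hx))⟩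

theorem _root_.Vale.Agent.P269.Holo.Et.eqM {θ : A →L[ℂ] A'} (h : Holo.Et act act' S S' θ f) :
    EqM act act' S S' θ f :=
  ⟨⟨h.ρ, Units.continuous_map θ.continuous, fun _ => rfl⟩, h.maps, h.continuousOn, h.eqv⟩

end EqM

theorem SD.Ok.pb {E : SD A W P} {act : A → W → W} {act' : A' → W' → W'} {S : Set W} {S' : Set W'}
    {θ : A' → A} {f : W' → W} {r r' : ℕ} (h : E.Ok act S r r') (hf : EqM act' act S' S θ f) :
    (E.pb θ f).Ok act' S' r r' := by
  obtain ⟨θ', c, e⟩ := hf.hom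
  have k : ∀ {B r}, IsFam act E.ρ S E.P₀ B r →
      IsFam act' (fun a => E.ρ (θ a)) S' E.P₀ (fun x => B (f x)) r := fun a =>
    ⟨fun x hx => a.le _ (hf.maps hx), IsClosed.preimage (f := fun z : S' × P =>
      ((⟨f z.1, hf.maps z.1.2⟩ : S), z.2)) (((hf.cont.domRestrict.comp
        continuous_fst).subtype_mk _).prodMk continuous_snd) a.closed, fun x hx => a.rank _ (hf.maps hx),
      fun x hx s hs q hq => hf.eqv s hs x hx ▸ a.inv _ (hf.maps hx) _ (hf.isUnit hs) q hq⟩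
  refine ⟨h.fin, ⟨fun a ha => h.rep.mem _ (hf.isUnit ha), fun a ha => h.rep.add _ (hf.isUnit ha),
    fun a ha => h.rep.smul _ (hf.isUnit ha), fun q hq => ?_, fun a b ha hb q hq => ?_,
    fun q hq => ?_⟩, k h.famB, k h.famN, fun x hx => h.le _ (hf.maps hx)⟩
  · have := e 1
    rw [map_one] at this
    exact (congrArg (E.ρ · q) this.symm).trans (h.rep.one q hq)
  · have := e (ha.unit * hb.unit)
    rw [map_mul, Units.val_mul, e, e] at this
    exact (congrArg (E.ρ · q) this.symm).trans (h.rep.mul _ _ (hf.isUnit ha) (hf.isUnit hb) q hq)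
  · exact ((h.rep.cont q hq).comp c).congr fun g => congrArg (E.ρ · q) (e g)

end gen

variable {S Λ R J ι ν κ : Type} [Fintype S] [Fintype Λ] [Fintype R] [Fintype J] [Fintype ι]
  [DecidableEq ι] [Fintype ν] [Fintype κ] (ch : Ch ι J)

variable (S Λ) in
/-- The tangent line at the marked point `n`. -/
@[reducible] noncomputable def sdψ (n : Mk ν κ) : SD (ch.AF ν κ S) (ch.WF ν κ Λ) (V ch.M) where
  ρ s v i := (dup s.2).2.2 n i • s.2.1 i (v i)
  P₀ := ⊤
  B x := Submodule.span ℂ {v | ∃ γ : ℂ → V ch.M, AnalyticAt ℂ γ 0 ∧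
    (∀ᶠ t in 𝓝 0, γ t ∈ crv x.2) ∧ γ 0 = x.2.p n ∧ v = deriv γ 0}
  N x := Submodule.span ℂ (range fun i => Pi.single i (x.2.p n i))

variable (ν κ)

/-- The space of the thickened field `j`. -/
@[reducible] noncomputable def sdX (F : Wt S Λ R J) (j : J) :
    SD (ch.AF ν κ S) (ch.WF ν κ Λ) (Tens ch.M (ch.b j) →L[ℂ] ch.E (some j)) :=
  ⟨ρX F j, ⊤, fun _ => ⊤, fun _ => ⊥⟩

/-- The obstruction bundle of the Koszul relations of the field `j`. -/
@[reducible] noncomputable def sdK (F : Wt S Λ R J) (j : J) :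
    SD (ch.AF ν κ S) (ch.WF ν κ Λ) (ch.P Empty) where
  ρ := ρK F
  P₀ := ch.polS (K := Empty) Empty.elim Empty.elim
  B x := Submodule.span ℂ {f | f ∈ ch.polK j ∧ ∀ z ∈ gr x.2,
    ∃ y : Tens ch.M (ch.b j) →L[ℂ] ℂ, ∀ m, f.1 j z m = val m.2 z.1 * y m.1 - val m.1 z.1 * y m.2}
  N x := Submodule.span ℂ {f | f ∈ ch.polK j ∧ ∀ z ∈ gr x.2, f.1 j z = 0}

variable {ch ν κ} {F : Wt S Λ R J} {Z : Set (ch.WF ν κ Λ)}

theorem psiF_eq (n : Mk ν κ) : psiF n = -(ch.sdψ S Λ n).eu (actF F) Z := rfl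

theorem indC_eq (j : J) : indC F Z j =
    (ch.sdX ν κ F j).ch (actF F) Z * ((ch.sdK ν κ F j).ch (actF F) Z).invOfUnit 1 := rfl

end Vale.Agent.P269.Ch
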