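import Vale.Agent.P269.Map.W
import Vale.Agent.P269.Orb.TZ

set_option linter.unusedSectionVars false

/-!
# Additional variables that are determined by additional equations
-/

namespace Vale.Agent.P269.Ch.KD

open Set Function Topology Filter Module Vale.Agent.P291Z Vale.Agent.P269.Orb Holo

variable {A W V P P' : Type} [NormedRing A] [NormedAlgebra ℂ A] [NormedAddCommGroup W]
  [NormedSpace ℂ W] [NormedAddCommGroup V] [NormedSpace ℂ V] [AddCommGroup P] [Module ℂ P]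
  [TopologicalSpace P] [IsTopologicalAddGroup P] [ContinuousSMul ℂ P] [T2Space P]
  [AddCommGroup P'] [Module ℂ P'] [TopologicalSpace P'] [IsTopologicalAddGroup P']
  [ContinuousSMul ℂ P'] [T2Space P'] [FiniteDimensional ℂ A] [FiniteDimensional ℂ W]
  [FiniteDimensional ℂ V] {act : A → W → W} [IsAct act univ] {ρ : A → V → V} {p : W →L[ℂ] W}
  {q : W →L[ℂ] V} {ι : V →L[ℂ] W} {Z₁ Z₀ O₁ O₀ : Set W} {D₁ : KD A W P} {D₀ : KD A W P'}
  {n₁ r₁ n₀ r₀ d : ℕ}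

namespace Spt

variable (s : Spt act ρ p q ι) {x : W}
include s

theorem q_add (hx : q x = 0) (v : V) : q (x + ι v) = v := by rw [map_add, hx, s.q_ι, zero_add]

theorem p_add (hx : q x = 0) (v : V) : p (x + ι v) = x :=
  add_right_cancel ((congrArg (fun w => p (x + ι v) + ι w) (s.q_add hx v)).symm.trans (s.add _))

theorem act_add {a : A} (ha : IsUnit a) (hx : q x = 0) (v : V) :
    act a (x + ι v) = act a x + ι (ρ a v) := by
  rw [← s.add (act a _), s.p_act a ha, s.q_act a ha, s.p_add hx, s.q_add hx]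

theorem mf (h0 : ∀ x ∈ O₀, q x = 0) (hm : Mf A O₀ d)
    (ho : ∃ U, IsOpen U ∧ O₁ = p ⁻¹' O₀ ∩ U) : Mf A O₁ (d + finrank ℂ V) := by
  obtain ⟨U, hU, rfl⟩ := ho
  intro x hx
  have := FiniteDimensional.complete ℂ W
  have := FiniteDimensional.complete ℂ V
  have c : Continuous fun y : W × V => y.1 + ι y.2 := by fun_prop
  have := ((hm _ hx.1).prod (MfdAt.univ (q x))).iso (S' := p ⁻¹' O₀ ∩ U)
    (F := fun y => y.1 + ι y.2) (G := fun y => (p y, q y))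
    (analyticAt_fst.add ((ι.analyticAt _).comp analyticAt_snd))
    ((p.analyticAt _).prod (q.analyticAt _))
    ((c.continuousAt.eventually_mem (hU.mem_nhds ((s.add x).symm ▸ hx.2))).mono fun y a b =>
      ⟨⟨(mem_of_eq_of_mem (s.p_add (h0 _ b.1) y.2) b.1 :), a⟩,
        Prod.ext (s.p_add (h0 _ b.1) _) (s.q_add (h0 _ b.1) _)⟩)
    (.of_forall fun y a => ⟨⟨a.1, trivial⟩, s.add y⟩)
  rwa [s.add, add_assoc] at this

theorem orb [IsAct act O₀] [IsAct act O₁] (ho : Orb Aˣ (Holo.Sp act O₀)) (e : O₁ ⊆ p ⁻¹' O₀)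
    (hl : IsLocallyClosed O₁) : Orb Aˣ (Holo.Sp act O₁) :=
  haveI := FiniteDimensional.proper ℂ W
  haveI : LocallyCompactSpace O₁ := hl.locallyCompactSpace
  haveI : Nice (Holo.Sp act O₁) := ⟨inferInstance, inferInstance, inferInstance⟩
  ho.of_map (f := fun x : Holo.Sp act O₁ => .of act (p x.val) (e x.val_mem))
    ((p.continuous.comp Holo.Sp.continuous_val).subtype_mk _)
    fun g _ => Holo.Sp.ext (s.p_act _ g.isUnit _)

/-- the representation -/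
noncomputable def lin (a : Aˣ) : V →L[ℂ] V := LinearMap.toContinuousLinearMap
  ⟨⟨ρ a, fun _ _ => s.rep.add _ a.isUnit _ trivial _ trivial⟩,
    fun _ _ => s.rep.smul _ a.isUnit _ _ trivial⟩

variable [IsAct act O₀] (ho : Orb Aˣ (Holo.Sp act O₀))

/-- the bundle of the representation -/
noncomputable def vb : VB (spA ho) :=
  VB.ofLin V (fun g : Aˣ => s.lin g) (fun _ => s.rep.one _ trivial)
    (fun g h _ => s.rep.mul _ _ g.isUnit h.isUnit _ trivial)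
    (((continuous_clm_apply.2 fun v => s.rep.cont v trivial :
      Continuous s.lin).comp continuous_fst).clm_apply continuous_snd)
    (fun _ => ⊤) _ isClosed_univ (fun _ => finrank_top ℂ V) fun _ _ _ _ => trivial

/-- a point of the total space -/
def pt (x : Holo.Sp act O₀) (v : V) : (s.vb ho).tot.T := (⟨(x, v), trivial⟩ : (s.vb ho).V)

/-- the coordinates on the total space -/
def crd (x : (s.vb ho).tot.T) : W :=
  Holo.Sp.val (act := act) (S := O₀) x.1.1 + ι x.1.2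

theorem cont_pt {X : Type} [TopologicalSpace X] {f : X → Holo.Sp act O₀} {g : X → V}
    (hf : Continuous f) (hg : Continuous g) : Continuous fun x => s.pt ho (f x) (g x) :=
  (hf.prodMk hg).subtype_mk _

theorem cont_crd : Continuous (s.crd ho) :=
  (Holo.Sp.continuous_val.comp (s.vb ho).proj.cf).add (ι.continuous.comp (s.vb ho).isSec_tau.cont)

/-- the comparison with the total space -/
noncomputable def mor [IsAct act O₁] (ho₁ : Orb Aˣ (Holo.Sp act O₁)) (e : O₁ ⊆ p ⁻¹' O₀) :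
    Mor (spA ho₁) (s.vb ho).tot :=
  ⟨MonoidHom.id Aˣ, fun x : Holo.Sp act O₁ => s.pt ho (.of act (p x.val) (e x.val_mem)) (q x.val),
    continuous_id, s.cont_pt ho ((p.continuous.comp Holo.Sp.continuous_val).subtype_mk _)
      (q.continuous.comp Holo.Sp.continuous_val), fun g : Aˣ => fun _ =>
      Subtype.ext (Prod.ext (Subtype.ext (s.p_act _ g.isUnit _)) (s.q_act _ g.isUnit _))⟩

variable (h0 : ∀ x ∈ O₀, q x = 0)
include h0

theorem p_crd (x : (s.vb ho).tot.T) :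
    p (s.crd ho x) = Holo.Sp.val (act := act) (S := O₀) x.1.1 := s.p_add (h0 _ x.1.1.2) _

theorem crd_mem (x : (s.vb ho).tot.T) : s.crd ho x ∈ p ⁻¹' O₀ :=
  (mem_of_eq_of_mem (s.p_crd ho h0 x) x.1.1.2 :)

theorem q_crd (x : (s.vb ho).tot.T) : q (s.crd ho x) = x.1.2 := s.q_add (h0 _ x.1.1.2) _

theorem crd_smul (g : Aˣ) (x : (s.vb ho).tot.T) :
    s.crd ho ((show (s.vb ho).tot.G from g) • x) = act g (s.crd ho x) :=
  (s.act_add g.isUnit (h0 _ x.1.1.2) _).symm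

theorem emb_crd : IsEmbedding (s.crd ho) :=
  .of_comp (s.cont_crd ho) (p.continuous.prodMk q.continuous) <| by
    rw [show (fun x => (p x, q x)) ∘ s.crd ho = Prod.map Holo.Sp.val id ∘ Subtype.val from
      funext fun x => Prod.ext (s.p_crd ho h0 x) (s.q_crd ho h0 x)]
    exact (Holo.Sp.isEmbedding_val.prodMap .id).comp .subtypeVal

theorem open_mor [IsAct act O₁] (ho₁ : Orb Aˣ (Holo.Sp act O₁)) {U : Set W} (hU : IsOpen U)
    (e : O₁ = p ⁻¹' O₀ ∩ U) : IsOpenEmbedding (s.mor ho ho₁ (e.le.trans inter_subset_left)).f := by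
  have a : s.crd ho ∘ (s.mor ho ho₁ (e.le.trans inter_subset_left)).f = Holo.Sp.val :=
    funext fun x => s.add (Holo.Sp.val x)
  refine ⟨.of_comp (Mor.cf _) (s.cont_crd ho) (a ▸ Holo.Sp.isEmbedding_val), ?_⟩
  rw [show range (s.mor ho ho₁ (e.le.trans inter_subset_left)).f = s.crd ho ⁻¹' U from
    Set.ext fun x => ⟨fun ⟨y, b⟩ => b ▸ (mem_of_eq_of_mem (congrFun a y) (e.le y.2).2 :), fun b =>
      ⟨Holo.Sp.of act _ (e.ge ⟨s.crd_mem ho h0 x, b⟩),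
        (s.emb_crd ho h0).injective (s.add _)⟩⟩]
  exact hU.preimage (s.cont_crd ho)

variable (hm : Mf A O₀ d)
include hm

theorem mfd_crd (x : (s.vb ho).tot.T) :
    IsMfd (s.crd ho) (finrank ℂ A + (d + finrank ℂ V)) x := by
  have a := s.crd_mem ho h0
  refine (s.mf h0 hm ⟨_, isOpen_univ, (inter_univ _).symm⟩ _ (a x)).2.pull
    (u := codRestrict (s.crd ho) _ a) (lh_of_range_mem ((s.emb_crd ho h0).codRestrict _ a) ?_)
  exact univ_mem' fun y => ⟨s.pt ho (.of act _ y.2) (q y), Subtype.ext (s.add _)⟩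

theorem act_crd (x : (s.vb ho).tot.T) :
    HolAct (G := (s.vb ho).tot.G) (expU : A → Aˣ) (s.crd ho) x ∧
      Injective (inf (G := (s.vb ho).tot.G) (expU : A → Aˣ) (s.crd ho) x) := by
  have := FiniteDimensional.complete ℂ W
  have := FiniteDimensional.complete ℂ A
  let _ : MulAction Aˣ (s.vb ho).tot.T := (s.vb ho).tot.act
  have a := holAct_units (t := x) (IsAct.an (S := univ) 1 isUnit_one _ trivial) (s.crd_smul ho h0)
  exact ⟨a, HolAct.inf_injective (G := (s.vb ho).tot.G) isExp_expU a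
    (s.mfd_crd ho h0 hm x).eventually_eq
    (eventually_stab (G := Aˣ) ((s.vb ho).tot.orb.finite_stabilizer x))⟩

theorem holOrb : HolOrb (s.vb ho).tot.G (s.crd ho) (d + finrank ℂ V) :=
  haveI := FiniteDimensional.complete ℂ W
  haveI := FiniteDimensional.complete ℂ A
  letI : MulAction Aˣ (s.vb ho).tot.T := (s.vb ho).tot.act
  HolOrb.of_mfd (G := (s.vb ho).tot.G) isExp_expU (fun x => (s.act_crd ho h0 hm x).1)
    (fun x => (s.act_crd ho h0 hm x).2) (s.mfd_crd ho h0 hm) fun (g : Aˣ) _ =>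
      holAt_smul_units g (IsAct.an (S := univ) _ g.isUnit _ trivial) (s.crd_smul ho h0)

theorem gys_zero : gys (s.vb ho).zero.map (s.vb ho).th
    (fundQ (s.vb ho).tot.G (s.crd ho) (s.vb ho).tot.π (d + finrank ℂ V)) = fnd act O₀ d := by
  have := FiniteDimensional.complete ℂ A
  let _ : MulAction (s.vb ho).tot.G (spA ho).T := (spA ho).act
  have ex : IsExp (G := (s.vb ho).tot.G) (expU : A → Aˣ) := isExp_expU
  have hz := (s.vb ho).isSec_zero
  have hj : IsEmbedding hz.mor.f := .of_leftInverse (f := (s.vb ho).proj.f) (fun _ => rfl)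
    (s.vb ho).proj.cf hz.mor.cf
  have hr : ∀ t : (s.vb ho).V, t ∈ range hz.mor.f ↔ t.1.2 - 0 = 0 := fun t =>
    ⟨fun ⟨_, e⟩ => e ▸ sub_zero _, fun e =>
      ⟨t.1.1, Subtype.ext (Prod.ext rfl ((sub_zero _).symm.trans e).symm)⟩⟩
  have hc : (fun t => s.crd ho (hz.mor.f t)) = Holo.Sp.val :=
    funext fun t => (congrArg (_ + ·) ι.map_zero).trans (add_zero _)
  refine (hz.gys_move _).symm.trans (((holOrb_of_orb ho fun x => (hm _ x.2).2).gys_eul_frame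
    (B₁ := V) isQuo_sp (s.holOrb ho h0 hm) hz.isSec_sub rfl rfl hz.isClosedEmbedding
    (fun t ht => ?_) (isQuo_sp.meets dense_univ) fun y _ => ?_).trans (one_smul ℂ _))
  · obtain ⟨z, rfl⟩ := (hr t).2 ht
    exact ⟨_, hz.mor.map_π z⟩
  obtain ⟨φ, φ', a1, a2, a3, a4, a5, a6⟩ := (s.mfd_crd ho h0 hm (hz.mor.f y)).exists_slK_zero
    (B := V) ex hj hz.mor.eqv (s.act_crd ho h0 hm _).1
    (s.act_crd ho h0 hm _).2 (n := d) (f := fun t => (t.1.2 - 0 : (s.vb ho).W)) (Φ := q) (q.analyticAt _)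
    (.of_forall fun t => (sub_zero _).trans (s.q_crd ho h0 t).symm) (fun b => ⟨ι b, by
      have := fderiv_mem_tan (ι := s.crd ho) (u := s.pt ho y) (x := 0)
        (s.cont_pt ho continuous_const continuous_id).continuousAt
        ((analyticAt_const (v := y.val)).add (ι.analyticAt _)) b
      exact (DFunLike.congr_fun (ι.hasFDerivAt.const_add y.val).fderiv b) ▸ this, by
      rw [q.fderiv, s.q_ι]⟩) (.of_forall hr) rfl
  refine ⟨φ', φ, fun _ => .id ℂ V, hc ▸ a2.isSl ex, a3, a1.isSl ex,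
    a6.mono fun v hv => hv ▸ hz.mor.map_π _, continuousAt_const, injective_id, a5, ?_⟩
  rw [one_mul, a4]
  exact congrArg _ (stab_of_injective (G := (s.vb ho).tot.G) hj.injective hz.mor.eqv y).symm

end Spt

/-- The data of the comparison: the zero set `Z₁` is the graph of `ζ` over `Z₀`, and `E x` is the
differential of the section in the direction `V`. -/
structure Tt (D₁ : KD A W P) (D₀ : KD A W P') (act : A → W → W) (ρ : A → V → V) (p : W →L[ℂ] W)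
    (q : W →L[ℂ] V) (Z₁ Z₀ O₁ : Set W) (B : P →ₗ[ℂ] P') (E : W → V →ₗ[ℂ] P) (ζ : W → V) :
    Prop where
  lin : D₁.Lin D₀ id p O₁ B
  graph : ∀ x, x ∈ Z₁ ↔ p x ∈ Z₀ ∧ q x = ζ (p x)
  cont : ContinuousOn ζ Z₀
  E_mem : ∀ x ∈ O₁, ∀ v, E x v ∈ D₁.P₀
  E_cont : ∀ v, ContinuousOn (fun x => E x v) O₁
  E_eqv : ∀ x ∈ O₁, ∀ a, IsUnit a → ∀ v, E (act a x) (ρ a v) = D₁.ρ a (E x v)
  cone : ∀ x ∈ Z₁, ∀ (v : V) (w : P) (y : ℕ → W) (c : ℕ → ℂ) (u : ℕ → P),
    (∀ n, y n ∈ O₁ ∧ p (y n) ∈ Z₀ ∧ u n ∈ D₁.van (y n)) → Tendsto y atTop (𝓝 x) →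
    Tendsto (fun n => c n • (q (y n) - ζ (p (y n)))) atTop (𝓝 v) →
    Tendsto (fun n => c n • D₁.s (y n) + u n) atTop (𝓝 w) → w - E x v ∈ D₁.van x
  inj : ∀ x ∈ Z₁, ∀ v, E x v ∈ D₁.van x → v = 0
  ker : ∀ x ∈ Z₁, ∀ w ∈ D₁.obs x, B w ∈ D₀.van (p x) → ∃ v, w - E x v ∈ D₁.van x

theorem Tt.mono {B : P →ₗ[ℂ] P'} {E : W → V →ₗ[ℂ] P} {ζ : W → V} {O : Set W}
    (t : Tt D₁ D₀ act ρ p q Z₁ Z₀ O₁ B E ζ) (e : O ⊆ O₁) : Tt D₁ D₀ act ρ p q Z₁ Z₀ O B E ζ :=
  ⟨t.lin.mono e, t.graph, t.cont, fun x hx => t.E_mem x (e hx), fun v => (t.E_cont v).mono e,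
    fun x hx => t.E_eqv x (e hx), fun x hx v w y c u h =>
      t.cone x hx v w y c u fun n => ⟨e (h n).1, (h n).2⟩, t.inj, t.ker⟩

section

variable {B : P →ₗ[ℂ] P'} {E : W → V →ₗ[ℂ] P} {ζ : W → V}
  (t : Tt D₁ D₀ act ρ p q Z₁ Z₀ O₁ B E ζ) (s : Spt act ρ p q ι) (h0 : ∀ x ∈ Z₀, q x = 0)
include t s h0

theorem Tt.mem {x : W} (hx : x ∈ Z₀) : x + ι (ζ x) ∈ Z₁ := by
  rw [t.graph, s.p_add (h0 x hx), s.q_add (h0 x hx)]
  exact ⟨hx, rfl⟩

theorem Tt.isHomeomorph [IsAct act Z₁] [IsAct act Z₀] {Φ : Quo act Z₁ → Quo act Z₀}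
    (e : ∀ x : Z₁, Φ (Quo.mk act x) = Quo.mk act ⟨p x, ((t.graph x).1 x.2).1⟩) :
    IsHomeomorph Φ := by
  let j : Holo.Sp act Z₁ ≃ₜ Holo.Sp act Z₀ :=
    { toFun x := .of act (p x.val) ((t.graph _).1 x.2).1
      invFun x := .of act _ (t.mem s h0 x.2)
      left_inv x := Subtype.ext ((congrArg (fun v => p x.val + ι v) ((t.graph _).1 x.2).2).symm.trans
        (s.add _))
      right_inv x := Subtype.ext (s.p_add (h0 _ x.2) _)
      continuous_toFun := (p.continuous.comp continuous_subtype_val).subtype_mk _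
      continuous_invFun :=
        (continuous_subtype_val.add (ι.continuous.comp t.cont.domRestrict)).subtype_mk _ }
  have a := isQuo_sp.isOpenEmbedding isQuo_sp j.isOpenEmbedding
    (fun g _ => Subtype.ext (s.p_act _ g.isUnit _)) e
  refine ⟨a.continuous, a.isOpenMap, a.injective, fun z => ?_⟩
  obtain ⟨x, rfl⟩ := Holo.Sp.surjective_mk z
  obtain ⟨y, rfl⟩ := j.surjective x
  exact ⟨_, e y⟩

end

/-- **total spaces** -/
theorem Gd.vr_tot (s : Spt act ρ p q ι) (h₁ : D₁.Gd act Z₁ O₁ n₁ r₁) (h₀ : D₀.Gd act Z₀ O₀ n₀ r₀)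
    [Nice (Quo act Z₀)] (h0 : ∀ x ∈ O₀, q x = 0) (hm : Mf A O₀ d)
    (ho : ∃ U, IsOpen U ∧ O₁ = p ⁻¹' O₀ ∩ U) {B : P →ₗ[ℂ] P'} {E : W → V →ₗ[ℂ] P} {ζ : W → V}
    (t : Tt D₁ D₀ act ρ p q Z₁ Z₀ O₁ B E ζ) (hr : Z₁.Nonempty → r₁ = finrank ℂ V + r₀)
    {Φ : Quo act Z₁ → Quo act Z₀}
    (e : ∀ x : Z₁, Φ (Quo.mk act x) = Quo.mk act ⟨p x, ((t.graph x).1 x.2).1⟩) :
    IsHomeomorph Φ ∧
      res Φ (D₀.vr act Z₀ O₀ (h₀.fu d)) = D₁.vr act Z₁ O₁ (h₁.fu (d + finrank ℂ V)) := by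
  obtain ⟨k', i', hk', -, r'⟩ := h₁.dom.exists_isKP h₁.ok subset_rfl
  obtain ⟨k, i, hk, -, r⟩ := h₀.dom.exists_isKP h₀.ok subset_rfl
  have := h₁.dom.isAct
  have := h₀.dom.isAct
  have := h₁.dom.isActZ hk'
  have := h₀.dom.isActZ hk
  have hq : ∀ x ∈ Z₀, q x = 0 := fun x hx => h0 x (h₀.dom.sub hx)
  have hΦ := t.isHomeomorph s hq e
  refine ⟨hΦ, ?_⟩
  rcases Z₁.eq_empty_or_nonempty with rfl | hZ
  · have : IsEmpty (Quo act ∅) := ⟨fun z => z.out.2⟩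
    exact BM_eq_of_isEmpty _ _
  obtain ⟨U, hU, hO⟩ := ho
  have a1 := s.open_mor h₀.dom.orb h0 h₁.dom.orb hU hO
  set φ := s.mor h₀.dom.orb h₁.dom.orb (hO.le.trans inter_subset_left) with hφ
  let _ : MulAction (s.vb h₀.dom.orb).tot.G (spA h₁.dom.orb).T := (spA h₁.dom.orb).act
  have a2 := IsQuo.isOpenEmbedding (G := (s.vb h₀.dom.orb).tot.G) (spA h₁.dom.orb).isQuo
    (Sp.isQuo _) a1 φ.eqv φ.map_π
  have a3 := (s.holOrb h₀.dom.orb h0 hm).res_open (spA h₁.dom.orb).isQuo (Sp.isQuo _) a1 φ.eqv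
    φ.map_π
  rw [show (fun x => s.crd h₀.dom.orb (φ.f x)) = Holo.Sp.val from
    funext fun x => s.add (Holo.Sp.val x)] at a3
  obtain ⟨L, hL, eL⟩ := hk.exists_hom hk' ((s.vb h₀.dom.orb).proj.comp φ) (fun _ => B)
    (fun _ => t.lin.mem) (fun _ _ => continuous_const)
    (fun (g : Aˣ) _ => t.lin.eqv g g.isUnit) (fun x w _ => t.lin.van _ x.2 w)
    (fun x => t.lin.sec _ x.2) fun x hx w _ => t.lin.obs _ x.2 (hk'.mem_Zs.1 hx) w
  obtain ⟨j, hj⟩ := i'.exists_leftInverse_of_injective (LinearMap.ker_eq_bot.2 hk'.emb.injective)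
  have b1 : ∀ (x : Holo.Sp act O₁) v, i' (j (E x.val v)) = E x.val v := fun x v => by
    obtain ⟨u, hu⟩ := hk'.lift (t.E_mem _ x.2 v)
    rw [show E x.val v = i' u from hu.symm, show j (i' u) = u from LinearMap.congr_fun hj u]
  have b2 : Continuous fun x : Holo.Sp act O₁ => LinearMap.toContinuousLinearMap (j ∘ₗ E x.val) :=
    continuous_clm_apply.2 fun v => hk'.emb.continuous_iff.2
      ((t.E_cont v).domRestrict.congr fun x => (b1 x v).symm)
  have b3 : ∀ (x : Holo.Sp act O₁) v w, w - j (E x.val v) ∈ k'.van x ↔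
      i' w - E x.val v ∈ D₁.van x.val := fun x v w => (hk'.van _ _).trans (by
    rw [map_sub, b1]
    rfl)
  have z1 := fun x => (h₁.dom.mem_Zs hk' (t := x)).1
  have z0 := fun x => (h₀.dom.mem_Zs hk (t := x)).1
  let Y : VB h₀.dom.sp := s.vb h₀.dom.orb
  let ζ' : h₀.dom.sp.T → Y.W := fun x => ζ x.1
  let F : h₁.dom.sp.T → Y.W →ₗ[ℂ] k'.P.W := fun x => (j ∘ₗ E x.1 :)
  rw [h₁.dom.vr_eq hk', h₀.dom.vr_eq hk]
  refine ((h₀.dom.isZ hk).res_homeo hΦ _).trans ((congrArg _ (s.gys_zero _ h0 hm)).symm.trans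
    (Eq.trans (Eq.symm ?_) (congrArg _ a3)))
  refine hL.vir_tot (V := Y) (φ := φ) (ζ := ζ') (D := F) a2
    (t.cont.comp continuous_subtype_val.continuousOn z0) (fun (g : Aˣ) x hx => ?_)
    (fun _ _ => trivial) (fun x hx v w hw => ?_) (Hom.of_continuous (fun _ _ _ => hk'.memF _ _)
      ((b2.comp continuous_fst).clm_apply continuous_snd) fun (g : Aˣ) x v _ => hk'.emb.injective
        ((b1 _ _).trans ((t.E_eqv _ x.2 g g.isUnit v).trans
          ((congrArg _ (b1 x v).symm).trans (hk'.eqv g _).symm))))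
    (fun x hx => ((t.graph _).1 (z1 x hx)).2)
    (fun x hx v _ a => t.inj _ (z1 x hx) v (b1 x v ▸ (hk'.van _ _).1 a))
    (fun x hx w hw a => (t.ker _ (z1 x hx) _ ((hk'.obs x hx w).1 hw)
      (eL x w ▸ (hk.van _ _).1 a)).imp fun v b => ⟨trivial, (b3 x v w).2 b⟩)
    (r'.trans ((hr hZ).trans (congrArg _ r.symm)))
    ((h₀.dom.isZ hk).comp hΦ.isClosedEmbedding (hΦ.surjective.range_eq ▸ isOpen_univ))
    (h₁.dom.isZ hk') (fun z => Quot.inductionOn z fun x => ?_) _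
  · have a := IsAct.mem (act := act) _ g.isUnit _ (t.mem s hq (z0 x hx))
    have b := ((t.graph _).1 a).2
    rw [s.p_act _ g.isUnit, s.q_act _ g.isUnit, s.p_add (hq _ (z0 x hx)),
      s.q_add (hq _ (z0 x hx))] at b
    exact b.symm
  · obtain ⟨y, a, b⟩ := mem_closure_iff_seq_limit.1 hw
    choose a c a4 a5 using a
    refine (b3 x v w).2 (t.cone _ (z1 x hx) v _ (fun n => (y n).1.1) c
      (fun n => i' ((y n).2.2 - c n • k'.s (y n).1))
      (fun n => ⟨(y n).1.2, z0 _ (a n), (hk'.van _ _).1 (a5 n)⟩)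
      ((continuous_subtype_val.comp continuous_fst).tendsto _ |>.comp b)
      (((continuous_fst.comp continuous_snd).tendsto _ |>.comp b).congr a4)
      (((hk'.emb.continuous.comp (continuous_snd.comp continuous_snd)).tendsto _ |>.comp b).congr
        fun n => ?_))
    rw [map_sub, map_smul]
    exact ((congrArg (fun a => c n • a + (i' (y n).2.2 - c n • i' (k'.s (y n).1)))
      (hk'.sec (y n).1).symm).trans (add_sub_cancel _ _)).symm
  · exact (congrArg _ (φ.map_π (Holo.Sp.incl act h₁.dom.sub x))).trans ((Mor.map_π _ _).trans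
      (congrArg (Quo.incl act h₀.dom.sub) (e x)).symm)

/-- the same for the classes `IsW` -/
theorem IsW.tot (s : Spt act ρ p q ι) {S₀ : Set W} (h0 : ∀ x ∈ S₀, q x = 0)
    (h₁ : D₁.Reg act Z₁ (p ⁻¹' S₀) O₁ n₁ r₁) (h₀ : D₀.Reg act Z₀ S₀ O₀ n₀ r₀) [Nice (Quo act Z₀)]
    {B : P →ₗ[ℂ] P'} {E : W → V →ₗ[ℂ] P} {ζ : W → V}
    (t : Tt D₁ D₀ act ρ p q Z₁ Z₀ O₁ B E ζ) (hr : Z₁.Nonempty → r₁ = finrank ℂ V + r₀)
    {Φ : Quo act Z₁ → Quo act Z₀}
    (e : ∀ x : Z₁, Φ (Quo.mk act x) = Quo.mk act ⟨p x, ((t.graph x).1 x.2).1⟩)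
    {v : BM (Quo act Z₀)} (hv : D₀.IsW act Z₀ S₀ d v) :
    IsHomeomorph Φ ∧ D₁.IsW act Z₁ (p ⁻¹' S₀) (d + finrank ℂ V) (res Φ v) := by
  obtain ⟨O, n, r, h, ⟨U, hU, hO⟩, hm, rfl⟩ := hv
  obtain ⟨U₁, hU₁, hO₁⟩ := h₁.opn
  have := h.dom.isAct
  have : IsAct act (O₁ ∩ p ⁻¹' O) := IsAct.mono ‹IsAct act univ› (subset_univ _) fun a ha x hx =>
    ⟨h₁.inv a ha x hx.1, (mem_of_eq_of_mem (s.p_act a ha x) (this.mem a ha _ hx.2) :)⟩
  have a : O₁ ∩ p ⁻¹' O = O₁ ∩ p ⁻¹' U := Set.ext fun x => and_congr_right fun hx =>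
    ⟨fun b => (hO.le b).2, fun b => hO.ge ⟨(hO₁.le hx).1, b⟩⟩
  have b : ∃ U, IsOpen U ∧ O₁ ∩ p ⁻¹' O = p ⁻¹' O ∩ U := ⟨U₁, hU₁, Set.ext fun x =>
    ⟨fun c => ⟨c.2, (hO₁.le c.1).2⟩, fun c => ⟨hO₁.ge ⟨(hO.le c.1).1, c.2⟩, c.1⟩⟩⟩
  have h' : D₁.Gd act Z₁ (O₁ ∩ p ⁻¹' O) n₁ r₁ :=
    ⟨⟨fun x hx => ⟨h₁.sub hx, h.dom.sub ((t.graph x).1 hx).1⟩,
      ⟨_, isOpen_univ, (inter_univ _).symm⟩, this, s.orb h.dom.orb inter_subset_right
        (a ▸ h₁.lc.inter (hU.preimage p.continuous).isLocallyClosed),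
      fun x hx => h₁.zero x hx.1⟩, h₁.ok.mono inter_subset_left⟩
  have c : ∀ x ∈ O, q x = 0 := fun x hx => h0 x (hO.le hx).1
  obtain ⟨d1, d2⟩ := h'.vr_tot s h c hm b (t.mono inter_subset_left) (fun ⟨x, hx⟩ => by
    have y := ((t.graph x).1 hx).1
    have z := (h₀.zero _ (h₀.sub y)).2 y
    have e1 := (h.ok.obs_rank _ (h.dom.sub y) z).symm.trans (h₀.ok.obs_rank _ (h₀.sub y) z)
    have e2 := (h.ok.fam.rank _ (h.dom.sub y)).symm.trans (h₀.ok.fam.rank _ (h₀.sub y))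
    have := hr ⟨x, hx⟩
    omega) e
  exact ⟨d1, _, _, _, h', ⟨U₁ ∩ p ⁻¹' U, hU₁.inter (hU.preimage p.continuous), by
    rw [a, hO₁, inter_assoc]⟩, s.mf c hm b, d2⟩

end Vale.Agent.P269.Ch.KD
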