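import Vale.Agent.P269.Map.DD
import Vale.Agent.P269.Glu.VrA
import Vale.Agent.P269.Gen.Num
import Vale.Agent.P269.Cpt.Quo

set_option linter.unusedSectionVars false
set_option linter.style.haveILetI false

/-!
# Independence of the equations in a chart
-/

namespace Vale.Agent.P269

open P291Z Set Function Topology Filter Module MvPolynomial Vir

variable {S Λ R J K K' ι ν κ : Type} [Fintype S] [Fintype Λ] [Fintype R] [Fintype J] [Fintype K]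
  [Fintype K'] [Fintype ι] [DecidableEq ι] [Fintype ν] [Fintype κ]

namespace Fam

variable (F : Fam S Λ R J K)

/-- Other equations, another semistable locus, other movable and vanishing fields. -/
@[reducible] def alt (χ : K' → R → ℤ) (wk : K' → S → ℤ) (G : K' → MvPolynomial J (MvPolynomial Λ ℂ))
    (U : Set ((Λ → ℂ) × (J → ℂ))) (mov zer : Set J) : Fam S Λ R J K' :=
  { F with χ := χ, wk := wk, G := G, U := U, mov := mov, zer := zer }

/-- A part of the equations. -/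
@[reducible] def rq (i : K' → K) (U : Set ((Λ → ℂ) × (J → ℂ))) : Fam S Λ R J K' :=
  F.eqs (fun k => F.χ (i k)) (fun k => F.wk (i k)) (fun k => F.G (i k)) U

/-- Both systems of equations. -/
@[reducible] def both (χ : K' → R → ℤ) (wk : K' → S → ℤ)
    (G : K' → MvPolynomial J (MvPolynomial Λ ℂ)) (U : Set ((Λ → ℂ) × (J → ℂ))) :
    Fam S Λ R J (K ⊕ K') :=
  F.eqs (Sum.elim F.χ χ) (Sum.elim F.wk wk) (Sum.elim F.G G) (F.U ∩ U)

variable {F} {χ : K' → R → ℤ} {wk : K' → S → ℤ} {G : K' → MvPolynomial J (MvPolynomial Λ ℂ)}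
  {U : Set ((Λ → ℂ) × (J → ℂ))} {mov zer : Set J} {K₀ : Set K} {K₀' : Set K'} {i : K' → K}

theorem vert_iff {z : (Λ → ℂ) × (J → ℂ)} {η : J → ℂ} :
    η ∈ F.vert z ↔ (∀ j ∉ F.mov, η j = 0) ∧ ∀ k, ∑ j, F.jac z k j * η j = 0 := by
  simp only [vert, Submodule.mem_inf, Submodule.mem_iInf, LinearMap.mem_ker, LinearMap.proj_apply,
    mem_compl_iff, LinearMap.sum_apply, LinearMap.smul_apply, smul_eq_mul, jac]

theorem Reg.of_rq (h : (F.rq i U).Reg K₀') (hc : (F.rq i U).cone = F.cone)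
    (hU : IsOpen U) : F.Reg (i '' K₀') := by
  refine ⟨fun z hz c => ?_, fun z hz => ?_⟩
  · obtain ⟨η, a, b⟩ := h.ind z (hc.ge hz) fun k => c (i k)
    exact ⟨η, a, forall_mem_image.2 b⟩
  · filter_upwards [h.cut z (hc.ge hz), hU.mem_nhds ((mem_cone _).1 (hc.ge hz)).2.1] with y a b d f
    exact ((mem_cone _).1 (hc.le ((mem_cone _).2 ⟨d, b, a d (forall_mem_image.1 f)⟩))).2.2

theorem vert_rq (hF : F.Inv) (h : F.Reg (i '' K₀')) {z} (hz : z ∈ F.cone) :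
    (F.rq i U).vert z = F.vert z :=
  Submodule.ext fun η => vert_iff.trans (Iff.trans (and_congr_right fun a =>
    ⟨fun b => (h.jac hF hz).red η a (forall_mem_image.2 fun k _ => b k), fun b k => b (i k)⟩)
      (vert_iff (F := F)).symm)

theorem both_cone (hc : (F.eqs χ wk G U).cone = F.cone) : (F.both χ wk G U).cone = F.cone :=
  Set.ext fun _ => ⟨fun h => have a := (mem_cone _).1 h
    (mem_cone _).2 ⟨a.1, a.2.1.1, fun k => a.2.2 (.inl k)⟩, fun h =>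
    have a := (mem_cone _).1 h
    have b := (mem_cone _).1 (hc.ge h)
    (mem_cone _).2 ⟨a.1, ⟨a.2.1, b.2.1⟩, Sum.rec a.2.2 b.2.2⟩⟩

theorem Inv.both (h : F.Inv) (h' : (F.eqs χ wk G U).Inv) : (F.both χ wk G U).Inv :=
  ⟨Sum.rec h.hom h'.hom, Sum.rec h.homS h'.homS, h.openU.inter h'.openU,
    fun t a z b => ⟨h.invU t a z b.1, h'.invU t a z b.2⟩, h.closedE, h.invE, h.baseE, h.zer_base,
    h.lcB, h.invB⟩

theorem Reg.both_inl (hR : F.Reg K₀) (h : F.Inv) (hc : (F.eqs χ wk G U).cone = F.cone) :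
    (F.both χ wk G U).Reg (.inl '' K₀) :=
  Reg.of_rq (F := F.both χ wk G U) (U := F.U) hR (both_cone hc).symm h.openU

theorem Reg.both_inr (hR : (F.eqs χ wk G U).Reg K₀') (h : (F.eqs χ wk G U).Inv)
    (hc : (F.eqs χ wk G U).cone = F.cone) : (F.both χ wk G U).Reg (.inr '' K₀') :=
  Reg.of_rq (F := F.both χ wk G U) (U := U) hR (hc.trans (both_cone hc).symm) h.openU

/-- the vertical tangent space does not depend on the equations -/
theorem vert_eqs (h : F.Inv) (h' : (F.eqs χ wk G U).Inv) (hR : F.Reg K₀)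
    (hR' : (F.eqs χ wk G U).Reg K₀') (hc : (F.eqs χ wk G U).cone = F.cone) {z} (hz : z ∈ F.cone) :
    (F.eqs χ wk G U).vert z = F.vert z :=
  (vert_rq (U := U) (h.both h') (hR'.both_inr h' hc) ((both_cone hc).ge hz)).trans
    (vert_rq (U := F.U) (h.both h') (hR.both_inl h hc) ((both_cone hc).ge hz)).symm

theorem cone2_eqs (hc : (F.eqs χ wk G U).cone = F.cone) : (F.eqs χ wk G U).cone2 = F.cone2 :=
  Set.ext fun _ => and_congr_left' (and_congr (Set.ext_iff.1 hc _) (Set.ext_iff.1 hc _))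

theorem solF_alt {ch : Ch ι J} (hc : (F.alt χ wk G U mov zer).cone = F.cone) :
    ch.solF ν κ (F.alt χ wk G U mov zer) = ch.solF ν κ F :=
  Set.ext fun x => and_congr_right fun a => and_congr_right' (forall₂_congr fun _ _ =>
    exists_congr fun y => and_congr_left' ⟨fun b => ((Set.ext_iff.1 hc (x.1, y)).1 ⟨a.1, b⟩).2,
      fun b => ((Set.ext_iff.1 hc (x.1, y)).2 ⟨a.1, b⟩).2⟩)

theorem solF_eqs {ch : Ch ι J} (hc : (F.eqs χ wk G U).cone = F.cone) :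
    ch.solF ν κ (F.eqs χ wk G U) = ch.solF ν κ F := solF_alt (mov := F.mov) (zer := F.zer) hc

end Fam

namespace Ch

section gen

variable {A W P : Type} [NormedRing A] [NormedAlgebra ℂ A] [NormedAddCommGroup W] [NormedSpace ℂ W]
  [AddCommGroup P] [Module ℂ P] [TopologicalSpace P] {act : A → W → W} {Z Z' O : Set W} {n r : ℕ}

theorem KD.vr_heq (D : KD A W P) (e : Z' = Z) (β : BM (Quo act O)) :
    HEq (D.vr act Z' O β) (D.vr act Z O β) := by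
  subst e
  rfl

/-- only the obstruction spaces on the domain matter -/
theorem KD.Gd.obs_congr [IsTopologicalAddGroup P] [ContinuousSMul ℂ P] [T2Space P]
    [FiniteDimensional ℂ A] [FiniteDimensional ℂ W] {D : KD A W P} (h : D.Gd act Z O n r)
    {obs : W → Submodule ℂ P} (e : ∀ x ∈ O, obs x = D.obs x) :
    (KD.mk D.ρ D.P₀ D.van obs D.s).Gd act Z O n r ∧
      (KD.mk D.ρ D.P₀ D.van obs D.s).vr act Z O = D.vr act Z O := by
  have a := h.ok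
  have b : (KD.mk D.ρ D.P₀ D.van obs D.s).Gd act Z O n r :=
    ⟨⟨h.dom.sub, h.dom.opn, h.dom.isAct, h.dom.orb, h.dom.zero⟩, a.fin, a.rep, a.fam, a.mem, a.cont,
      a.eqv, KD.VrA.clo_iff a.obs_closed fun z => and_congr_right' (e _ z.1.2 ▸ Iff.rfl),
      fun x c d => (congrArg (fun V : Submodule ℂ P => finrank ℂ V) (e x c)).trans (a.obs_rank x c d),
      fun x c d s f g k => (e _ (h.ivt s f x c)).ge (a.obs_inv x c d s f g ((e x c).le k)),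
      fun x c d => (a.le_obs x c d).trans (e x c).ge, fun x c d => (e x c).le.trans (a.obs_le x c d),
      fun x c d w y s u f g k l => (e x c).ge (a.cone x c d w y s u f g k l)⟩
  exact ⟨b, b.vr_congr h (B := fun _ => LinearMap.id) ⟨fun _ _ _ c => c, fun _ _ => continuousOn_const,
    fun _ _ _ _ _ _ => rfl, fun _ _ _ c => c, fun x _ => (sub_self (D.s x)).symm ▸ zero_mem _,
    fun x c _ _ d => (e x c).le d⟩ fun _ _ _ _ c => c⟩

end gen

variable {ch : Ch ι J} {F : Fam S Λ R J K} {e : K → ι → ℕ} {e' : K' → ι → ℕ} {K₀ : Set K}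
  {K₀' : Set K'} {ℓ : R → ι → ℤ} {Z S₀ O M : Set (ch.WF ν κ Λ)} {d : ℕ} {χ : K' → R → ℤ}
  {wk : K' → S → ℤ} {G : K' → MvPolynomial J (MvPolynomial Λ ℂ)} {U : Set ((Λ → ℂ) × (J → ℂ))}
  {i : K' → K}

theorem Std.gd_of_dom (hs : ch.Std F e K₀ ℓ) (h : (ch.kd ν κ F e).Dom (actF F.toWt) Z S₀ O)
    (hA : O ⊆ ch.adm ν κ F) (hZ : Z ⊆ ch.solF ν κ F) :
    ∃ n, (ch.kd ν κ F e).Gd (actF F.toWt) Z O n (ch.rk F ℓ K₀).toNat :=
  hs.ok.imp fun _ a => ⟨h.self, a.mono fun x hx => ⟨hA hx, fun b => hZ ((h.zero x hx).1 b)⟩⟩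

theorem Vd.eq_vr (h : Vd F e S₀ O M d) (hs : ch.Std F e K₀ ℓ) :
    virF F e S₀ = (ch.kd ν κ F e).vr _ _ O (h.dom.fnd d) :=
  let ⟨_, _, hk, _⟩ := h.exists_isKP hs
  (h.virF_eq hk).trans (LinearMap.congr_fun (h.dom.vr_eq hk) _).symm

theorem Vd.exists_gd (h : Vd F e S₀ O M d) (hs : ch.Std F e K₀ ℓ) : ∃ n, (ch.kd ν κ F e).Gd
    (actF F.toWt) (ch.solF ν κ F ∩ S₀) O n (ch.rk F ℓ K₀).toNat :=
  hs.gd_of_dom h.dom (h.dom.subset.trans h.adm) inter_subset_left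

variable (ch) in
/-- Forgetting equations. -/
def rsK (i : K' → K) : ch.P K →ₗ[ℂ] ch.P K' := LinearMap.id.prodMap (LinearMap.funLeft ℂ _ i)

theorem linF_rq : (ch.kd ν κ F e).LinF (ch.kd ν κ (F.rq i U) fun k => e (i k)) (actF F.toWt) O
    fun _ => ch.rsK i := by
  have a : ∀ w ∈ ch.polF F e, ch.rsK i w ∈ ch.polF (F.rq i U) fun k => e (i k) := fun _ h =>
    mem_polS.2 ⟨(mem_polS.1 h).1, fun k => (mem_polS.1 h).2 (i k)⟩
  refine ⟨fun _ _ => a, fun _ _ => continuousOn_const, fun _ _ _ _ _ _ => rfl,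
    fun x _ w h => mem_vanM.2 ⟨a w h.1, fun z hz => ?_⟩,
    fun x _ => (sub_self (sctF (F.rq i U) (fun k => e (i k)) x)).symm ▸ zero_mem _,
    fun x _ _ w h => mem_obsM.2 ⟨a w h.1, fun z hz => ?_⟩⟩
  · exact congrArg (fun c : Fib ch.Th K ch.Zt => (c.1, fun k => c.2 (i k))) ((mem_vanM.1 h).2 z hz)
  · obtain ⟨Y, b, c⟩ := PD.mem_Im.1 ((mem_obsM.1 h).2 z hz)
    exact PD.mem_Im.2 ⟨Y, b, congrArg (fun c : Fib ch.Th K ch.Zt => (c.1, fun k => c.2 (i k))) c⟩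

theorem Std.inj_rq (h : ch.Std F e (i '' K₀') ℓ) {x} (hx : x ∈ ch.solF ν κ F) {w}
    (hw : w ∈ obsM F e x) (h0 : ch.rsK i w ∈ vanM (F.rq i U) (fun k => e (i k)) x) :
    w ∈ vanM F e x := by
  refine mem_vanM.2 ⟨hw.1, fun z hz => ?_⟩
  obtain ⟨y, a, b⟩ := exists_cone hx hz
  have c := (mem_vanM.1 h0).2 z hz
  exact (h.fits.reg h.inv h.reg hz.1 b a).eq_zero ((mem_obsM.1 hw).2 z hz) (congrArg Prod.fst c)
    (forall_mem_image.2 fun k _ => congrFun (congrArg Prod.snd c) k)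

theorem rk_rq (hi : Injective i) : ch.rk F ℓ (i '' K₀') = ch.rk (F.rq i U) ℓ K₀' := by
  classical
  refine congrArg (_ + ·) (Finset.sum_nbij i (fun k a => ?_) hi.injOn (fun k a => ?_)
    fun _ _ => rfl).symm
  · simpa using ⟨k, by simpa using a, rfl⟩
  · simpa using a

theorem Std.vr_rq (hs : ch.Std F e (i '' K₀') ℓ) (hs' : ch.Std (F.rq i U) (fun k => e (i k)) K₀' ℓ)
    (hi : Injective i) (hc : (F.rq i U).cone = F.cone)
    (h : (ch.kd ν κ F e).Dom (actF F.toWt) Z S₀ O)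
    (h' : (ch.kd ν κ (F.rq i U) fun k => e (i k)).Dom (actF F.toWt) Z S₀ O) (hA : O ⊆ ch.adm ν κ F)
    (hZ : Z ⊆ ch.solF ν κ F) : (ch.kd ν κ (F.rq i U) fun k => e (i k)).vr (actF F.toWt) Z O =
      (ch.kd ν κ F e).vr (actF F.toWt) Z O := by
  obtain ⟨_, c⟩ := hs.gd_of_dom h hA hZ
  obtain ⟨_, c'⟩ := hs'.gd_of_dom h' hA (hZ.trans (Fam.solF_eqs hc).ge)
  rw [← rk_rq hi] at c'
  exact (c.vr_congr c' linF_rq fun _ hx _ => hs.inj_rq (hZ hx)).symm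

theorem Std.both (h : ch.Std F e K₀ ℓ) (h' : ch.Std (F.eqs χ wk G U) e' K₀' ℓ) {K₁ : Set (K ⊕ K')}
    (hR : (F.both χ wk G U).Reg K₁) : ch.Std (F.both χ wk G U) (Sum.elim e e') K₁ ℓ :=
  ⟨h.inv.both h'.inv, hR, ⟨h.fits.wt, Sum.rec h.fits.le h'.fits.le, Sum.rec h.fits.ne h'.fits.ne⟩,
    h.cuts, h.wt⟩

variable (hs : ch.Std F e K₀ ℓ) (hs' : ch.Std (F.eqs χ wk G U) e' K₀' ℓ)
  (hc : (F.eqs χ wk G U).cone = F.cone)
include hs hs' hc

/-- domains for other equations -/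
theorem Std.dom_eqs (h : (ch.kd ν κ F e).Dom (actF F.toWt) Z S₀ O) (hA : O ⊆ ch.adm ν κ F)
    (hZ : Z ⊆ ch.solF ν κ F) : ∃ V, IsOpen V ∧ Z ⊆ V ∧ Ivt (actF F.toWt) (O ∩ V) ∧
      (ch.kd ν κ (F.eqs χ wk G U) e').Dom (actF F.toWt) Z S₀ (O ∩ V) := by
  obtain ⟨V, hV, a⟩ := hs'.dom_open (ν := ν) (κ := κ)
  have b := Fam.solF_eqs (ch := ch) (ν := ν) (κ := κ) hc
  have c : O ∩ V ⊆ ch.dom ν κ (F.eqs χ wk G U) e' := fun _ hx => a.ge ⟨hA hx.1, hx.2⟩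
  have z : Z ⊆ V := fun _ hx => (a.le (mem_dom (b.ge (hZ hx)) (hA (h.sub hx)))).2
  have f := h.inter hV z fun _ g _ hx => (a.le (actF_mem_dom hs'.inv g (c hx))).2
  exact ⟨V, hV, z, f.isAct.mem, f.sub, f.opn, f.isAct, f.orb, fun x hx => (hs'.zero (c hx)).trans
    ⟨fun g => (h.zero x hx.1).1 (sctF_mem_vanM hs.fits (b.le g)), fun g => b.ge (hZ g)⟩⟩

/-- **the virtual pull-back does not depend on the equations** -/
theorem Std.vr_eqs (h : (ch.kd ν κ F e).Dom (actF F.toWt) Z S₀ O)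
    (h' : (ch.kd ν κ (F.eqs χ wk G U) e').Dom (actF F.toWt) Z S₀ O) (hA : O ⊆ ch.adm ν κ F)
    (hZ : Z ⊆ ch.solF ν κ F) : (ch.kd ν κ (F.eqs χ wk G U) e').vr (actF F.toWt) Z O =
      (ch.kd ν κ F e).vr (actF F.toWt) Z O := by
  have a := Fam.both_cone hc
  have s := hs.both hs' (hs.reg.both_inl hs.inv hc)
  have s' := hs.both hs' (hs'.reg.both_inr hs'.inv hc)
  obtain ⟨V, hV, z, iv, b⟩ := hs.dom_eqs s a h hA hZ
  obtain ⟨_, c⟩ := hs.gd_of_dom h hA hZ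
  obtain ⟨_, c'⟩ := hs'.gd_of_dom h' hA (hZ.trans (Fam.solF_eqs hc).ge)
  have hA' : O ∩ V ⊆ ch.adm ν κ F := inter_subset_left.trans hA
  have hZ' := hZ.trans (Fam.solF_eqs a).ge
  have f := (s'.vr_rq (U := U) hs' Sum.inr_injective (hc.trans a.symm) b
    (h'.inter hV z fun t g x k => (iv t g x k).2) hA' hZ').trans (s.vr_rq (U := F.U) hs
      Sum.inl_injective a.symm b (h.inter hV z fun t g x k => (iv t g x k).2) hA' hZ').symm
  haveI := c.nice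
  refine LinearMap.ext fun β => ?_
  rw [c.vr_res inter_subset_left iv ⟨V, hV, rfl⟩ b.sub, c'.vr_res inter_subset_left iv ⟨V, hV, rfl⟩ b.sub]
  exact LinearMap.congr_fun f _

theorem Std.isV_eqs (hA : S₀ ⊆ ch.adm ν κ F) (hZ : Z ⊆ ch.solF ν κ F) {v}
    (hv : (ch.kd ν κ F e).IsV (actF F.toWt) Z S₀ v) :
    (ch.kd ν κ (F.eqs χ wk G U) e').IsV (actF F.toWt) Z S₀ v := by
  obtain ⟨O, h, k, _, β, hk, hβ, rfl⟩ := hv
  have hA' := h.subset.trans hA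
  obtain ⟨V, hV, z, iv, b⟩ := hs.dom_eqs hs' hc h hA' hZ
  obtain ⟨_, c⟩ := hs.gd_of_dom h hA' hZ
  obtain ⟨_, c'⟩ := hs'.gd_of_dom b (inter_subset_left.trans hA') (hZ.trans (Fam.solF_eqs hc).ge)
  haveI := c.nice
  haveI := h.isAct
  haveI := b.isAct
  have f := c'.isV b.opn (hβ.res_open inter_subset_left (b.isOpen h.subset))
  rw [hs.vr_eqs hs' hc (h.inter hV z fun t g x k => (iv t g x k).2) b
    (inter_subset_left.trans hA') hZ, ← c.vr_res inter_subset_left iv ⟨V, hV, rfl⟩ b.sub,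
    h.vr_eq hk] at f
  exact f

theorem Std.isW_eqs (hA : S₀ ⊆ ch.adm ν κ F) (hZ : Z ⊆ ch.solF ν κ F) {v}
    (hv : (ch.kd ν κ F e).IsW (actF F.toWt) Z S₀ d v) :
    (ch.kd ν κ (F.eqs χ wk G U) e').IsW (actF F.toWt) Z S₀ d v := by
  obtain ⟨O, _, _, c, ho, hm, rfl⟩ := hv
  have h := c.dom' ho
  have hA' := h.subset.trans hA
  obtain ⟨V, hV, z, iv, b⟩ := hs.dom_eqs hs' hc h hA' hZ
  obtain ⟨_, c'⟩ := hs'.gd_of_dom b (inter_subset_left.trans hA') (hZ.trans (Fam.solF_eqs hc).ge)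
  obtain ⟨f, g⟩ := c.vr_fu hV iv z hm
  refine ⟨_, _, _, c', b.opn, f, g.trans ?_⟩
  rw [hs.vr_eqs hs' hc (h.inter hV z fun t g x k => (iv t g x k).2) b
    (inter_subset_left.trans hA') hZ]
  rfl

theorem Std.eqs_isV (hA : S₀ ⊆ ch.adm ν κ F) (hZ : Z ⊆ ch.solF ν κ F) {v} :
    (ch.kd ν κ F e).IsV (actF F.toWt) Z S₀ v ↔
      (ch.kd ν κ (F.eqs χ wk G U) e').IsV (actF F.toWt) Z S₀ v :=
  ⟨hs.isV_eqs hs' hc hA hZ, hs'.isV_eqs (χ := F.χ) (wk := F.wk) (G := F.G) (U := F.U) hs hc.symm hA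
    (hZ.trans (Fam.solF_eqs hc).ge)⟩

theorem Std.eqs_isW (hA : S₀ ⊆ ch.adm ν κ F) (hZ : Z ⊆ ch.solF ν κ F) {v} :
    (ch.kd ν κ F e).IsW (actF F.toWt) Z S₀ d v ↔
      (ch.kd ν κ (F.eqs χ wk G U) e').IsW (actF F.toWt) Z S₀ d v :=
  ⟨hs.isW_eqs hs' hc hA hZ, hs'.isW_eqs (χ := F.χ) (wk := F.wk) (G := F.G) (U := F.U) hs hc.symm hA
    (hZ.trans (Fam.solF_eqs hc).ge)⟩

theorem Std.eqs_isD {w} (hw : IsD F e (actF F.toWt) Z w) :
    IsD (F.eqs χ wk G U) e' (actF F.toWt) Z w := by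
  obtain ⟨d, n, r, v, a, b, rfl⟩ := hw
  obtain ⟨f, g⟩ := b.obs_congr (obs := (ch.kdQ ν κ (F.eqs χ wk G U)).obs) fun x hx =>
    congrArg (Submodule.pi univ) (funext fun q =>
      Fam.vert_eqs hs.inv hs'.inv hs.reg hs'.reg hc (vl_mem hx.1 (.inr (q, false))))
  rw [IsD, Fam.solF_eqs hc]
  exact ⟨d, n, r, v, hs.isW_eqs hs' hc (fun _ c => c.1) inter_subset_left a, f,
    (LinearMap.congr_fun g v).symm⟩

/-- domains for other equations -/
theorem Vd.eqs (h : Vd F e S₀ O M d) : ∃ V, IsOpen V ∧ Vd F e S₀ (O ∩ V) (M ∩ V) d ∧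
    Vd (F.eqs χ wk G U) e' S₀ (O ∩ V) (M ∩ V) d := by
  obtain ⟨V, hV, z, iv, b⟩ := hs.dom_eqs hs' hc h.dom (h.dom.subset.trans h.adm) inter_subset_left
  have f := h.inter hV z fun t g x k => (iv t g x k).2
  rw [← Fam.solF_eqs hc] at b
  exact ⟨V, hV, f, h.adm, h.inv, b, f.cyc⟩

/-- **the virtual class does not depend on the equations** -/
theorem Vd.virF_eqs (h : Vd F e S₀ O M d) : HEq (virF (F.eqs χ wk G U) e' S₀) (virF F e S₀) := by
  obtain ⟨_, -, a, b⟩ := h.eqs hs hs' hc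
  have c := b.dom
  rw [Dom, Fam.solF_eqs hc] at c
  rw [a.eq_vr hs, b.eq_vr hs', ← hs.vr_eqs hs' hc a.dom c (a.dom.subset.trans a.adm) inter_subset_left]
  exact KD.vr_heq _ (congrArg (· ∩ S₀) (Fam.solF_eqs hc)) _

end Ch

end Vale.Agent.P269
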