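import Vale.Agent.P269.Map.Defs
import Vale.Agent.P269.Vir.Rep

/-!
# Restriction of polynomial functions, vanishing functions and obstructions
-/

set_option linter.unusedSectionVars false

namespace Vale.Agent.P269.Ch.Res

open Set Function Topology Filter Base

variable {S Λ R R' K ι ι' J J' ν κ ν' κ' : Type} [Fintype S] [Fintype Λ] [Fintype R] [Fintype R']
  [Fintype K] [Fintype ι] [Fintype ι'] [Fintype J] [Fintype J'] [DecidableEq ι] [DecidableEq ι']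
  [Fintype ν] [Fintype κ] [Fintype ν'] [Fintype κ'] {ch' : Ch ι' J'} {D : ch'.Res ι J}
  {F' : Fam S Λ R' J' K} {F : Fam S Λ R J K} {e : K → ι' → ℕ} {f : ch'.P K}
  {x' : ch'.WF ν' κ' Λ} {x : D.ch.WF ν κ Λ}

section Slot

variable {α α' : Type} [Fintype α] [Fintype α'] {σ : α → α'} {a : α → ℕ} {a' : α' → ℕ}

theorem slot_ex (hσ : Injective σ) (ha : Sup σ a') (h : a = fun i => a' (σ i)) (β : α' → Type) :
    (∀ v' : ∀ s : Σ i, Fin (a' i), β s.1, ∃ v : ∀ s : Σ i, Fin (a i), β (σ s.1),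
      ∀ g : ∀ i, β i → ℂ, ∏ s, g (σ s.1) (v s) = ∏ s, g s.1 (v' s)) ∧
    ∀ v : ∀ s : Σ i, Fin (a i), β (σ s.1), ∃ v' : ∀ s : Σ i, Fin (a' i), β s.1,
      ∀ g : ∀ i, β i → ℂ, ∏ s, g (σ s.1) (v s) = ∏ s, g s.1 (v' s) := by
  subst h
  refine ⟨fun v' => ⟨fun s => v' (slotE hσ ha s), fun g =>
    (slotE hσ ha).prod_comp fun s => g s.1 (v' s)⟩, fun v => ?_⟩
  obtain ⟨v', rfl⟩ :=
    (Equiv.piCongrLeft (fun s : Σ i, Fin (a' i) => β s.1) (slotE hσ ha)).symm.surjective v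
  exact ⟨v', fun g => (slotE hσ ha).prod_comp fun s => g s.1 (v' s)⟩

theorem form_ex [DecidableEq α] [DecidableEq α'] (hσ : Injective σ) (ha : Sup σ a')
    (h : a = fun i => a' (σ i)) (M : α' → ℕ) :
    (∀ μ' : Tens M a', ∃ μ : Tens (fun i => M (σ i)) a, ∀ c, val μ (rV σ c) = val μ' c) ∧
    ∀ μ : Tens (fun i => M (σ i)) a, ∃ μ' : Tens M a', ∀ c, val μ (rV σ c) = val μ' c := by
  subst h
  refine ⟨fun μ' => ?_, fun μ => ⟨rx hσ ha μ, fun _ => rfl⟩⟩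
  obtain ⟨μ, rfl⟩ := (rx hσ ha).surjective μ'
  exact ⟨μ, fun _ => rfl⟩

theorem sup_map (p : α →₀ ℕ) : Sup σ (p.mapDomain σ) := Finsupp.mapDomain_of_notMem_range p

theorem coe_map (hσ : Injective σ) (p : α →₀ ℕ) : ⇑p = fun i => p.mapDomain σ (σ i) :=
  funext fun i => (Finsupp.mapDomain_apply hσ p i).symm

theorem sum_map (hσ : Injective σ) (p : α →₀ ℕ) (b : α' → ℕ) :
    ∑ j, p j * b (σ j) = ∑ j, p.mapDomain σ j * b j :=
  Fintype.sum_of_injective σ hσ _ _ (fun j h => by rw [sup_map p j h, zero_mul]) fun j => by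
    rw [Finsupp.mapDomain_apply hσ]

end Slot

theorem continuous_A : Continuous (D.A K) :=
  (continuous_pi fun _ => continuous_pi fun _ => continuous_pi fun _ => (continuous_apply _).comp
    ((continuous_apply _).comp ((continuous_apply _).comp continuous_fst))).prodMk
  (continuous_pi fun _ => continuous_pi fun _ => continuous_pi fun _ => (continuous_apply _).comp
    ((continuous_apply _).comp ((continuous_apply _).comp continuous_snd)))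

theorem rb_pw (ζ : ch'.Zt) (j : J) : D.rb j (pwT (D.zt ζ) j) = pwT ζ (D.φ j) :=
  ContinuousMultilinearMap.ext fun v =>
    (slotE D.σ_inj (D.sup_b j)).prod_comp fun s => ζ s.1 (v s)

variable (D) in
/-- Pull-back of the first components. -/
noncomputable def pb1 (j : J) : (D.ch.Pt → D.ch.Th j × D.ch.Th j → ℂ) →ₗ[ℂ]
    ch'.Pt → ch'.Th (D.φ j) × ch'.Th (D.φ j) → ℂ where
  toFun g z m := g (D.pt z) ((D.rb j).symm m.1, (D.rb j).symm m.2)
  map_add' _ _ := rfl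
  map_smul' _ _ := rfl

variable (D) in
/-- Pull-back of the second components. -/
noncomputable def pb2 : (D.ch.Pt → D.ch.Zt → ℂ) →ₗ[ℂ] ch'.Pt → ch'.Zt → ℂ where
  toFun g z ζ := g (D.pt z) (D.zt ζ)
  map_add' _ _ := rfl
  map_smul' _ _ := rfl

theorem pb1_rb {j : J} (g : D.ch.Pt → D.ch.Th j × D.ch.Th j → ℂ) (z : ch'.Pt)
    (m : D.ch.Th j × D.ch.Th j) : D.pb1 j g z (D.rb j m.1, D.rb j m.2) = g (D.pt z) m :=
  congrArg (g (D.pt z)) (Prod.ext ((D.rb j).symm_apply_apply _) ((D.rb j).symm_apply_apply _))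

theorem val_symm (j : J) (μ : ch'.Th (D.φ j)) (c : V ch'.M) :
    val ((D.rb j).symm μ) (rV D.σ c) = val μ c := by
  rw [← D.val_rb, ContinuousLinearEquiv.apply_symm_apply]

theorem A_pb1 {j : J} {g : D.ch.Pt → D.ch.Th j × D.ch.Th j → ℂ} (h : f.1 (D.φ j) = D.pb1 j g) :
    (D.A K f).1 j = g := funext₂ fun z m =>
  ((congrFun (congrFun h _) _).trans (pb1_rb g _ m)).trans (by rw [surjInv_eq D.pt_surj])

theorem A_pb2 {k : K} {g : D.ch.Pt → D.ch.Zt → ℂ} (h : f.2 k = D.pb2 g) : (D.A K f).2 k = g :=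
  funext₂ fun _ _ => (congrFun (congrFun h _) _).trans
    (congrArg₂ g (surjInv_eq D.pt_surj _) (surjInv_eq D.zt_surj _))

theorem span_G1 (j : J) :
    Submodule.span ℂ (ch'.G1 (D.φ j)) = (Submodule.span ℂ (D.ch.G1 j)).map (D.pb1 j) := by
  rw [Submodule.map_span]
  congr 1
  ext g
  constructor
  · rintro ⟨l, l', μ, y, rfl⟩
    refine ⟨_, ⟨l ∘L (D.rb j : _ →L[ℂ] _), l' ∘L (D.rb j : _ →L[ℂ] _), (D.rb j).symm μ, y, rfl⟩,
      funext₂ fun z m => ?_⟩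
    exact congrArg (· * z.2 _ y) (congrArg₂ (· * ·) (congrArg₂ (· * ·)
      (congrArg l ((D.rb j).apply_symm_apply _)) (congrArg l' ((D.rb j).apply_symm_apply _)))
      (val_symm j μ z.1))
  · rintro ⟨_, ⟨l, l', μ, y, rfl⟩, rfl⟩
    exact ⟨l ∘L ((D.rb j).symm : _ →L[ℂ] _), l' ∘L ((D.rb j).symm : _ →L[ℂ] _), D.rb j μ, y, rfl⟩

variable (D) in
/-- Compatible degrees and supports. -/
structure Cmp (e' : K → ι' → ℕ) (σ' : K → Finset (J' →₀ ℕ)) (e : K → ι → ℕ)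
    (σ : K → Finset (J →₀ ℕ)) : Prop where
  eq : ∀ k, e k = fun i => e' k (D.σ i)
  sup : ∀ k, Sup D.σ (e' k)
  mem : ∀ k α', α' ∈ σ' k ↔ ∃ α ∈ σ k, α.mapDomain D.φ = α'

namespace Cmp

variable {σ' : K → Finset (J' →₀ ℕ)} {e₀ : K → ι → ℕ} {σ : K → Finset (J →₀ ℕ)}
  (h : D.Cmp e σ' e₀ σ)
include h

theorem sup' (k : K) (α : J' →₀ ℕ) : Sup D.σ fun i => e k i - ∑ j, α j * ch'.b j i :=
  fun i hi => by simp only [h.sup k i hi, Nat.zero_sub]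

theorem eq' (k : K) (α : J →₀ ℕ) : (fun i => e₀ k i - ∑ j, α j * D.ch.b j i) =
    fun i => e k (D.σ i) - ∑ j, α.mapDomain D.φ j * ch'.b j (D.σ i) := funext fun i =>
  congrArg₂ (· - ·) (congrFun (h.eq k) i) (sum_map D.φ_inj α fun j => ch'.b j (D.σ i))

theorem span_G2 (k : K) :
    Submodule.span ℂ (ch'.G2 e σ' k) = (Submodule.span ℂ (D.ch.G2 e₀ σ k)).map D.pb2 := by
  rw [Submodule.map_span]
  congr 1
  have a := slot_ex D.σ_inj (h.sup k) (h.eq k) fun i => Fin (ch'.M i) → ℂ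
  have b := fun α : J →₀ ℕ => slot_ex D.φ_inj (sup_map α) (coe_map D.φ_inj α)
    fun j => ch'.E (some j)
  have c := fun α : J →₀ ℕ => form_ex D.σ_inj (h.sup' k _) (h.eq' k α) ch'.M
  ext g
  constructor
  · rintro ⟨_, hβ, v', y', μ', rfl⟩
    obtain ⟨α, hα, rfl⟩ := (h.mem k _).1 hβ
    obtain ⟨v, hv⟩ := a.1 v'
    obtain ⟨y, hy⟩ := (b α).1 y'
    obtain ⟨μ, hμ⟩ := (c α).1 μ'
    exact ⟨_, ⟨α, hα, v, y, μ, rfl⟩, funext₂ fun z ζ => congrArg₂ (· * ·) (congrArg₂ (· * ·)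
      (hv fun i => ζ i) (hy fun j => z.2 (some j))) (hμ z.1)⟩
  · rintro ⟨_, ⟨α, hα, v, y, μ, rfl⟩, rfl⟩
    obtain ⟨v', hv⟩ := a.2 v
    obtain ⟨y', hy⟩ := (b α).2 y
    obtain ⟨μ', hμ⟩ := (c α).2 μ
    exact ⟨_, (h.mem k _).2 ⟨α, hα, rfl⟩, v', y', μ', funext₂ fun z ζ => congrArg₂ (· * ·)
      (congrArg₂ (· * ·) (hv fun i => ζ i) (hy fun j => z.2 (some j))) (hμ z.1)⟩

theorem spec (hf : f ∈ ch'.polS e σ') : D.A K f ∈ D.ch.polS e₀ σ ∧
    (∀ j, f.1 (D.φ j) = D.pb1 j ((D.A K f).1 j)) ∧ ∀ k, f.2 k = D.pb2 ((D.A K f).2 k) := by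
  choose g a b using fun j => (span_G1 j).le ((mem_polS.1 hf).1 (D.φ j))
  choose g' a' b' using fun k => (h.span_G2 k).le ((mem_polS.1 hf).2 k)
  simp only [mem_polS, fun j => A_pb1 (b j).symm, fun k => A_pb2 (b' k).symm]
  exact ⟨⟨a, a'⟩, fun j => (b j).symm, fun k => (b' k).symm⟩

theorem fst (hf : f ∈ ch'.polS e σ') (j : J) (z : ch'.Pt) (m : D.ch.Th j × D.ch.Th j) :
    (D.A K f).1 j (D.pt z) m = f.1 (D.φ j) z (D.rb j m.1, D.rb j m.2) :=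
  ((congrFun (congrFun ((h.spec hf).2.1 j) _) _).trans (pb1_rb _ z m)).symm

theorem surj {g : D.ch.P K} (hg : g ∈ D.ch.polS e₀ σ) :
    ∃ f ∈ ch'.polS e σ', D.A K f = g ∧ (∀ j ∉ range D.φ, f.1 j = 0) ∧
      ∀ j, f.1 (D.φ j) = D.pb1 j (g.1 j) := by
  obtain ⟨w, a, b⟩ := exists_dep' (E := fun j => ch'.Pt → ch'.Th j × ch'.Th j → ℂ) D.φ_inj
    (fun _ => 0) fun j => D.pb1 j (g.1 j)
  refine ⟨(w, fun k => D.pb2 (g.2 k)), mem_polS.2 ⟨fun j => ?_, fun k =>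
    (h.span_G2 k).ge (Submodule.mem_map_of_mem ((mem_polS.1 hg).2 k))⟩,
    Prod.ext (funext fun j => A_pb1 (a j)) (funext fun k => A_pb2 rfl), b, a⟩
  by_cases hj : j ∈ range D.φ
  · obtain ⟨j, rfl⟩ := hj
    exact mem_of_eq_of_mem (a j)
      ((span_G1 j).ge (Submodule.mem_map_of_mem ((mem_polS.1 hg).1 j)))
  · exact mem_of_eq_of_mem (b j hj) (zero_mem _)

end Cmp

namespace FRes

variable (h : D.FRes F' e F)
include h

theorem cmp : D.Cmp e (fun k => (F'.G k).support) (D.e e) fun k => (F.G k).support := by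
  classical
  exact ⟨fun _ => rfl, h.sup, fun k α => by
    rw [h.G, MvPolynomial.support_rename_of_injective D.φ_inj, Finset.mem_image]⟩

theorem A_fst (hf : f ∈ ch'.polF F' e) (j : J) (z : ch'.Pt) (m : D.ch.Th j × D.ch.Th j) :
    (D.A K f).1 j (D.pt z) m = f.1 (D.φ j) z (D.rb j m.1, D.rb j m.2) := h.cmp.fst hf j z m

theorem A_snd (hf : f ∈ ch'.polF F' e) (k : K) (z : ch'.Pt) (ζ : ch'.Zt) :
    (D.A K f).2 k (D.pt z) (D.zt ζ) = f.2 k z ζ :=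
  (congrFun (congrFun ((h.cmp.spec hf).2.2 k) z) ζ).symm

theorem A_pol (hf : f ∈ ch'.polF F' e) : D.A K f ∈ D.ch.polF F (D.e e) := (h.cmp.spec hf).1

theorem A_surj {g : D.ch.P K} (hg : g ∈ D.ch.polF F (D.e e)) :
    ∃ f ∈ ch'.polF F' e, D.A K f = g ∧ ∀ j ∉ range D.φ, f.1 j = 0 :=
  let ⟨f, a, b, c, _⟩ := h.cmp.surj hg
  ⟨f, a, b, c⟩

theorem A_ρ (hf : f ∈ ch'.polF F' e) {s' : ch'.AF ν' κ' S} {s : D.ch.AF ν κ S}
    (h1 : s.1 = s'.1) (h2 : ∀ i, s.2.1 i = s'.2.1 (D.σ i))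
    (h3 : ∀ l, s.2.2.1 l = s'.2.2.1 (D.τ l)) : D.A K (ρF F' s' f) = ρF F s (D.A K f) := by
  obtain ⟨t, a, b, c⟩ := s
  obtain rfl : t = _ := h1
  obtain rfl : a = _ := funext h2
  obtain rfl : b = _ := funext h3
  refine P_ext (fun j z m => ?_) fun k z ζ => ?_
  · obtain ⟨z, rfl⟩ := D.pt_surj z
    rw [h.A_fst (ρF_mem hf), ρF_fst, ρF_fst, h.wt]
    exact congrArg _ (h.A_fst hf j (zz s' z) (sub (D.θ s'.2) _ m.1, sub (D.θ s'.2) _ m.2)).symm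
  · obtain ⟨z, rfl⟩ := D.pt_surj z
    obtain ⟨ζ, rfl⟩ := D.zt_surj ζ
    rw [h.A_snd (ρF_mem hf), ρF_snd, ρF_snd, h.wk]
    exact congrArg _ (h.A_snd hf k (zz s' z) fun i => ζ i ∘L s'.2.1 i).symm

theorem hp_eq (l : Λ → ℂ) (k : K) (ζ : ch'.Zt) (c : V ch'.M) : hp F' e l k ζ c =
    MvPolynomial.rename D.φ (hp (ch := D.ch) F (D.e e) l k (D.zt ζ) (rV D.σ c)) := by
  classical
  rw [hp, hp, h.G, MvPolynomial.support_rename_of_injective D.φ_inj,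
    Finset.sum_image (Finsupp.mapDomain_injective D.φ_inj).injOn, map_sum]
  refine Finset.sum_congr rfl fun α _ => ?_
  rw [MvPolynomial.rename_monomial, MvPolynomial.coeff_rename_mapDomain _ D.φ_inj]
  refine congrArg (fun t => MvPolynomial.monomial _ (_ * t)) (Fintype.prod_of_injective D.σ
    D.σ_inj _ _ (fun i hi => ?_) fun i => ?_).symm
  · rw [show e k i - _ = 0 from h.cmp.sup' k _ i hi, pow_zero]
  · exact congrArg (_ ^ ·) (congrFun (h.cmp.eq' k α) i)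

theorem fits (h' : ch'.Fits F' e) (hw : ∃ ℓ : R → ι → ℤ, ∀ j i, D.ch.wd j i = ∑ r, F.w j r * ℓ r i) :
    D.ch.Fits F (D.e e) := by
  refine ⟨hw, fun k α hα i => (sum_map D.φ_inj α fun j => ch'.b j (D.σ i)).trans_le
    (h'.le k _ ((h.cmp.mem k _).2 ⟨α, hα, rfl⟩) _), fun k hk => h'.ne k (funext fun i => ?_)⟩
  by_cases hi : i ∈ range D.σ
  · obtain ⟨i, rfl⟩ := hi
    exact congrFun hk i
  · exact h.sup k i hi

variable (hl : x.1 = x'.1) (hr : D.Rel x'.2 x.2)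
include hl hr

theorem yv_pw (z : ch'.Pt) (ζ : ch'.Zt) : (fun j => yv x'.2 z j (pwT ζ j)) ∘ D.φ =
    fun j => yv x.2 (D.pt z) j (pwT (D.zt ζ) j) := funext fun j =>
  (congrArg (z.2 (some (D.φ j))) ((hr.X j _).trans (congrArg _ (rb_pw ζ j)))).symm

theorem A_sct : D.A K (sctF F' e x') = sctF F (D.e e) x := by
  refine Prod.ext (funext fun j => A_pb1 (funext₂ fun z m => ?_))
    (funext fun k => A_pb2 (funext₂ fun z ζ => ?_))
  · have a := fun μ => (congrArg (z.2 (some (D.φ j))) ((hr.X j _).trans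
      (congrArg _ ((D.rb j).apply_symm_apply μ)))).symm
    exact congrArg₂ (· - ·) (congrArg₂ (· * ·) (val_symm j _ _).symm (a _))
      (congrArg₂ (· * ·) (val_symm j _ _).symm (a _))
  · refine (sctF_snd _ _ _ _).trans (Eq.trans ?_ (sctF_snd x k (D.pt z) (D.zt ζ)).symm)
    rw [h.hp_eq, MvPolynomial.eval_rename, hl]
    exact congrArg (MvPolynomial.eval · _) (h.yv_pw hl hr z ζ)

theorem A_van (hf : f ∈ vanM F' e x') : D.A K f ∈ vanM F (D.e e) x := by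
  obtain ⟨a, b⟩ := mem_vanM.1 hf
  refine mem_vanM.2 ⟨h.A_pol a, fun z hz' => ?_⟩
  obtain ⟨z, hz, rfl⟩ := hr.onto z hz'
  refine Prod.ext (funext₂ fun j m => (h.A_fst a j z m).trans
    (congrFun (congrFun (congrArg Prod.fst (b z hz)) _) _)) (funext₂ fun k ζ => ?_)
  obtain ⟨ζ, rfl⟩ := D.zt_surj ζ
  exact (h.A_snd a k z ζ).trans (congrFun (congrFun (congrArg Prod.snd (b z hz)) _) _)

theorem dEq_snd (z : ch'.Pt) {Y : ∀ j, ch'.Th j →ₗ[ℂ] ℂ} (hY : ∀ j ∉ range D.φ, Y j = 0) (k : K)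
    (ζ : ch'.Zt) : ((pd F (D.e e) x (D.pt z)).dEq pwT
      fun j => Y (D.φ j) ∘ₗ (D.rb j).toLinearEquiv.toLinearMap).2 k (D.zt ζ) =
      ((pd F' e x' z).dEq pwT Y).2 k ζ := by
  refine Fintype.sum_of_injective D.φ D.φ_inj _ _ (fun j hj => by simp [hY j hj]) fun j =>
    congrArg₂ (· * ·) ?_ (congrArg (Y (D.φ j)) (rb_pw ζ j))
  simp only [pd]
  rw [h.hp_eq, MvPolynomial.pderiv_rename D.φ_inj, MvPolynomial.eval_rename, hl, h.yv_pw hl hr]
  rfl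

theorem A_obs (hf : f ∈ obsM F' e x') : D.A K f ∈ obsM F (D.e e) x := by
  obtain ⟨a, b⟩ := mem_obsM.1 hf
  refine mem_obsM.2 ⟨h.A_pol a, fun z hz' => ?_⟩
  obtain ⟨z, hz, rfl⟩ := hr.onto z hz'
  obtain ⟨Y, c, d⟩ := Vir.PD.mem_Im.1 (b z hz)
  rw [h.mov] at c
  refine Vir.PD.mem_Im.2 ⟨fun j => Y (D.φ j) ∘ₗ (D.rb j).toLinearEquiv.toLinearMap, fun j hj => ?_,
    Prod.ext (funext₂ fun j m => (congrFun (congrFun (congrArg Prod.fst d) _) _).trans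
      (h.A_fst a j z m).symm) (funext₂ fun k ζ => ?_)⟩
  · exact LinearMap.ext fun _ => DFunLike.congr_fun (c _ fun t => hj (D.φ_inj.mem_set_image.1 t)) _
  · obtain ⟨ζ, rfl⟩ := D.zt_surj ζ
    exact ((h.dEq_snd hl hr z (fun j hj => c j fun t => hj (image_subset_range _ _ t)) k ζ).trans
      (congrFun (congrFun (congrArg Prod.snd d) _) _)).trans (h.A_snd a k z ζ).symm

theorem A_inj (hf : f ∈ obsM F' e x') (h0 : D.A K f ∈ vanM F (D.e e) x) : f ∈ vanM F' e x' := by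
  obtain ⟨a, b⟩ := mem_obsM.1 hf
  refine mem_vanM.2 ⟨a, fun z hz => ?_⟩
  have c := (mem_vanM.1 h0).2 _ (hr.into z hz)
  refine Prod.ext (funext₂ fun j m => ?_) (funext₂ fun k ζ => (h.A_snd a k z ζ).symm.trans
    (congrFun (congrFun (congrArg Prod.snd c) _) _))
  by_cases hj : j ∈ range D.φ
  · obtain ⟨j, rfl⟩ := hj
    exact (congrFun (congrFun ((h.cmp.spec a).2.1 j) z) m).trans
      (congrFun (congrFun (congrArg Prod.fst c) j) _)
  · obtain ⟨Y, c, d⟩ := Vir.PD.mem_Im.1 (b z hz)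
    rw [← d, Vir.PD.dEq_fst, c j fun t => hj (image_subset_range _ _ (h.mov ▸ t))]
    exact Vir.kos_zero m

theorem A_obs_surj {g : D.ch.P K} (hg : g ∈ obsM F (D.e e) x) :
    ∃ f ∈ obsM F' e x', D.A K f = g := by
  obtain ⟨a, b⟩ := mem_obsM.1 hg
  obtain ⟨f, f1, rfl, f2, f3⟩ := h.cmp.surj a
  refine ⟨f, mem_obsM.2 ⟨f1, fun z hz => ?_⟩, rfl⟩
  obtain ⟨Y, c, d⟩ := Vir.PD.mem_Im.1 (b _ (hr.into z hz))
  obtain ⟨Y', p, q⟩ := exists_dep' (E := fun j => ch'.Th j →ₗ[ℂ] ℂ) D.φ_inj (fun _ => 0)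
    fun j => Y j ∘ₗ (D.rb j).symm.toLinearEquiv.toLinearMap
  obtain rfl : (fun j => Y' (D.φ j) ∘ₗ (D.rb j).toLinearEquiv.toLinearMap) = Y :=
    funext fun j => LinearMap.ext fun m => by
      rw [p]
      exact congrArg (Y j) ((D.rb j).symm_apply_apply m)
  refine Vir.PD.mem_Im.2 ⟨Y', fun j hj => ?_, Prod.ext (funext₂ fun j m => ?_)
    (funext₂ fun k ζ => ((h.dEq_snd hl hr z q k ζ).symm.trans
      (congrFun (congrFun (congrArg Prod.snd d) _) _)).trans (h.A_snd f1 k z ζ))⟩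
  · by_cases t : j ∈ range D.φ
    · obtain ⟨j, rfl⟩ := t
      exact (p j).trans (LinearMap.ext fun _ =>
        DFunLike.congr_fun (c j fun t => hj (h.mov ▸ mem_image_of_mem _ t)) _)
    · exact q j t
  · by_cases t : j ∈ range D.φ
    · obtain ⟨j, rfl⟩ := t
      obtain ⟨m, rfl⟩ := ((D.rb j).surjective.prodMap (D.rb j).surjective) m
      exact (congrFun (congrFun (congrArg Prod.fst d) j) m).trans (h.A_fst f1 j z m)
    · rw [Vir.PD.dEq_fst, q j t, Vir.kos_zero]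
      exact (congrFun (congrFun (f2 j t) z) m).symm

end FRes

/-- the Koszul functions of one field -/
theorem A_kos (j : J) :
    (∀ f ∈ ch'.polS (K := Empty) Empty.elim Empty.elim, (∀ j' ≠ D.φ j, f.1 j' = 0) →
      D.A Empty f ∈ D.ch.polS (K := Empty) Empty.elim Empty.elim ∧ (∀ j' ≠ j, (D.A Empty f).1 j' = 0) ∧
      ∀ z m, (D.A Empty f).1 j (D.pt z) m = f.1 (D.φ j) z (D.rb j m.1, D.rb j m.2)) ∧
    ∀ g ∈ D.ch.polS (K := Empty) Empty.elim Empty.elim, (∀ j' ≠ j, g.1 j' = 0) →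
      ∃ f ∈ ch'.polS (K := Empty) Empty.elim Empty.elim, (∀ j' ≠ D.φ j, f.1 j' = 0) ∧
        D.A Empty f = g := by
  have h : D.Cmp (K := Empty) Empty.elim Empty.elim Empty.elim Empty.elim :=
    ⟨fun k => k.elim, fun k => k.elim, fun k => k.elim⟩
  refine ⟨fun f hf h0 => ⟨(h.spec hf).1, fun j' hj => A_pb1
    ((h0 _ (D.φ_inj.ne hj)).trans (map_zero _).symm), h.fst hf j⟩, fun g hg h0 => ?_⟩
  obtain ⟨f, a, b, c, d⟩ := h.surj hg
  refine ⟨f, a, fun j' hj => ?_, b⟩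
  by_cases t : j' ∈ range D.φ
  · obtain ⟨j', rfl⟩ := t
    rw [d, h0 j' fun t => hj (congrArg _ t), map_zero]
  · exact c j' t

end Vale.Agent.P269.Ch.Res
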