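import Vale.Agent.P269.Map.SQ
import Vale.Agent.P269.Map.Pol
import Vale.Agent.P269.Vir.Ind

set_option linter.all false

/-!
# The index classes
-/

namespace Vale.Agent.P269.Ch

open Set Function Topology Filter P291Z Base

theorem map_div {A B : Type} [CommRing A] [CommRing B] (φ : A →+* B) (a : PowerSeries A)
    {b : PowerSeries A} (h : PowerSeries.constantCoeff b = 1) :
    PowerSeries.map φ a * (PowerSeries.map φ b).invOfUnit 1 =
      PowerSeries.map φ (a * b.invOfUnit 1) := by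
  have c := congrArg (PowerSeries.map φ) (PowerSeries.mul_invOfUnit b 1 h)
  have d := PowerSeries.mul_invOfUnit (PowerSeries.map φ b) 1 (by
    rw [← PowerSeries.coeff_zero_eq_constantCoeff_apply, PowerSeries.coeff_map,
      PowerSeries.coeff_zero_eq_constantCoeff_apply, h, map_one, Units.val_one])
  rw [map_mul, map_one] at c
  rw [map_mul]
  linear_combination PowerSeries.map φ a * (PowerSeries.map φ (b.invOfUnit 1) * d -
    (PowerSeries.map φ b).invOfUnit 1 * c)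

variable {S Λ R R' J J' ι ι' ν κ : Type} [Fintype S] [Fintype Λ] [Fintype R] [Fintype R']
  [Fintype J] [Fintype J'] [Fintype ι] [DecidableEq ι] [Fintype ι'] [DecidableEq ι'] [Fintype ν]
  [Fintype κ] {ch : Ch ι J} {F : Wt S Λ R J} {Z Z' : Set (ch.WF ν κ Λ)} {x : ch.WF ν κ Λ} {j : J}

theorem Cuts.exists_okK (hc : ch.Cuts) (hZ : ∀ x ∈ Z, x.2 ∈ ch.base _) (j : J) :
    ∃ r r' : ℕ, (ch.sdK ν κ F j).Ok (actF F) Z r r' ∧ (Z.Nonempty → (r : ℤ) = r' +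
      (Module.finrank ℂ (ch.Th j) * ch.eu (fun i => ch.a (some j) i) - ch.eu (ch.wd j))) :=
  ⟨_, _, hc.okK hZ j, fun ⟨x, a⟩ => by
    rw [Nat.cast_add, rkO_eq hc.ne (hZ x a), h_eq₁ (hZ x a) (hc.ne _)]; rfl⟩

variable [Holo.IsAct (actF F) Z] (ho : Orb.Orb (ch.AF ν κ S)ˣ (Holo.Sp (actF F) Z)) (hc : ch.Cuts)
  (hZ : ∀ x ∈ Z, x.2 ∈ ch.base _)
include ho hc hZ

theorem indC_const (j : J) : PowerSeries.constantCoeff (indC F Z j) = 1 := by
  rw [indC_eq, map_mul, (okX Z j).constCoeff ho, PowerSeries.constantCoeff_invOfUnit, inv_one,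
    Units.val_one, one_mul]

theorem indC_mul (j : J) : indC F Z j * (ch.sdK ν κ F j).ch (actF F) Z =
    (ch.sdX ν κ F j).ch (actF F) Z := by
  rw [indC_eq, mul_assoc, PowerSeries.invOfUnit_mul _ _ ((hc.okK hZ j).constCoeff ho), mul_one]

theorem indC_deg (j : J) (m : ℕ) : PowerSeries.coeff m (indC F Z j) ∈ Hev.deg _ m := by
  induction m using Nat.strong_induction_on with
  | _ m ih =>
  have a := (okX Z j).coeff_deg ho m
  rw [← indC_mul ho hc hZ, PowerSeries.coeff_mul, ← Finset.add_sum_erase _ _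
    (a := (m, 0)) (by simp), PowerSeries.coeff_zero_eq_constantCoeff_apply,
    (hc.okK hZ j).constCoeff ho, mul_one] at a
  refine (add_mem_cancel_right (sum_mem fun p hp => ?_)).1 a
  obtain ⟨b, c⟩ := Finset.mem_erase.1 hp
  have d : p.1 + p.2 = m := by simpa using c
  have e : p.1 < m := by
    by_contra e
    exact b (Prod.ext (by omega) (by omega))
  have := Hev.mul_deg (ih _ e) ((hc.okK hZ j).coeff_deg ho p.2)
  rwa [← Nat.cast_add, d] at this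

/-- maps that do not change the curve -/
theorem indC_same {F' : Wt S Λ R' J} [Holo.IsAct (actF F') Z']
    (ho' : Orb.Orb (ch.AF ν κ S)ˣ (Holo.Sp (actF F') Z')) (hZ' : ∀ x ∈ Z', x.2 ∈ ch.base _)
    {f : ch.WF ν κ Λ → ch.WF ν κ Λ} (hf : EqM (actF F') (actF F) Z' Z id f)
    (e : ∀ x ∈ Z', gr (f x).2 = gr x.2) (hw : F'.wt j = F.wt j) :
    indC F' Z' j = PowerSeries.map (Hev.map hf.map).toRingHom (indC F Z j) := by
  have a := ((okX Z' j).pull ho' ho (okX Z j) hf (L := fun _ => .id) ⟨fun _ _ => continuousOn_const,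
    fun _ _ _ _ => trivial, fun _ _ _ a => a, fun _ _ s _ X _ => sub_eq_zero.2 (by
      simp only [ρX, hw]; rfl)⟩ (fun _ _ _ _ a => a) fun _ _ X _ => ⟨X, trivial, sub_self X⟩).2
  have n : ∀ x ∈ Z', (ch.sdK ν κ F j).N (f x) = (ch.sdK ν κ F' j).N x := fun x a => by
    simp only [e x a]
  have b : ∀ x ∈ Z', (ch.sdK ν κ F j).B (f x) = (ch.sdK ν κ F' j).B x := fun x a => by
    simp only [e x a]
  have c := ((hc.okK hZ' j).pull ho' ho (hc.okK hZ j) hf (L := fun _ => .id)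
    ⟨fun _ _ => continuousOn_const, fun x a _ c => (b x a).ge c, fun x a _ c => (n x a).ge c,
      fun _ _ s _ w c => (sub_eq_zero.2 (ext_polK (ρK_polK (F := F') (s := s) (mem_sdK_B.1 c).1)
        (ρK_polK (F := F) (s := s) (mem_sdK_B.1 c).1) (by simp only [ρK, ρ, hw]))).symm ▸ zero_mem _⟩
    (fun x a _ _ c => (n x a).le c) fun x a w c => ⟨w, (b x a).le c, (sub_self w).symm ▸ zero_mem _⟩).2
  rw [indC_eq, indC_eq, a, c, map_div _ _ ((hc.okK hZ j).constCoeff ho)]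

omit ho hc hZ in
/-- restriction to a smaller chart, possibly with other markings -/
theorem indC_res' {ν' κ' : Type} [Fintype ν'] [Fintype κ'] {ch' : Ch ι' J'} {D : ch'.Res ι J}
    {F' : Wt S Λ R' J'} {Z : Set (D.ch.WF ν κ Λ)}
    {Z' : Set (ch'.WF ν' κ' Λ)} [Holo.IsAct (actF F) Z] [Holo.IsAct (actF F') Z']
    (ho : Orb.Orb (D.ch.AF ν κ S)ˣ (Holo.Sp (actF F) Z)) (hc : D.ch.Cuts)
    (hZ : ∀ x ∈ Z, x.2 ∈ D.ch.base _) (ho' : Orb.Orb (ch'.AF ν' κ' S)ˣ (Holo.Sp (actF F') Z'))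
    (hc' : ch'.Cuts) (hZ' : ∀ x ∈ Z', x.2 ∈ ch'.base _) {θ : ch'.AF ν' κ' S → D.ch.AF ν κ S}
    (hθ : ∀ s, (θ s).1 = s.1 ∧ (∀ i, (θ s).2.1 i = s.2.1 (D.σ i)) ∧
      ∀ l, (θ s).2.2.1 l = s.2.2.1 (D.τ l))
    {f : ch'.WF ν' κ' Λ → D.ch.WF ν κ Λ} (hf : EqM (actF F') (actF F) Z' Z θ f)
    (e : ∀ x ∈ Z', (∀ z ∈ gr x.2, D.pt z ∈ gr (f x).2) ∧ ∀ z ∈ gr (f x).2, ∃ z' ∈ gr x.2, D.pt z' = z)
    (hw : F.wt j = F'.wt (D.φ j)) :
    indC F' Z' (D.φ j) = PowerSeries.map (Hev.map hf.map).toRingHom (indC F Z j) := by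
  have t : ∀ s, ∃ c, θ s = (s.1, (fun i => s.2.1 (D.σ i)), (fun l => s.2.2.1 (D.τ l)), c) := fun s =>
    ⟨(θ s).2.2.2, Prod.ext (hθ s).1 (Prod.ext (funext (hθ s).2.1) (Prod.ext (funext (hθ s).2.2) rfl))⟩
  let L : (ch'.Th (D.φ j) →L[ℂ] ch'.E (some (D.φ j))) →ₗ[ℂ] D.ch.Th j →L[ℂ] D.ch.E (some j) :=
    { toFun := fun X => X ∘L (D.rb j : _ →L[ℂ] _)
      map_add' := fun _ _ => rfl
      map_smul' := fun _ _ => rfl }
  have a := ((okX Z' _).pull ho' ho (okX Z j) hf (L := fun _ => L) ⟨fun _ _ => continuousOn_const,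
    fun _ _ _ _ => trivial, fun _ _ _ a => (congrArg L a).trans L.map_zero,
      fun _ _ s _ X _ => sub_eq_zero.2 (by
        obtain ⟨c, t⟩ := t s
        simp only [ρX, hw, t]; rfl)⟩
    (fun _ _ X _ a => ContinuousLinearMap.ext fun m => by
      obtain ⟨m, rfl⟩ := (D.rb j).surjective m
      exact DFunLike.congr_fun a m) fun _ _ X _ => ⟨X ∘L ((D.rb j).symm : _ →L[ℂ] _), trivial,
        sub_eq_zero.2 (ContinuousLinearMap.ext fun m => congrArg X ((D.rb j).symm_apply_apply m))⟩).2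
  obtain ⟨k1, k2⟩ := Res.A_kos (D := D) j
  have p : ∀ w ∈ ch'.polK (D.φ j), D.A Empty w ∈ D.ch.polK j := fun w b =>
    ⟨(k1 w b.1 b.2).1, (k1 w b.1 b.2).2.1⟩
  have q : ∀ w ∈ ch'.polK (D.φ j), _ := fun w b => (k1 w b.1 b.2).2.2
  rw [indC_eq, indC_eq, a, ← map_div _ _ ((hc.okK hZ j).constCoeff ho)]
  refine congrArg (fun t => _ * PowerSeries.invOfUnit t 1) ((hc'.okK hZ' (D.φ j)).pull ho' ho
    (hc.okK hZ j) hf (L := fun _ => D.A Empty)
    ⟨fun _ _ => continuousOn_const, fun x a w c => ?_, fun x a w c => ?_, fun _ _ s _ w c => ?_⟩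
    (fun x a w c d => ?_) fun x a w c => ?_).2
  · obtain ⟨c, d⟩ := mem_sdK_B.1 c
    refine mem_sdK_B.2 ⟨p w c, fun z hz => ?_⟩
    obtain ⟨z, hz', rfl⟩ := (e x a).2 z hz
    obtain ⟨y, d⟩ := d z hz'
    exact ⟨y ∘L (D.rb j : _ →L[ℂ] _), fun m =>
      (q w c z m).trans ((d (D.rb j m.1, D.rb j m.2)).trans (by rw [D.val_rb, D.val_rb]; rfl))⟩
  · obtain ⟨c, d⟩ := mem_sdK_N.1 c
    refine mem_sdK_N.2 ⟨p w c, fun z hz => ?_⟩
    obtain ⟨z, hz', rfl⟩ := (e x a).2 z hz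
    exact funext fun m => (q w c z m).trans (congrFun (d z hz') _)
  · have c := (mem_sdK_B.1 c).1
    refine (sub_eq_zero.2 (ext_polK (p _ (ρK_polK (F := F') (s := s) c))
      (ρK_polK (F := F) (s := θ s) (p w c)) (funext₂ fun z m => ?_))).symm ▸ zero_mem _
    obtain ⟨z, rfl⟩ := D.pt_surj z
    refine (q _ (ρK_polK (F := F') (s := s) c) z m).trans ?_
    obtain ⟨c', t⟩ := t s
    rw [t, ρK_eq (j := D.φ j), ρK_eq (j := j), ρF_fst, ρF_fst]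
    exact congrArg₂ (· * ·) (congrArg (fun w : S → ℤ => ∏ i, s.1 i ^ w i) hw.symm)
      (q w c (zz s z) (sub (D.θ s.2) _ m.1, sub (D.θ s.2) _ m.2)).symm
  · have c := (mem_sdK_B.1 c).1
    refine mem_sdK_N.2 ⟨c, fun z hz => funext fun m => ?_⟩
    obtain ⟨m, rfl⟩ := ((D.rb j).surjective.prodMap (D.rb j).surjective) m
    exact (q w c z m).symm.trans (congrFun ((mem_sdK_N.1 d).2 _ ((e x a).1 z hz)) m)
  · obtain ⟨c, d⟩ := mem_sdK_B.1 c
    obtain ⟨w, g1, g2, rfl⟩ := k2 w c.1 c.2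
    refine ⟨w, mem_sdK_B.2 ⟨⟨g1, g2⟩, fun z hz => ?_⟩, (sub_self (D.A Empty w)).symm ▸ zero_mem _⟩
    obtain ⟨y, d⟩ := d _ ((e x a).1 z hz)
    refine ⟨y ∘L ((D.rb j).symm : _ →L[ℂ] _), fun m => ?_⟩
    obtain ⟨m, rfl⟩ := ((D.rb j).surjective.prodMap (D.rb j).surjective) m
    refine ((q w ⟨g1, g2⟩ z m).symm.trans (d m)).trans ?_
    simp
    rfl

omit ho hc hZ in
/-- restriction to a smaller chart -/
theorem indC_res {ch' : Ch ι' J'} {D : ch'.Res ι J} {F' : Wt S Λ R' J'} {Z : Set (D.ch.WF ν κ Λ)}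
    {Z' : Set (ch'.WF ν κ Λ)} [Holo.IsAct (actF F) Z] [Holo.IsAct (actF F') Z']
    (ho : Orb.Orb (D.ch.AF ν κ S)ˣ (Holo.Sp (actF F) Z)) (hc : D.ch.Cuts)
    (hZ : ∀ x ∈ Z, x.2 ∈ D.ch.base _) (ho' : Orb.Orb (ch'.AF ν κ S)ˣ (Holo.Sp (actF F') Z'))
    (hc' : ch'.Cuts) (hZ' : ∀ x ∈ Z', x.2 ∈ ch'.base _)
    {f : ch'.WF ν κ Λ → D.ch.WF ν κ Λ} (hf : EqM (actF F') (actF F) Z' Z D.θF f)
    (e : ∀ x ∈ Z', (∀ z ∈ gr x.2, D.pt z ∈ gr (f x).2) ∧ ∀ z ∈ gr (f x).2, ∃ z' ∈ gr x.2, D.pt z' = z)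
    (hw : F.wt j = F'.wt (D.φ j)) :
    indC F' Z' (D.φ j) = PowerSeries.map (Hev.map hf.map).toRingHom (indC F Z j) :=
  indC_res' ho hc hZ ho' hc' hZ' (fun _ => ⟨rfl, fun _ => rfl, fun _ => rfl⟩) hf e hw

end Vale.Agent.P269.Ch
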