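import Vale.Agent.P269.Map.Pj
import Vale.Agent.P269.Bas.Lv
import Vale.Agent.P269.Bas.Dg
import Vale.Agent.P269.Br.Tr

set_option linter.unusedSectionVars false
set_option linter.style.haveILetI false

/-!
# The integrals do not depend on the chart
-/

namespace Vale.Agent.P269

open P291Z Set Function Topology Filter Base Holo

theorem ev_res_homeo {X Y : Type} [TopologicalSpace X] [TopologicalSpace Y] [Nice X] [Nice Y]
    {Φ : X → Y} (h : IsHomeomorph Φ) (v : BM Y) (a : Coch Y) : ev (res Φ v) (pull Φ a) = ev v a :=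
  (Br.ev_push_homeo h.homeomorph _ a).symm.trans (congrArg (ev · a) (push_res_homeo h v))

theorem ev_two {X Y₁ Y₂ α : Type} [TopologicalSpace X] [TopologicalSpace Y₁] [TopologicalSpace Y₂]
    [Nice X] [Nice Y₁] [Nice Y₂] {Φ₁ : X → Y₁} {Φ₂ : X → Y₂} (a₁ : IsHomeomorph Φ₁)
    (a₂ : IsHomeomorph Φ₂) {v₁ v₂} (hv : res Φ₁ v₁ = res Φ₂ v₂) {s₁ s₂} (hs : Φ₁ ⁻¹' s₁ = Φ₂ ⁻¹' s₂)
    (hc : IsClopen s₁) {L : List α} {c₁ c₂} {A : α → Set Y₁}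
    (h : ∀ f ∈ L, supp (δ (c₁ f)) = ∅ ∧ supp (c₁ f) ⊆ A f)
    (h' : ∀ f ∈ L, Cohom (Φ₁ ⁻¹' A f) (pull Φ₁ (c₁ f)) (pull Φ₂ (c₂ f))) {K} (hK : IsCompact K)
    (hA : ∀ y, (∀ f ∈ L, y ∈ A f) → y ∈ K) :
    ev v₁ (ind s₁ * (L.map c₁).prod) = ev v₂ (ind s₂ * (L.map c₂).prod) := by
  rw [← ev_res_homeo a₁, ← ev_res_homeo a₂, hv, map_mul, map_mul, pull_ind, pull_ind, map_list_prod,
    map_list_prod, List.map_map, List.map_map, ev_eq, ev_eq, ← hs]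
  exact congrArg _ (NF.cls_congr (A := fun f => Φ₁ ⁻¹' A f) (fun f hf =>
    ⟨cocycle_pull a₁.continuous (h f hf).1, (supp_pull a₁.continuous _).trans
      (preimage_mono (h f hf).2)⟩) (List.forall₂_map_right_iff.2 (List.forall₂_same.2 h'))
    (cocycle_ind' (hc.preimage a₁.continuous)) (subset_univ _) (Cohom.refl _ _)
    (a₁.isClosedEmbedding.isCompact_preimage hK) fun _ _ => hA _).2.2

/-- existence and uniqueness upstairs -/
theorem Ch.KD.Pl.eq_res' {A A' W W' P P' : Type} [NormedRing A] [NormedAlgebra ℂ A]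
    [NormedAddCommGroup W] [NormedSpace ℂ W] [AddCommGroup P] [Module ℂ P] [TopologicalSpace P]
    [NormedRing A'] [NormedAlgebra ℂ A'] [NormedAddCommGroup W'] [NormedSpace ℂ W']
    [AddCommGroup P'] [Module ℂ P'] [TopologicalSpace P'] [IsTopologicalAddGroup P]
    [ContinuousSMul ℂ P] [T2Space P] [IsTopologicalAddGroup P'] [ContinuousSMul ℂ P'] [T2Space P']
    [FiniteDimensional ℂ A] [FiniteDimensional ℂ A'] [FiniteDimensional ℂ W]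
    [FiniteDimensional ℂ W'] {act : A → W → W} {act' : A' → W' → W'} [IsAct act univ]
    [IsAct act' univ] {Z S T : Set W} {Z' S' T' O' : Set W'} {D : Ch.KD A W P} {D' : Ch.KD A' W' P'}
    {n' r' : ℕ} {θ : A →L[ℂ] A'} {f : W → W'} {B : P →ₗ[ℂ] P'}
    [Nice (Quo act' Z')] (h : Pl D D' act act' T T' θ f B Z S Z' S') {Φ : Quo act Z → Quo act' Z'}
    (e : ∀ x : Z, Φ (Quo.mk act x) = Quo.mk act' ⟨f x, h.maps x.2⟩) (h' : D'.Gd act' Z' O' n' r')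
    (ho : ∃ U, IsOpen U ∧ O' = S' ∩ U) (hU : Ch.UF act' O') {β : BM (Quo act' O')}
    (hβ : IsFund act' O' β) : (∃ O n r, D.Gd act Z O n r) ∧ IsOpenEmbedding Φ ∧
      ∀ w, D.IsV act Z S w ↔ w = res Φ (D'.vr act' Z' O' β) := by
  obtain ⟨O, n, r, hG, a, hB, hL⟩ := h.exists_gd h' ho
  haveI := h'.nice
  obtain ⟨b, c, k⟩ := h.pull e h' hG hB hL
  haveI := h'.dom.isAct
  refine ⟨⟨_, _, _, hG⟩, b, fun w => ⟨fun hw => ?_, fun hw => hw ▸ c β ▸ hG.isV a (k β hβ)⟩⟩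
  obtain ⟨κ, i, h1, -, -, h2⟩ := hG.exists_isKP
  rw [c, h2]
  exact hw.eq_vir' (TrP.uf_lift hB h'.dom.orb h'.lc hU)
    ⟨hG.dom.sub, a, hG.dom.isAct, hG.dom.orb, hG.dom.zero⟩ h1 (k β hβ)

variable {S Λ R R' J J' K ι ι' ι₁ ι₂ ν κ : Type} [Fintype S] [Fintype Λ] [Fintype R] [Fintype R']
  [Fintype J] [Fintype J'] [Fintype K] [Fintype ι] [DecidableEq ι] [Fintype ι'] [DecidableEq ι']
  [Fintype ι₁] [DecidableEq ι₁] [Fintype ι₂] [DecidableEq ι₂] [Fintype ν] [Fintype κ]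

namespace Ch

section two

variable {ch' : Ch ι' J'} {W : Wt S Λ R' J'} {F : Fam S Λ R J K} {Z' : Set (ch'.WF ν κ Λ)}

theorem Res.RC.cl_tw {D : ch'.Res ι J} {Z : Set (D.ch.WF ν κ Λ)} {f} (h : D.RC W F.toWt Z' Z f)
    (o' : OZ W Z') (o : OZ F.toWt Z) (Θ : MvPolynomial (J × ℕ) ℂ) :
    H.map h.toEqM.map (F.cl Z (.tw Θ)) = (MvPolynomial.aeval
      (fun x : J × ℕ => PowerSeries.coeff x.2 (Ch.indC W Z' (D.φ x.1))) Θ).1 := by
  rw [Fam.cl_tw, ← Hev.coe_map, MvPolynomial.comp_aeval_apply]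
  simp only [h.indC o' o, PowerSeries.coeff_map]
  rfl

/-- two projections of the same chart -/
theorem Res.RC.cohom {D₁ : ch'.Res ι₁ J} {D₂ : ch'.Res ι₂ J} {Z₁ : Set (D₁.ch.WF ν κ Λ)}
    {Z₂ : Set (D₂.ch.WF ν κ Λ)} {f₁ f₂ ℓ₁ ℓ₂} (r₁ : D₁.RC W F.toWt Z' Z₁ f₁)
    (r₂ : D₂.RC W F.toWt Z' Z₂ f₂) (hφ : D₁.φ = D₂.φ) (o' : OZ W Z') (g₁ : GZ F ℓ₁ Z₁)
    (g₂ : GZ F ℓ₂ Z₂) (hd : F.IsDiag F.diag) {f : Fac F.toWt ν κ} (a₁ : f.At Z₁) (a₂ : f.At Z₂) :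
    Cohom (r₁.toEqM.map ⁻¹' f.spt Z₁) (pull r₁.toEqM.map (F.coch Z₁ f))
      (pull r₂.toEqM.map (F.coch Z₂ f)) := by
  have v : ∀ x ∈ Z', ∀ n, vl (f₁ x) n = vl (f₂ x) n := fun x hx n => by
    rw [r₁.vl_eq o' g₁.toOZ hx, r₂.vl_eq o' g₂.toOZ hx, hφ]
  have k : H.map r₁.toEqM.map (F.cl Z₁ f) = H.map r₂.toEqM.map (F.cl Z₂ f) → Cohom univ
      (pull r₁.toEqM.map (F.coch Z₁ f)) (pull r₂.toEqM.map (F.coch Z₂ f)) := fun e =>
    NF.cohom_of_hcls (cocycle_pull r₁.toEqM.map.continuous (g₁.cocycle hd a₁))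
      (cocycle_pull r₂.toEqM.map.continuous (g₂.cocycle hd a₂))
      ((H.map_hcls _ (g₁.cocycle hd a₁)).symm.trans (e.trans (H.map_hcls _ (g₂.cocycle hd a₂))))
  cases f with
  | psi n => exact k ((r₁.psi o' g₁.toOZ n).symm.trans (r₂.psi o' g₂.toOZ n))
  | ev n A c =>
    refine k ?_
    rw [g₁.cl_ev n a₁, g₂.cl_ev n a₂, H.map_map, H.map_map]
    exact congrArg (H.map · c) (ContinuousMap.ext fun z => Quot.inductionOn z fun x =>
      congrArg (Quo.mk _) (Subtype.ext (v x x.2 n)))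
  | par A c =>
    refine k ?_
    rw [g₁.cl_par a₁, g₂.cl_par a₂, H.map_map, H.map_map]
    exact congrArg (H.map · c) (ContinuousMap.ext fun z => Quot.inductionOn z fun x =>
      congrArg (Quo.mk _) (Subtype.ext ((r₁.fst x x.2).trans (r₂.fst x x.2).symm)))
  | dg q =>
    rw [show F.coch Z₁ (.dg q) = _ from g₁.evN_eq q _, show F.coch Z₂ (.dg q) = _ from g₂.evN_eq q _,
      pull_pull, pull_pull, show (g₂.eqh_nd q).toEqv.qm ∘ r₂.toEqM.map =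
        (g₁.eqh_nd q).toEqv.qm ∘ r₁.toEqM.map from funext fun z => Quot.inductionOn z fun x =>
          congrArg (Quo.mk _) (Subtype.ext (Prod.ext ((r₂.fst x x.2).trans (r₁.fst x x.2).symm)
            (Prod.ext (congrArg Prod.snd (v x x.2 _).symm :) (congrArg Prod.snd (v x x.2 _).symm :))))]
    exact Cohom.refl _ _
  | tw Θ => exact k (by rw [r₁.cl_tw o' g₁.toOZ, r₂.cl_tw o' g₂.toOZ, hφ])

end two

/-- The integral in the chart `ch`. -/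
noncomputable def itr (ch : Ch ι J) (F : Fam S Λ R J K) (e : K → ι → ℕ) (ℓ : R → ι → ℤ)
    (u : ν → J → ℕ) (P : AM Λ R J ν κ → Prop) (fs : List (Fac F.toWt ν κ)) : ℂ :=
  ev (virF F e (ch.cyc κ F u)) (ind (selQ F.toWt ℓ _ P) * (fs.map (F.coch _)).prod)

/-- A good chart for the factors `fs`. -/
structure Wl (ch : Ch ι J) (F : Fam S Λ R J K) (e : K → ι → ℕ) (K₀ : Set K) (ℓ : R → ι → ℤ) (b : ℕ)
    (u : ν → J → ℕ) (fs : List (Fac F.toWt ν κ)) : Prop where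
  ok : ∃ U : Set (ch.WF ν κ Λ), ch.Ok F e K₀ ℓ b U
  vd : ∃ O M d, Vd F e (ch.cyc κ F u) O M d
  hb : ∀ l, ch.h l = (∑ i, ch.a l i * ch.m i + 1 - ch.g).toNat
  fac : ∀ f ∈ fs, f.At (ch.solF ν κ F ∩ ch.cyc κ F u)

theorem Wl.gz {ch : Ch ι J} {F : Fam S Λ R J K} {e K₀ ℓ b} {u : ν → J → ℕ}
    {fs : List (Fac F.toWt ν κ)} (w : ch.Wl F e K₀ ℓ b u fs) :
    GZ F ℓ (ch.solF ν κ F ∩ ch.cyc κ F u) :=
  let ⟨_, a⟩ := w.ok
  let ⟨_, _, _, v⟩ := w.vd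
  v.gz a.toStd

namespace WellP

theorem sup_id (a : ι → ℕ) : Sup id a := fun i h => (h ⟨i, rfl⟩).elim

theorem psh_id (a : ι → ℤ) : psh id a = a := psh_eq injective_id fun i h => (h ⟨i, rfl⟩).elim

/-- The field `none` is forgotten. -/
@[reducible] def wr (ch' : Ch ι (Option J)) (l₀ : Option (Option J))
    (h : ∀ j, l₀ ≠ some (some j)) (bω : ι → ℕ) : ch'.Res ι J :=
  ⟨id, some, l₀, ch'.o, ch'.k, bω, injective_id, Option.some_injective _, h, sup_id _,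
    fun _ => sup_id _, fun _ => sup_id _⟩

variable {ch' : Ch ι (Option J)} {l₀ l₁ l₂ : Option (Option J)} {h₀ : ∀ j, l₀ ≠ some (some j)}
  {h₁ : ∀ j, l₁ ≠ some (some j)} {h₂ : ∀ j, l₂ ≠ some (some j)} {bω bω₁ bω₂ : ι → ℕ}

/-- No links. -/
@[reducible] def wl (hχ : (wr ch' l₀ h₀ bω).ch.χ = ch'.χ) : (wr ch' l₀ h₀ bω).Lnk where
  r := 1
  n := 0
  I := ∅
  k_eq := (one_mul _).symm
  n_sup _ _ := rfl
  disj _ := id
  rel := by simp [Res.cmb, psh_id, hχ]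
  surj v := ⟨v, 0, 0, fun _ _ => rfl, by simp [Res.cmb, psh_id]⟩
  ker a b c hb e := ⟨c, by
    simp only [Res.cmb, psh_id, hb _ id, zero_smul, Finset.sum_const_zero, add_zero] at e
    rw [hχ, smul_neg, eq_neg_of_add_eq_zero_left e], funext fun j => by simp [hb j id], by simp⟩

/-- The weights with an additional field of weight zero. -/
@[reducible] def wW (F : Wt S Λ R J) : Wt S Λ R (Option J) :=
  ⟨fun j => j.elim 0 F.w, fun j => j.elim 0 F.wt, F.wl⟩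

variable [DecidableEq R] {F : Fam S Λ R J K} {e : K → ι → ℕ} {K₀ : Set K} {ℓ : R → ι → ℤ} {b : ℕ}
  {u : ν → J → ℕ} {fs : List (Fac F.toWt ν κ)} {P : AM Λ R J ν κ → Prop}

/-- The joint chart. -/
structure Jt (ch' : Ch ι (Option J)) : Prop where
  num : Num₀ ch'
  wd : ch'.wd none = 0
  hb : ∀ l, ch'.h l = (∑ i, ch'.a l i * ch'.m i + 1 - ch'.g).toNat

variable (hJ : Jt ch') (hχ : (wr ch' l₀ h₀ bω).ch.χ = ch'.χ)
  {U : Set ((wr ch' l₀ h₀ bω).ch.WF ν κ Λ)} (h : (wr ch' l₀ h₀ bω).ch.Ok F e K₀ ℓ b U)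
include hJ h

theorem pj : (wl hχ).Pj F (wW F.toWt) (fun r => Pi.single r 1) univ {none} e K₀ ℓ ℓ b := by
  have n : ∀ j ∉ range (some : J → _), j ∈ ({none} : Set (Option J)) := fun j a => by
    cases j
    exacts [rfl, (a ⟨_, rfl⟩).elim]
  refine ⟨⟨Option.some_injective _, fun j => funext fun r => by simp [Pi.single_apply],
    fun _ => rfl, rfl, isClosed_univ, fun _ _ _ _ => trivial, fun _ _ _ _ _ => trivial, nofun⟩,
    h.toStd, fun _ => sup_id _, fun j i => ?_, h.num, hJ.num, h.sm, nofun,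
    fun _ _ _ _ _ _ j a b _ => (b (n j a)).elim, by simp, Empty, inferInstance, inferInstance,
    Empty.elim, fun _ => 0, fun _ => 1, ⟨disjoint_left.2 (by rintro _ rfl ⟨_, ⟨⟩⟩), nofun, ?_, nofun,
      fun _ _ _ => ⟨analyticAt_const, one_ne_zero⟩, fun j a b => (b (n j a)).elim,
      fun j a b => (b (n j a)).elim, fun _ _ _ _ _ =>
        ⟨fun _ j a b => (b (n j a)).elim, fun _ => trivial⟩⟩, by simp⟩
  · cases j
    · simp [hJ.wd]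
    · exact h.wt _ i
  · exact linearIndependent_unique_iff.2 fun a => hJ.num.chi (by simp [show ch'.χ = 0 from a])

include hχ in
theorem lat : ch'.Lat (wW F.toWt) ℓ := ⟨(pj hJ hχ h).wd, hχ ▸ h.lat.dual⟩

theorem rep {x : ch'.WF ν κ Λ} (hx : x ∈ (wr ch' l₀ h₀ bω).TU ν κ F (wW F.toWt)
    (fun r => Pi.single r 1) univ {none}) {m : AM Λ R (Option J) ν κ} (a : Rep ℓ univ x m) :
    Rep ℓ univ ((wl hχ).fF x) (m.res m.L some) :=
  let ⟨_, _, _, _, d⟩ := a.exists_data hx.1.1.1.2.1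
  (d.res h.cuts ((pj hJ hχ h).dom hx) (fun _ a => (a rfl).elim) d.L).rep

theorem surj {x : (wr ch' l₀ h₀ bω).ch.WF ν κ Λ} (hx : x ∈ solF _ ν κ F) :
    ∃ y ∈ (wr ch' l₀ h₀ bω).TU ν κ F (wW F.toWt) (fun r => Pi.single r 1) univ {none},
      (wl hχ).fF y = x := by
  have p := pj hJ hχ h
  obtain ⟨m, a⟩ := h.lat.exists_rep_sol hx
  obtain ⟨B, π, v, s, d⟩ := a.exists_data hx.1.2.1
  obtain ⟨y, v', e₁, d'⟩ := exists_repD (ch := ch') (ℓ := ℓ) (A := univ)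
    (m := ⟨m.toAC, m.L, m.l, fun j => j.elim 0 m.y⟩) p.cuts' (fun l => by
      rw [hJ.hb]
      exact Int.toNat_of_nonneg ((Int.natCast_nonneg _).trans_eq
        (d.cr.cur.finrank_Hs (p.cuts'.ne l)))) d.cr.par d.cr.cur (hχ ▸ d.crep.eqv) d.L
    (fun j _ => by
      cases j
      exacts [zero_mem _, d.cr.ind_mem (d.ind _ trivial)]) d.ne
  have t : y ∈ (wr ch' l₀ h₀ bω).TU ν κ F (wW F.toWt) (fun r => Pi.single r 1) univ {none} :=
    ⟨⟨(d'.mem_adm (p.amb (ν := ν)).inv p.wd (subset_univ _)).2 ⟨d.l ▸ hx.1.1, fun _ => trivial,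
      by rintro _ rfl; rfl, fun j a => by
        cases j
        exacts [fun _ => rfl, (a ⟨_, rfl⟩).elim]⟩, fun j a b => by
      cases j
      exacts [(b rfl).elim, (a ⟨_, rfl⟩).elim]⟩, e₁ ▸ d.cr.cur.nod⟩
  obtain ⟨g, hg, e₂⟩ := ((rep hJ hχ h t d'.rep).iso_iff (p.bun.maps t).2.1 h.lat h.cuts.ne
    h.num.M_eq a hx.1.2.1).1 (.refl _)
  obtain ⟨g, hg', rfl⟩ := p.bun.usurj g hg
  exact ⟨_, p.ivt g hg' y t, (p.bun.eqv g hg' y t).trans e₂.symm⟩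

omit hJ h

variable (F) in
/-- The family with the additional vanishing field. -/
noncomputable abbrev up : Fam S Λ R (Option J) K :=
  F.up (wW F.toWt) some (fun r => Pi.single r 1) univ {none}

variable (ch' κ F u) in
/-- The base cycle in the joint chart. -/
def SU : Set (ch'.WF ν κ Λ) :=
  (wr ch' none nofun ch'.bω).TU ν κ F (wW F.toWt) (fun r => Pi.single r 1) univ {none} ∩
    ch'.cyc κ (up F) fun n j => j.elim 0 (u n)

include hJ hχ in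
theorem side (w : Wl (wr ch' l₀ h₀ bω).ch F e K₀ ℓ b u fs) (hP : AM.Ivt F.toWt P)
    [Nice (ModS F (cyc (wr ch' l₀ h₀ bω).ch κ F u))] :
    ∃ f, ∃ r : (wr ch' l₀ h₀ bω).RC (wW F.toWt) F.toWt (ch'.solF ν κ (up F) ∩ SU κ ch' F u)
      (solF _ ν κ F ∩ cyc _ κ F u) f, OZ (wW F.toWt) (ch'.solF ν κ (up F) ∩ SU κ ch' F u) ∧ IsHomeomorph r.toEqM.map ∧
      (∀ v, (ch'.kd ν κ (up F) e).IsV (actF (wW F.toWt)) _ (SU κ ch' F u) v ↔
        v = res r.toEqM.map (virF F e (cyc _ κ F u))) ∧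
      r.toEqM.map ⁻¹' selQ F.toWt ℓ _ P = selQ _ ℓ _ fun m => P (m.res m.L some) := by
  obtain ⟨⟨U, h⟩, ⟨O, M, d, v⟩, -, -⟩ := w
  have p := pj hJ hχ h
  have q := p.pl v.adm v.inv (isClosed_closure.isLocallyClosed.inter h.lc_baseF)
  have c := p.cyc_eq (κ := κ) (u' := fun n j => j.elim 0 (u n)) (u := u) (fun _ _ => rfl)
    fun _ j a => by
      cases j
      exacts [rfl, (a ⟨_, rfl⟩).elim]
  rw [c] at q
  obtain ⟨n, a⟩ := v.gd h.toStd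
  have r := p.rc (fun _ k => And.left (And.right k)) q.maps
  obtain ⟨⟨_, _, _, a₁⟩, a₂, a₃⟩ := q.eq_res' (Φ := r.toEqM.map) (fun _ => rfl) a v.dom.opn
    (haveI := v.dom.isAct; v.cyc.uf :) (v.dom.isFund v.cyc)
  refine ⟨_, r, ⟨p.cuts', fun _ k => k.1.1.2.1, a₁.isActZ, a₁.orbZ⟩,
    q.isHomeomorph (fun _ => rfl) a₂ fun x hx => ?_, fun w => ?_, Set.ext fun z => ?_⟩
  · obtain ⟨y, t, rfl⟩ := surj hJ hχ h hx.1
    exact ⟨y, ⟨(p.mem_solF t).2 hx.1, c.le ⟨t, hx.2⟩⟩, rfl⟩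
  · rw [v.virF_vr h.toStd]
    exact a₃ w
  · obtain ⟨x, m, rfl, k⟩ := exists_mk (F := up F) (lat hJ hχ h) inter_subset_left z
    exact (mem_selQ h.wt (fun _ k => k.1.1.2.1) hP (rep hJ hχ h x.2.2.1 k)).trans
      (mem_selQ (P := fun m => P (m.res m.L some)) p.wd (fun _ k => k.1.1.2.1)
        (fun _ _ ⟨a, b, t, τ, c₁, c₂, c₃, c₄, c₅, c₆⟩ =>
          hP _ _ ⟨a, b, t, τ, c₁, c₂, c₃, c₄, c₅, fun j _ => c₆ (some j) trivial⟩) k).symm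

include hJ in
theorem two (hχ₁ : (wr ch' l₁ h₁ bω₁).ch.χ = ch'.χ) (hχ₂ : (wr ch' l₂ h₂ bω₂).ch.χ = ch'.χ)
    (w₁ : Wl (wr ch' l₁ h₁ bω₁).ch F e K₀ ℓ b u fs) (w₂ : Wl (wr ch' l₂ h₂ bω₂).ch F e K₀ ℓ b u fs)
    (hP : AM.Ivt F.toWt P) (hd : F.IsDiag F.diag) (hq : ∀ q, .dg q ∈ fs)
    (hs : IsClopen (selQ F.toWt ℓ (solF _ ν κ F ∩ cyc (wr ch' l₁ h₁ bω₁).ch κ F u) P))
    (hc : IsCompact (dia F.toWt (solF _ ν κ F ∩ cyc (wr ch' l₁ h₁ bω₁).ch κ F u))) :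
    itr (wr ch' l₁ h₁ bω₁).ch F e ℓ u P fs = itr (wr ch' l₂ h₂ bω₂).ch F e ℓ u P fs := by
  have g₁ := w₁.gz
  have g₂ := w₂.gz
  haveI := g₁.nice
  haveI := g₂.nice
  obtain ⟨f₁, r₁, o, a₁, v₁, s₁⟩ := side hJ hχ₁ w₁ hP
  obtain ⟨f₂, r₂, -, a₂, v₂, s₂⟩ := side hJ hχ₂ w₂ hP
  haveI := o.act
  haveI := nice_of_orb o.orb
  exact ev_two a₁ a₂ ((v₂ _).1 ((v₁ _).2 rfl)) (s₁.trans s₂.symm) hs
    (fun f hf => ⟨g₁.cocycle hd (w₁.fac f hf), g₁.supp_coch hd f⟩)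
    (fun f hf => r₁.cohom r₂ rfl o g₁ g₂ hd (w₁.fac f hf) (w₂.fac f hf)) hc
    fun _ k => GZ.dia_eq.ge (mem_iInter.2 fun q => k _ (hq q))

end WellP

open WellP in
/-- **two charts that only differ in the degree of the space for the tensor** -/
theorem Wl.itr_eq [DecidableEq R] {ch₁ ch₂ : Ch ι J} {F : Fam S Λ R J K} {e K₀ ℓ b} {u : ν → J → ℕ}
    {fs : List (Fac F.toWt ν κ)} {P : AM Λ R J ν κ → Prop} (w₁ : ch₁.Wl F e K₀ ℓ b u fs)
    (w₂ : ch₂.Wl F e K₀ ℓ b u fs) (he : ch₂ = {ch₁ with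
      a l := l.elim (ch₂.a none) fun j => ch₁.a (some j), bω := ch₂.bω,
      h l := l.elim (ch₂.h none) fun j => ch₁.h (some j)}) (hχ : ch₂.χ = ch₁.χ)
    (hP : AM.Ivt F.toWt P) (hd : F.IsDiag F.diag) (hq : ∀ q, .dg q ∈ fs)
    (hs : IsClopen (selQ F.toWt ℓ (ch₁.solF ν κ F ∩ ch₁.cyc κ F u) P))
    (hc : IsCompact (dia F.toWt (ch₁.solF ν κ F ∩ ch₁.cyc κ F u))) :
    ch₁.itr F e ℓ u P fs = ch₂.itr F e ℓ u P fs := by
  obtain ⟨ch', bω₁, bω₂, hJ, hχ', rfl, rfl⟩ : ∃ ch' bω₁ bω₂, Jt ch' ∧ ch₁.χ = ch'.χ ∧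
      ch₁ = (wr ch' none nofun bω₁).ch ∧ ch₂ = (wr ch' (some none) nofun bω₂).ch := by
    obtain ⟨_, a₁⟩ := w₁.ok
    obtain ⟨_, a₂⟩ := w₂.ok
    obtain ⟨l, c⟩ := a₁.num.cut
    refine ⟨{ch₁ with
      a l := l.elim (ch₁.a none) fun l => l.elim (ch₂.a none) fun j => ch₁.a (some j),
      h l := l.elim (ch₁.h none) fun l => l.elim (ch₂.h none) fun j => ch₁.h (some j),
      b j := j.elim (ch₂.a none) ch₁.b}, ch₁.bω, ch₂.bω, ⟨⟨?_, ⟨l.map some, by cases l <;> exact c⟩,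
        a₁.num.k_ne, a₁.num.m_ne, a₁.num.M_eq, a₁.num.chi⟩, funext fun _ => sub_self _, ?_⟩, rfl,
      ?_, he.trans ?_⟩
    · rintro (_ | _ | j)
      exacts [a₁.num.a_ne _, a₂.num.a_ne _, a₁.num.a_ne _]
    · rintro (_ | _ | j)
      exacts [w₁.hb _, (w₂.hb _).trans (by rw [he]; rfl), w₁.hb _]
    · cases ch₁
      congr <;> (funext l; cases l <;> rfl)
    · congr <;> (funext l; cases l <;> rfl)
  exact two hJ hχ' (hχ.trans hχ') w₁ w₂ hP hd hq hs hc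

end Ch

namespace Fam

variable [DecidableEq R] {F : Fam S Λ R J K} {δ : J → ℕ} {k D₁ D₂ : ℕ} {g : ℤ} {d : R → ℤ}
  {u : ν → ℕ} {P : AM Λ R J ν κ → Prop} {fs : List (Fac F.toWt ν κ)}

/-- **the integrals do not depend on the level** -/
theorem Nice.intg_eq (h : F.Nice δ) (hc : F.Cp) (hk : F.Big k) (h₁ : F.BigD k D₁) (h₂ : F.BigD k D₂)
    (hP : AM.Ivt F.toWt P) (hs : IsClopen (F.sel P : Set (F.Mod κ k D₁ g d fun n => u n • δ)))
    (hf : ∀ f ∈ fs, f.Ok F fun n => u n • δ) (hq : ∀ q, .dg q ∈ fs) :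
    F.intg (F.vir κ k D₁ g d fun n => u n • δ) P fs =
      F.intg (F.vir κ k D₂ g d fun n => u n • δ) P fs := by
  obtain ⟨K₀, b, -, -, a⟩ := h.vd' (ν := ν) κ hk
  have w : ∀ D, F.BigD k D → (F.sch ν κ k D g d).Wl F (F.tdeg (F.sch ν κ k D₁ g d)) K₀ ℓs b
      (fun n => u n • δ) fs := fun D hD =>
    let ⟨_, _, p, q⟩ := a D hD g d u
    ⟨⟨_, p⟩, ⟨_, _, _, q⟩, fun _ => rfl, fun _ c => h.at_of_ok hk hD (hf _ c)⟩
  refine (w _ h₁).itr_eq (w _ h₂) ?_ ((Cv.chart_χ _ _ _ h₂).trans (Cv.chart_χ _ _ _ h₁).symm) hP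
    (h.dg St.dg).1 hq hs (h.toGood.isCompact_dia hc hk h₁ _)
  exact congrArg₂ (fun a h => ({F.sch ν κ k D₂ g d with a := a, h := h} : Ch _ J))
    (funext fun l => by cases l <;> rfl) (funext fun l => by cases l <;> rfl)

/-- the invariants can be computed at every level at which the selected part is open and closed -/
theorem Nice.inv_eq (h : F.Nice δ) (hc : F.Cp) (hk : F.Big k) (h₁ : F.BigD k D₁)
    (hP : AM.Ivt F.toWt P) (hs : IsClopen (F.sel P : Set (F.Mod κ k D₁ g d fun n => u n • δ)))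
    (hf : ∀ f ∈ fs, f.Ok F fun n => u n • δ) (hq : ∀ q, .dg q ∈ fs) (h₂ : F.BigD k D₂) :
    F.inv k g d (fun n => u n • δ) P fs = F.intg (F.vir κ k D₂ g d fun n => u n • δ) P fs := by
  have a := (F.eventually_bigD k).mono fun _ => (h.intg_eq hc hk h₁ · hP hs hf hq)
  obtain ⟨D, b, c⟩ := (a.and (Classical.epsilon_spec (p := fun z => ∀ᶠ D in atTop,
    z = F.intg (F.vir κ k D g d fun n => u n • δ) P fs) ⟨_, a⟩)).exists
  exact (c.trans b.symm).trans (h.intg_eq hc hk h₁ h₂ hP hs hf hq)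

end Fam

theorem St.well : St.Well := fun F _ k _ _ _ _ _ h hc hk hs hf hq =>
  let ⟨_, a, b⟩ := ((F.eventually_bigD k).and hs.2).exists
  (F.eventually_bigD k).mono fun _ => h.inv_eq hc hk a hs.1 b hf hq

end Vale.Agent.P269
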