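import Vale.Agent.P269.Map.W
import Vale.Agent.P269.Orb.TZ

set_option linter.unusedSectionVars false

/-!
# Transverse zero sets of Kuranishi data
-/

namespace Vale.Agent.P269.Ch

open Set Function Topology Filter Asymptotics Module Vale.Agent.P291Z Vale.Agent.P269.Orb Holo

theorem fderiv_eq_zero_of_isLittleO {T A B C : Type} [TopologicalSpace T] [NormedAddCommGroup A]
    [NormedSpace ℂ A] [NormedAddCommGroup B] [NormedSpace ℂ B] [NormedAddCommGroup C]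
    [NormedSpace ℂ C] {ι : T → A} {n : ℕ} {t : T} (h : IsMfd ι n t) {g : A → B} {Ψ : A → C}
    (hg : AnalyticAt ℂ g (ι t)) (hΨ : AnalyticAt ℂ Ψ (ι t)) (h0 : Ψ (ι t) = 0)
    (ho : (fun s => g (ι s)) =o[𝓝 t] fun s => Ψ (ι s)) {v : A} (hv : v ∈ tan ι t) :
    fderiv ℂ g (ι t) v = 0 := by
  obtain ⟨ψ, hψ, rfl⟩ := h
  obtain ⟨u, rfl⟩ := hψ.tan_eq.le hv
  have h1 := (hΨ.comp_of_eq hψ.an rfl).differentiableAt.isBigO_sub
  have h2 : g (ι (ψ 0)) = 0 := by simpa [h0] using (ho.bound one_pos).self_of_nhds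
  have h3 : HasFDerivAt (fun z => g (ι (ψ z))) (0 : _ →L[ℂ] B) 0 := HasFDerivAt.of_isLittleO (by
    simp only [comp_apply, h0, sub_zero] at h1
    simp only [h2, sub_zero, ContinuousLinearMap.zero_apply]
    exact (ho.comp_tendsto hψ.lh.cont).trans_isBigO h1)
  exact (DFunLike.congr_fun (hψ.fderiv_comp_eq hg) u).symm.trans (DFunLike.congr_fun h3.fderiv u)

namespace KP

variable {Y : Sp} (k : KP Y) {A L V V' : Type} [NormedAddCommGroup A] [NormedSpace ℂ A]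
  [NormedAddCommGroup L] [NormedSpace ℂ L] [NormedAddCommGroup V] [NormedSpace ℂ V]
  [NormedAddCommGroup V'] [NormedSpace ℂ V'] {ι : Y.T → A} {t : Y.T}

/-- **the cone estimate** -/
theorem isLittleO {α : Type} {l : Filter α} {f : α → Y.T} (ht : t ∈ k.Zs) (hf : Tendsto f l (𝓝 t))
    {M : α → k.P.W →L[ℂ] V} {M₀ : k.P.W →L[ℂ] V} (hM : Tendsto M l (𝓝 M₀))
    {N : α → k.P.W →L[ℂ] V'} {N₀ : k.P.W →L[ℂ] V'} (hN : Tendsto N l (𝓝 N₀))
    (hv : ∀ᶠ x in l, ∀ w ∈ k.van (f x), M x w = 0 ∧ N x w = 0)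
    (hi : ∀ w ∈ k.obs t, M₀ w = 0 → w ∈ k.van t) (h0 : ∀ w ∈ k.obs t, N₀ w = 0) :
    (fun x => N x (k.s (f x))) =o[l] fun x => M x (k.s (f x)) := by
  refine IsLittleO.of_bound fun ε hε => ?_
  by_contra h
  obtain ⟨l', c, w, h1, h2, h3, h4, h5⟩ := exists_lim (w := fun x => k.q (f x) (k.s (f x)))
    (P := fun x => ε * ‖M x (k.q (f x) (k.s (f x)))‖ ≤ ‖N x (k.q (f x) (k.s (f x)))‖)
    (((not_eventually.1 h).and_eventually hv).mono fun x hx => by
      obtain ⟨a, b⟩ := hx.2 _ (k.sub_q (f x) (k.s (f x)))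
      rw [map_sub, sub_eq_zero] at a b
      refine ⟨fun e => hx.1 ?_, a ▸ b ▸ (not_le.1 hx.1).le⟩
      rw [b, e, map_zero, norm_zero]
      positivity)
  have h6 := k.cone t w ht (mem_closure_of_tendsto ((hf.mono_left h2).prodMk_nhds h5)
    (Eventually.of_forall fun x => ⟨c x, by
      rw [← smul_sub, ← neg_sub]
      exact (k.van _).smul_mem _ ((k.van _).neg_mem (k.sub_q _ _))⟩))
  have h7 : ε * ‖M₀ w‖ ≤ ‖N₀ w‖ := le_of_tendsto_of_tendsto
    ((tendsto_clm (hM.mono_left h2) h5).norm.const_mul ε) (tendsto_clm (hN.mono_left h2) h5).norm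
    (h3.mono fun x hx => by
      simp only [map_smul, norm_smul]
      rw [mul_left_comm]
      exact mul_le_mul_of_nonneg_left hx (norm_nonneg _))
  rw [h0 w h6, norm_zero] at h7
  refine h4 ((tendsto_nhds_unique h5 ((tendsto_clm ((k.q_cont.tendsto t).comp (hf.mono_left h2))
    h5).congr fun x => ?_)).trans (q_eq_zero.2 (hi w h6 (norm_le_zero_iff.1
      (nonpos_of_mul_nonpos_right h7 hε)))))
  simp only [comp_apply, map_smul, q_q]

/-- A holomorphic test of the section near `t`. -/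
structure Ts (ι : Y.T → A) (t : Y.T) (m : Y.T → k.P.W →L[ℂ] V) (ψ : A → V) : Prop where
  an : AnalyticAt ℂ ψ (ι t)
  cont : ContinuousAt m t
  van : ∀ᶠ y in 𝓝 t, ∀ w ∈ k.van y, m y w = 0
  sec : ∀ᶠ y in 𝓝 t, m y (k.s y) = ψ (ι y)

variable {k}

theorem Ts.add {m m' : Y.T → k.P.W →L[ℂ] V} {ψ ψ' : A → V} (h : k.Ts ι t m ψ)
    (h' : k.Ts ι t m' ψ') : k.Ts ι t (fun y => m y + m' y) fun a => ψ a + ψ' a :=
  ⟨h.an.add h'.an, h.cont.add h'.cont, (h.van.and h'.van).mono fun y hy w hw => by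
    rw [ContinuousLinearMap.add_apply, hy.1 w hw, hy.2 w hw, add_zero],
    (h.sec.and h'.sec).mono fun y hy => by rw [ContinuousLinearMap.add_apply, hy.1, hy.2]⟩

theorem Ts.clm {m : Y.T → k.P.W →L[ℂ] V} {ψ : A → V} (h : k.Ts ι t m ψ) (l : V →L[ℂ] V') :
    k.Ts ι t (fun y => l ∘L m y) fun a => l (ψ a) :=
  ⟨(l.analyticAt _).comp h.an, continuousAt_const.clm_comp h.cont,
    h.van.mono fun y hy w hw => (congrArg l (hy w hw)).trans (map_zero l),
    h.sec.mono fun _ hy => congrArg l hy⟩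

theorem Ts.zero : k.Ts ι t (fun _ => (0 : k.P.W →L[ℂ] V)) fun _ => 0 :=
  ⟨analyticAt_const, continuousAt_const, .of_forall fun _ _ _ => rfl, .of_forall fun _ => rfl⟩

theorem Ts.sum {σ : Type} (s : Finset σ) {m : σ → Y.T → k.P.W →L[ℂ] V} {ψ : σ → A → V}
    (h : ∀ a, k.Ts ι t (m a) (ψ a)) :
    k.Ts ι t (fun y => ∑ a ∈ s, m a y) fun x => ∑ a ∈ s, ψ a x := by
  classical
  induction s using Finset.induction_on with
  | empty => simpa only [Finset.sum_empty] using Ts.zero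
  | insert a s ha ih => simpa only [Finset.sum_insert ha] using (h a).add ih

/-- a right inverse on the obstruction space -/
theorem exists_fac [FiniteDimensional ℂ V] {M : k.P.W →L[ℂ] V}
    (hi : ∀ w ∈ k.obs t, M w = 0 → w ∈ k.van t) (hs : ∀ b, ∃ w ∈ k.obs t, M w = b)
    {N : k.P.W →L[ℂ] V'} (hN : ∀ w ∈ k.van t, N w = 0) : ∃ l : V →L[ℂ] V',
      (∀ w ∈ k.obs t, l (M w) = N w) ∧ ∀ b, ∃ w ∈ k.obs t, M w = b ∧ N w = l b := by
  obtain ⟨σ, hσ⟩ := (M.toLinearMap ∘ₗ (k.obs t).subtype).exists_rightInverse_of_surjective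
    (LinearMap.range_eq_top.2 fun b => let ⟨w, h1, h2⟩ := hs b; ⟨⟨w, h1⟩, h2⟩)
  have h1 : ∀ b, M (σ b) = b := fun b => LinearMap.congr_fun hσ b
  refine ⟨LinearMap.toContinuousLinearMap (N.toLinearMap ∘ₗ (k.obs t).subtype ∘ₗ σ), fun w hw => ?_,
    fun b => ⟨σ b, (σ b).2, h1 b, rfl⟩⟩
  have := hN _ (hi _ (sub_mem (σ (M w)).2 hw) (by rw [map_sub, h1, sub_self]))
  rwa [map_sub, sub_eq_zero] at this

/-- separating tests give coordinates on the obstruction space -/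
theorem exists_ts (ht : t ∈ k.Zs)
    (sep : ∀ w ∈ k.obs t, (∀ m (ψ : A → ℂ), k.Ts ι t m ψ → m t w = 0) → w ∈ k.van t) :
    ∃ (m : Y.T → k.P.W →L[ℂ] (Fin k.r → ℂ)) (ψ : A → Fin k.r → ℂ), k.Ts ι t m ψ ∧
      (∀ w ∈ k.obs t, m t w = 0 → w ∈ k.van t) ∧ ∀ b, ∃ w ∈ k.obs t, m t w = b := by
  let S : Submodule ℂ (k.obs t) := (k.van t).comap (k.obs t).subtype
  have h1 : finrank ℂ (k.obs t ⧸ S) = finrank ℂ (Fin k.r → ℂ) := by
    have := S.finrank_quotient_add_finrank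
    rw [(Submodule.comapSubtypeEquivOfLe (k.le_obs t ht)).finrank_eq, k.van_rank,
      k.obs_rank t ht] at this
    rw [finrank_fin_fun]
    omega
  let Λ := (LinearEquiv.ofFinrankEq _ _ h1).toLinearMap ∘ₗ S.mkQ
  have h2 : ∀ w, Λ w = 0 ↔ w ∈ S := fun w =>
    (LinearEquiv.map_eq_zero_iff _).trans (Submodule.Quotient.mk_eq_zero S)
  let F : Submodule ℂ (Dual ℂ (k.obs t)) :=
    { carrier := {φ | ∃ m, ∃ ψ : A → ℂ, k.Ts ι t m ψ ∧ ∀ w, φ w = m t w}
      add_mem' := fun ⟨_, _, a, b⟩ ⟨_, _, c, d⟩ => ⟨_, _, a.add c, fun w => congrArg₂ (· + ·) (b w) (d w)⟩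
      zero_mem' := ⟨_, _, Ts.zero, fun _ => rfl⟩
      smul_mem' := fun c _ ⟨_, _, a, b⟩ => ⟨_, _, a.clm (c • ContinuousLinearMap.id ℂ ℂ),
        fun w => congrArg (c • ·) (b w)⟩ }
  have h3 : ∀ a, LinearMap.proj a ∘ₗ Λ ∈ F := fun a => by
    rw [← Subspace.dualCoannihilator_dualAnnihilator_eq (W := F), Submodule.mem_dualAnnihilator]
    refine fun w hw => congrFun ((h2 w).2 (sep w w.2 fun m ψ h => ?_)) a
    exact (Submodule.mem_dualCoannihilator w).1 hw ((m t).toLinearMap ∘ₗ (k.obs t).subtype)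
      ⟨m, ψ, h, fun _ => rfl⟩
  choose m ψ h4 h5 using h3
  have h6 := Ts.sum Finset.univ fun a => (h4 a).clm (ContinuousLinearMap.single ℂ (fun _ => ℂ) a)
  have h7 : ∀ w : k.obs t, (∑ a, ContinuousLinearMap.single ℂ (fun _ => ℂ) a ∘L m a t) w = Λ w :=
    fun w => by
      rw [ContinuousLinearMap.sum_apply, ← Finset.univ_sum_single (Λ w)]
      exact Finset.sum_congr rfl fun a _ => congrArg (Pi.single a) (h5 a w).symm
  refine ⟨_, _, h6, fun w hw e => (h2 ⟨w, hw⟩).1 ((h7 ⟨w, hw⟩).symm.trans e), fun b => ?_⟩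
  obtain ⟨w, rfl⟩ := ((LinearEquiv.ofFinrankEq _ _ h1).surjective.comp S.mkQ_surjective) b
  exact ⟨w, w.2, h7 w⟩

/-- a full system of tests is a submersion -/
theorem Ts.surj [FiniteDimensional ℂ A] {m : Y.T → k.P.W →L[ℂ] (Fin k.r → ℂ)}
    {ψ : A → Fin k.r → ℂ} (h : k.Ts ι t m ψ) (ht : t ∈ k.Zs)
    (hi : ∀ w ∈ k.obs t, m t w = 0 → w ∈ k.van t) (hs : ∀ b, ∃ w ∈ k.obs t, m t w = b) {n : ℕ}
    (hm : IsMfd ι (n + k.r) t) {S : Submodule ℂ A} (hS : finrank ℂ S = n)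
    (trv : ∀ v ∈ tan ι t, (∀ m (ψ : A → ℂ), k.Ts ι t m ψ → fderiv ℂ ψ (ι t) v = 0) → v ∈ S)
    (b : Fin k.r → ℂ) : ∃ v ∈ tan ι t, fderiv ℂ ψ (ι t) v = b := by
  have h1 : tan ι t ⊓ LinearMap.ker (fderiv ℂ ψ (ι t)).toLinearMap ≤ S := fun v hv =>
    trv v hv.1 fun m' ψ' h' => by
      obtain ⟨l, h2, -⟩ := exists_fac hi hs h'.van.self_of_nhds
      have h3 := h'.add (h.clm (-l))
      have h4 := fderiv_eq_zero_of_isLittleO hm h3.an h.an
        (h.sec.self_of_nhds.symm.trans (h.van.self_of_nhds _ ht)) ((k.isLittleO ht tendsto_id h.cont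
          h3.cont ((h.van.and h3.van).mono fun y hy w hw => ⟨hy.1 w hw, hy.2 w hw⟩) hi
          fun w hw => add_neg_eq_zero.2 (h2 w hw).symm).congr' h3.sec h.sec) hv.1
      have h5 := (DFunLike.congr_fun (h'.an.differentiableAt.hasFDerivAt.fun_add
        ((-l).hasFDerivAt.comp _ h.an.differentiableAt.hasFDerivAt)).fderiv v).symm.trans h4
      simpa [show fderiv ℂ ψ (ι t) v = 0 from hv.2] using h5
  have h2 := finrank_inf_ker (tan ι t) (fderiv ℂ ψ (ι t)).toLinearMap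
  have h3 := Submodule.finrank_mono h1
  have h4 := Submodule.finrank_le ((tan ι t).map (fderiv ℂ ψ (ι t)).toLinearMap)
  rw [hm.finrank_tan] at h2
  exact (Submodule.eq_top_of_finrank_eq (S := (tan ι t).map (fderiv ℂ ψ (ι t)).toLinearMap)
    (by rw [finrank_fin_fun] at h4 ⊢; omega)).ge trivial

/-- **The virtual class of a transverse zero set is its fundamental class.** -/
theorem vir_tz [FiniteDimensional ℂ A] [FiniteDimensional ℂ L] {κ : L → Y.G} (hκ : IsExp κ)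
    (ha : ∀ t, HolAct κ ι t) (hinf : ∀ t, Injective (inf κ ι t)) {n : ℕ}
    (hm : ∀ t, IsMfd ι (finrank ℂ L + n + k.r) t) (h₁ : HolOrb Y.G ι (n + k.r)) {T X : Type}
    [TopologicalSpace T] [TopologicalSpace X] [MulAction Y.G T] {j : T → Y.T} (hj : IsEmbedding j)
    (he : ∀ (g : Y.G) z, j (g • z) = g • j z) (hz : ∀ t, t ∈ range j ↔ t ∈ k.Zs)
    (hm' : ∀ z, IsMfd (fun z => ι (j z)) (finrank ℂ L + n) z)
    (h₀ : HolOrb Y.G (fun z => ι (j z)) n) {π : T → X} (hπ : IsQuo Y.G π) {i : X → Y.X}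
    (hi : k.IsZ i) (e : ∀ z, i (π z) = Y.π (j z))
    (sep : ∀ z, ∀ w ∈ k.obs (j z), (∀ m (ψ : A → ℂ), k.Ts ι (j z) m ψ → m (j z) w = 0) →
      w ∈ k.van (j z))
    (trv : ∀ z, ∀ v ∈ tan ι (j z), (∀ m (ψ : A → ℂ), k.Ts ι (j z) m ψ →
      fderiv ℂ ψ (ι (j z)) v = 0) → v ∈ tan (fun z => ι (j z)) z) :
    k.vir i (fundQ Y.G ι Y.π (n + k.r)) = fundQ Y.G (fun z => ι (j z)) π n := by
  obtain ⟨U, hU, E, M, h1, h2, h3, -⟩ := k.exists_model
  have hv : IsOpenEmbedding (Subtype.val : U → Y.T) := hU.isOpenEmbedding_subtypeVal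
  let j' : T → U := fun z => ⟨j z, h1 ((hz _).1 ⟨z, rfl⟩)⟩
  have hj' : IsEmbedding j' := hj.codRestrict _ _
  have he' : ∀ (g : Y.G) z, j' (g • z) = g • j' z := fun g z => Subtype.ext (he g z)
  let π' : U → (Y.sub U hU.isLocallyClosed).X := (Y.sub U hU.isLocallyClosed).π
  have hq : IsQuo Y.G π' := (Y.sub U hU.isLocallyClosed).isQuo
  obtain ⟨i', h4⟩ := hπ.exists_map hq he'
  have h5 : ∀ x, (Y.subI U hU.isLocallyClosed).map (i' x) = i x := fun x => by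
    obtain ⟨z, rfl⟩ := hπ.surj x
    rw [h4, e]
    exact (Y.subI U _).map_π _
  have h6 := hq.isOpenEmbedding Y.isQuo hv (fun _ _ => rfl) (Y.subI U _).map_π
  have h7 : ∀ t : U, M t (k.s t) = 0 → π' t ∈ range i' := fun t ht => by
    obtain ⟨z, hz⟩ := (hz _).2 ((h3 t).1 ht)
    exact ⟨π z, (h4 z).trans (congrArg _ (Subtype.ext hz))⟩
  rw [hi.vir_eq_gys h2 h6 h5 h7, h₁.res_open hq Y.isQuo hv
    (fun _ _ => rfl) (Y.subI U _).map_π, ← one_smul ℂ (fundQ Y.G (fun z => ι (j z)) π n)]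
  refine h₀.gys_eul (Y := Y.sub U hU.isLocallyClosed) (B₀ := Fin n → ℂ) (B₁ := Fin k.r → ℂ) hπ
    (show HolOrb Y.G (fun t : U => ι t) _ from h₁.of_open hv fun _ _ => rfl) h2.isSec h2.rank (finrank_fin_fun ℂ) (finrank_fin_fun ℂ)
    (isClosedEmbedding_of_comp h6.isEmbedding h5 hi.emb) h7 (hπ.meets dense_univ) fun z _ => ?_
  have ht := (hz _).1 ⟨z, rfl⟩
  obtain ⟨m, ψ, a1, a2, a3⟩ := exists_ts ht (sep z)
  obtain ⟨N, a4, a5⟩ := h2.exists_clm
  have a6 : ∀ t : U, ∀ w ∈ k.van t, N t w = 0 := fun t w hw =>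
    (a5 t w (k.van_le _ hw)).trans (h2.van t w hw)
  obtain ⟨l, a7, a8⟩ := exists_fac a2 a3 (a6 (j' z))
  have hc : Tendsto (Subtype.val : U → Y.T) (𝓝 (j' z)) (𝓝 (j z)) := hv.continuous.tendsto _
  haveI : ContinuousSMul Y.G U := (Y.sub U hU.isLocallyClosed).orb.contSMul
  obtain ⟨φ, φ', b1, b2, b3, b4, b5, b6⟩ := ((hm (j z)).pull (u := Subtype.val) (t' := j' z)
    (hv.lh _)).exists_slK_zero hκ hj' he' ((ha _).pull hv.continuous.continuousAt fun _ _ => rfl)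
    (hinf (j z)) (n := n) (f := fun t : U => m t (k.s t)) a1.an (hc.eventually a1.sec)
    (fun b => (tan_comp_lh (ι := ι) (hv.lh (j' z))).symm ▸
      a1.surj ht a2 a3 (hm _) (hm' z).finrank_tan (trv z) b)
    (((hc.eventually (k.eventually_mem ht tendsto_id a1.cont a1.van a2)).and
      (hc.eventually a1.van)).mono fun s hs => ⟨fun ⟨y, hy⟩ => hs.2 _ ((hz _).1 ⟨y, congrArg Subtype.val hy⟩),
        fun h => ((hz _).2 (hs.1 h)).imp fun _ => Subtype.ext⟩) (by simp [add_assoc])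
  have b7 : Tendsto φ (𝓝 (0, 0)) (𝓝 (j' z)) := b4 ▸ b1.cont hκ
  refine ⟨φ', φ, 0, l, b2.isSl hκ, b3, b1.isSl hκ, b6.mono fun v hv => by rw [h4, hv],
    (injective_iff_map_eq_zero _).2 fun b hb => ?_, ?_, by
      rw [one_mul, b4]
      exact congrArg _ (stab_of_injective hj'.injective he' z).symm⟩
  · obtain ⟨w, c1, rfl, c2⟩ := a8 b
    exact a1.van.self_of_nhds w (h2.ker (j' z) ht w c1
      ((a5 (j' z) w (k.obs_le _ ht c1)).symm.trans (c2.trans hb)))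
  · refine (k.isLittleO ht (hc.comp b7) (a1.cont.tendsto.comp (hc.comp b7))
      (N := fun p => N (φ p) - l ∘L m (φ p)) (((a4.tendsto _).comp b7).sub
        ((continuousAt_const.clm_comp a1.cont).tendsto.comp (hc.comp b7)))
      (((hc.comp b7).eventually a1.van).mono fun p hp w hw => ⟨hp w hw, ?_⟩) a2
      fun w hw => sub_eq_zero.2 (a7 w hw).symm).congr' (b5.mono fun p hp => ?_) b5
    · exact sub_eq_zero.2 ((a6 _ w hw).trans ((congrArg l (hp w hw)).trans (map_zero l)).symm)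
    · exact congrArg₂ (· - ·) (a5 _ _ (k.sec.mem _)) (congrArg l hp)

end KP

namespace KD

variable {A W P : Type} [NormedRing A] [NormedAlgebra ℂ A] [NormedAddCommGroup W]
  [NormedSpace ℂ W] [AddCommGroup P] [Module ℂ P] [TopologicalSpace P] [IsTopologicalAddGroup P]
  [ContinuousSMul ℂ P] [T2Space P] [FiniteDimensional ℂ A] [FiniteDimensional ℂ W]
  {act : A → W → W} {Z S O : Set W} {D : KD A W P} {n r d : ℕ}

/-- The tests separate the obstruction space at `x`. -/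
def Sep (D : KD A W P) (O : Set W) (x : W) : Prop :=
  ∀ w ∈ D.obs x, (∀ m ψ, D.Tst O x m ψ → m x w = 0) → w ∈ D.van x

theorem Tst.mono {O' : Set W} {x : W} {m : W → P →ₗ[ℂ] ℂ} {ψ : W → ℂ} (h : D.Tst O x m ψ)
    (e : O' ⊆ O) : D.Tst O' x m ψ :=
  have h1 := nhdsWithin_mono x e
  ⟨h.an, fun w hw => ((h.cont w hw).filter_mono h1).mono fun _ hy => hy.mono e,
    h.van.filter_mono h1, h.sec.filter_mono h1⟩

theorem Sep.mono' {O' : Set W} {x : W} (h : D.Sep O x) (e : O' ⊆ O) : D.Sep O' x :=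
  fun w hw H => h w hw fun m ψ hm => H m ψ (hm.mono e)

theorem Sep.mono {U : Set W} {x : W} (h : D.Sep O x) (_ : U ∈ 𝓝 x) : D.Sep (O ∩ U) x :=
  h.mono' inter_subset_left

theorem Tst.ts (h : D.Dom act Z S O) {k : KP h.sp} {i : k.P.W →ₗ[ℂ] P} (hk : h.IsKP k i)
    {t : h.sp.T} {m : W → P →ₗ[ℂ] ℂ} {ψ : W → ℂ} (H : D.Tst O (h.pres.i t) m ψ) :
    k.Ts h.pres.i t (fun y => LinearMap.toContinuousLinearMap (m (h.pres.i y) ∘ₗ i)) ψ := by
  have hc : Tendsto h.pres.i (𝓝 t) (𝓝[O] h.pres.i t) :=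
    tendsto_nhdsWithin_iff.2 ⟨h.pres.emb.continuous.tendsto t, .of_forall h.pres.mem⟩
  refine ⟨H.an, ?_, (hc.eventually H.van).mono fun y hy w hw => hy _ ((hk.van y w).1 hw),
    (hc.eventually H.sec).mono fun y hy => (congrArg _ (hk.sec y)).trans hy⟩
  exact continuousAt_clm_apply.2 fun w => ((H.cont _ (hk.mem w)).self_of_nhdsWithin
    (h.pres.mem t)).tendsto.comp hc

/-- **The virtual class of a transverse zero set is its fundamental class.** -/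
theorem Gd.vr_tz (h : D.Gd act Z O n r) [IsAct act Z] (hO : Mf A O (d + r)) (hZ : Mf A Z d)
    (ht : ∀ x ∈ Z, D.Trv Z O x) (hs : ∀ x ∈ Z, D.Sep O x) :
    D.vr act Z O (h.fu (d + r)) = fnd act Z d := by
  obtain ⟨k, i, hk, -, hr⟩ := h.dom.exists_isKP h.ok subset_rfl
  haveI := h.dom.isAct
  haveI := FiniteDimensional.complete ℂ A
  haveI := FiniteDimensional.complete ℂ W
  have h1 := h.dom.isZ hk
  have h2 : ∀ t, t ∈ range (Holo.Sp.incl act h.dom.sub) ↔ t ∈ k.Zs := fun t =>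
    (Holo.Sp.mem_range_incl _).trans (h.dom.mem_Zs hk).symm
  haveI := h.dom.orb.nice
  haveI := Nice.of_isEmbedding (Holo.Sp.isEmbedding_incl (act := act) h.dom.sub)
    (Set.ext h2 ▸ k.isClosed_Zs.isLocallyClosed)
  have h3 : Orb Aˣ (Holo.Sp act Z) :=
    h.dom.orb.of_map (Holo.Sp.isEmbedding_incl h.dom.sub).continuous fun _ _ => rfl
  letI : MulAction h.dom.sp.G (Holo.Sp act Z) := inferInstanceAs (MulAction Aˣ _)
  rw [h.dom.vr_eq hk, Gd.fu, ← congrArg (d + ·) hr]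
  rw [← hr] at hO
  refine KP.vir_tz (k := k) (ι := h.dom.pres.i) (j := Holo.Sp.incl act h.dom.sub) isExp_expU
    (Holo.Sp.holAct (act := act) (S := O))
    (fun t => Holo.Sp.inf_injective_of_finite (h.dom.orb.finite_stabilizer t))
    (fun t => add_assoc (finrank ℂ A) d k.r ▸ (hO _ t.2).2)
    (holOrb_of_orb h.dom.orb fun t => (hO _ t.2).2) (Holo.Sp.isEmbedding_incl _) (fun _ _ => rfl)
    h2 (fun z => (hZ _ z.2).2) (holOrb_of_orb h3 fun z => (hZ _ z.2).2) isQuo_sp h1 (fun _ => rfl) (fun z w hw H => ?_)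
    fun z v hv H => ?_
  · exact (hk.van _ w).2 (hs _ z.2 _ ((hk.obs _ ((h2 _).1 ⟨z, rfl⟩) w).1 hw)
      fun m ψ hm => H _ _ (Tst.ts h.dom hk (t := Holo.Sp.incl act h.dom.sub z) hm))
  · exact (ht _ z.2 v ⟨_, hv⟩ fun m ψ hm =>
      H _ _ (Tst.ts h.dom hk (t := Holo.Sp.incl act h.dom.sub z) hm)).2

end KD

end Vale.Agent.P269.Ch
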