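import Vale.Agent.P269.Map.GyB
import Vale.Agent.P269.Map.TZ
import Vale.Agent.P269.Prop.TopA

set_option linter.unusedSectionVars false
set_option linter.style.haveILetI false

/-!
# Transfer of virtual classes along principal bundles, cutting by transverse sections
-/

namespace Vale.Agent.P269.Ch.KD

open Set Function Topology Filter Module Vale.Agent.P291Z Vale.Agent.P269.Orb Holo

variable {A A' W W' P P' P'' : Type} [NormedRing A] [NormedAlgebra ℂ A] [NormedAddCommGroup W]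
  [NormedSpace ℂ W] [AddCommGroup P] [Module ℂ P] [TopologicalSpace P] [NormedRing A']
  [NormedAlgebra ℂ A'] [NormedAddCommGroup W'] [NormedSpace ℂ W'] [AddCommGroup P'] [Module ℂ P']
  [TopologicalSpace P'] [AddCommGroup P''] [Module ℂ P''] [TopologicalSpace P'']
  [IsTopologicalAddGroup P] [ContinuousSMul ℂ P] [T2Space P]
  [IsTopologicalAddGroup P'] [ContinuousSMul ℂ P'] [T2Space P']
  [IsTopologicalAddGroup P''] [ContinuousSMul ℂ P''] [T2Space P'']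
  [FiniteDimensional ℂ A] [FiniteDimensional ℂ A'] [FiniteDimensional ℂ W] [FiniteDimensional ℂ W']
  {act : A → W → W} {act' : A' → W' → W'} [IsAct act univ] [IsAct act' univ]
  {Z Z₀ S S₀ T O O₀ : Set W} {Z' S' T' O' : Set W'} {D : KD A W P}
  {D' : KD A' W' P'} {n r n' r' n₀ r₀ d : ℕ} {θ : A →L[ℂ] A'} {f : W → W'} {B : P →ₗ[ℂ] P'}

namespace TrP

theorem exists_open {X : Type} [TopologicalSpace X] {M N : Set X} (e : M ⊆ N)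
    (h : ∀ x ∈ M, M ∈ 𝓝[N] x) : ∃ U, IsOpen U ∧ M = N ∩ U :=
  ⟨interior {z | z ∈ N → z ∈ M}, isOpen_interior, Subset.antisymm
    (fun x hx => ⟨e hx, mem_interior_iff_mem_nhds.2 (eventually_nhdsWithin_iff.1 (h x hx))⟩)
    fun _ hx => interior_subset hx.2 hx.1⟩

theorem isAct (h : Ivt act O) : IsAct act O := IsAct.mono ‹_› (subset_univ O) h

/-- uniqueness of fundamental classes lifts along principal bundles -/
theorem uf_lift (hB : Bun act act' O O' θ f) [IsAct act' O'] (ho : Orb A'ˣ (Holo.Sp act' O'))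
    (hl : IsLocallyClosed O') (hU : UF act' O') : UF act O := by
  rintro _ ⟨U, h1, rfl⟩ _ h2 β β' h3 h4
  have h5 : ∀ x ∈ O ∩ U, O ∩ U ∈ 𝓝[O] x := fun x hx => inter_mem_nhdsWithin _ (h1.mem_nhds hx.2)
  have h6 : f '' (O ∩ U) ⊆ O' := image_subset_iff.2 fun x hx => hB.maps hx.1
  obtain ⟨V, h7, h8⟩ := exists_open h6 (by
    rintro _ ⟨x, hx, rfl⟩
    exact hB.nhdsWithin_le hx.1 (image_mem_map (h5 x hx)))
  have k : Bun act act' (O ∩ U) (f '' (O ∩ U)) θ f := hB.mono inter_subset_left h6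
    (mapsTo_image _ _) fun x hx => mem_of_superset (h5 x hx) fun _ a _ => a
  haveI : IsAct act' (f '' (O ∩ U)) := isAct (by
    rintro b hb _ ⟨x, hx, rfl⟩
    obtain ⟨a, ha, rfl⟩ := hB.usurj b hb
    exact ⟨_, IsAct.mem a ha x hx, hB.eqv a ha x hx.1⟩)
  have h9 := orb_mono ho h6 (h8 ▸ hl.inter h7.isLocallyClosed)
  haveI := h2.proper
  haveI := h9.proper
  haveI : LocallyCompactSpace (O ∩ U : Set W) := h2.nice.lc
  haveI : LocallyCompactSpace (f '' (O ∩ U)) := h9.nice.lc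
  haveI := nice_of_orb h2
  haveI := nice_of_orb h9
  have a := k.isHomeomorph (Φ := k.toEt.map) (fun _ => rfl) (surjOn_image _ _)
  rw [← res_push_homeo a β, ← res_push_homeo a β', hU _ ⟨V, h7, h8⟩ h9 _ _
    (k.isFund_push (Φ := k.toEt.map) (fun _ => rfl) (surjOn_image _ _) h3)
    (k.isFund_push (Φ := k.toEt.map) (fun _ => rfl) (surjOn_image _ _) h4)]

theorem mf_inter (h : Mf A O d) {U : Set W} (hU : IsOpen U) : Mf A (O ∩ U) d := fun x hx =>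
  haveI := FiniteDimensional.complete ℂ W
  (h x hx.1).congr (mem_of_superset (hU.mem_nhds hx.2) fun _ a => (and_iff_left a).symm)

theorem mem_tan_inter {x v : W} {U : Set W} (hU : U ∈ 𝓝 x) : v ∈ Tan (O ∩ U) x ↔ v ∈ Tan O x :=
  ⟨fun ⟨a, b⟩ => ⟨a.1, fun Φ c e => b Φ c ((ev_sub a (p := fun s => Φ s = 0)).2
      (((ev_sub a.1 (p := fun s => Φ s = 0)).1 e).mono fun _ k l => k l.1))⟩,
    fun ⟨a, b⟩ => ⟨⟨a, mem_of_mem_nhds hU⟩, fun Φ c e => b Φ c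
      ((ev_sub a (p := fun s => Φ s = 0)).2 ((((ev_sub (S := O ∩ U) ⟨a, mem_of_mem_nhds hU⟩
        (p := fun s => Φ s = 0)).1 e).and hU).mono fun _ k l => k.1 ⟨l, k.2⟩))⟩⟩

end TrP

open TrP

/-- `f : T → T'` is a principal bundle, near `Z` the base `S` is the preimage of `S'`, and `B`
identifies the obstruction spaces. -/
structure Pl (D : KD A W P) (D' : KD A' W' P') (act : A → W → W) (act' : A' → W' → W') (T : Set W)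
    (T' : Set W') (θ : A →L[ℂ] A') (f : W → W') (B : P →ₗ[ℂ] P') (Z S : Set W) (Z' S' : Set W') :
    Prop where
  bun : Bun act act' T T' θ f
  invT : Ivt act T
  invT' : Ivt act' T'
  invS : Ivt act S
  invS' : Ivt act' S'
  sub : S' ⊆ T'
  loc : ∀ x ∈ Z, ∀ᶠ y in 𝓝 x, y ∈ S ↔ y ∈ T ∧ f y ∈ S'
  reg : ∃ O n r, D.Reg act Z S O n r ∧ D.Lin D' θ f (O ∩ T) B
  reg' : ∃ O n r, D'.Reg act' Z' S' O n r
  maps : MapsTo f Z Z'
  inj : D.Inj D' f Z B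
  srj : D.Srj D' f Z B

namespace Pl

variable (h : Pl D D' act act' T T' θ f B Z S Z' S')
include h

theorem subT : Z ⊆ T := fun x hx =>
  let ⟨_, _, _, h1, _⟩ := h.reg
  let ⟨_, _, h2⟩ := h1.opn
  ((h.loc x hx).self_of_nhds.1 (h2.le (h1.sub hx)).1).1

theorem et : Et act act' Z Z' θ f := h.bun.toEt.mono h.subT h.maps

/-- the pull-back of a domain -/
theorem exists_gd (h' : D'.Gd act' Z' O' n' r') (ho : ∃ U, IsOpen U ∧ O' = S' ∩ U) :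
    ∃ O n r, D.Gd act Z O n r ∧ (∃ U, IsOpen U ∧ O = S ∩ U) ∧ Bun act act' O O' θ f ∧
      D.Lin D' θ f O B := by
  obtain ⟨O₁, n, r, hR, hL⟩ := h.reg
  obtain ⟨U', a1, a2⟩ := ho
  obtain ⟨U₁, b1, b2⟩ := hR.opn
  obtain ⟨U, c1, c2, c3, c4⟩ := exists_loc (Z := Z) (S' := T ∩ f ⁻¹' S') h.invS
    (fun a ha x hx => ⟨h.invT a ha x hx.1, by
      rw [mem_preimage, h.bun.eqv a ha x hx.1]
      exact h.invS' _ (h.bun.isUnit ha) _ hx.2⟩) h.loc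
  obtain ⟨V, d1, d2⟩ := continuousOn_iff'.1 h.bun.continuousOn U' a1
  have e1 : ∀ x ∈ O₁, x ∈ U → x ∈ T ∧ f x ∈ S' := fun x a b => (c4.le ⟨(b2.le a).1, b⟩).1
  have e2 : ∀ x ∈ O₁ ∩ (U ∩ V), f x ∈ O' := fun x a =>
    a2.ge ⟨(e1 x a.1 a.2.1).2, (d2.ge ⟨a.2.2, (e1 x a.1 a.2.1).1⟩).1⟩
  have e3 : ∀ x ∈ T, f x ∈ O' → x ∈ V := fun x a b => (d2.le ⟨(a2.le b).2, a⟩).1
  have e4 : O₁ ∩ (U ∩ V) ⊆ T := fun x a => (e1 x a.1 a.2.1).1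
  have e5 : Ivt act (O₁ ∩ (U ∩ V)) := fun a ha x hx => ⟨hR.inv a ha x hx.1, c2 a ha x hx.2.1,
    e3 _ (h.invT a ha x (e4 hx)) (by
      rw [h.bun.eqv a ha x (e4 hx)]
      exact h'.ivt _ (h.bun.isUnit ha) _ (e2 x hx))⟩
  have k := hR.inter (c1.inter d1) e5 fun x hx =>
    ⟨c3 hx, e3 x (h.subT hx) (h'.dom.sub (h.maps hx))⟩
  have hB : Bun act act' (O₁ ∩ (U ∩ V)) O' θ f :=
    h.bun.mono e4 (fun y hy => h.sub (a2.le hy).1) e2 fun x hx => by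
      filter_upwards [self_mem_nhdsWithin, mem_nhdsWithin_of_mem_nhds ((c1.inter d1).mem_nhds hx.2),
        mem_nhdsWithin_of_mem_nhds (b1.mem_nhds (b2.le hx.1).2)] with y a b c e
      exact ⟨b2.ge ⟨(c4.ge ⟨⟨a, (a2.le e).1⟩, b.1⟩).1, c⟩, b⟩
  haveI := isAct e5
  haveI := h'.dom.isAct
  haveI := h'.dom.orb.proper
  haveI := hB.properSMul
  haveI := FiniteDimensional.proper ℂ W
  haveI := FiniteDimensional.complete ℂ A
  haveI := k.lc.locallyCompactSpace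
  exact ⟨_, n, r, k.gd prp_of_properSMul.orb, k.opn, hB, hL.mono fun x hx => ⟨hx.1, e4 hx⟩⟩

variable [Nice (Quo act' Z')] {Φ : Quo act Z → Quo act' Z'}
  (e : ∀ x : Z, Φ (Quo.mk act x) = Quo.mk act' ⟨f x, h.maps x.2⟩) {v : BM (Quo act' Z')}
include e

theorem pull (h' : D'.Gd act' Z' O' n' r') (hG : D.Gd act Z O n r) (hB : Bun act act' O O' θ f)
    (hL : D.Lin D' θ f O B) [Nice (Quo act' O')] : IsOpenEmbedding Φ ∧
      (∀ β, res Φ (D'.vr act' Z' O' β) = D.vr act Z O (res hB.toEt.map β)) ∧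
      ∀ β, P269.IsFund act' O' β → P269.IsFund act O (res hB.toEt.map β) := by
  haveI := hG.dom.isAct
  haveI := h'.dom.isAct
  haveI := hG.dom.orb.proper
  haveI := h'.dom.orb.proper
  haveI := hG.dom.niceT.lc
  haveI := h'.dom.niceT.lc
  have := hG.vr_pull h' hB.toEt hL h.inj (hG.rank_eq h' hB.maps hL h.inj h.srj) h.maps
    (hB.isOpenEmbedding (Φ := hB.toEt.map) fun _ => rfl) (fun _ => rfl) e
  exact ⟨this.1, this.2, fun β => hB.isFund_res fun _ => rfl⟩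

theorem isV (hv : D'.IsV act' Z' S' v) : IsOpenEmbedding Φ ∧ D.IsV act Z S (res Φ v) := by
  obtain ⟨_, _, _, hR⟩ := h.reg'
  obtain ⟨O', β, -, ho, h', hβ, rfl⟩ := hv.exists_gd hR
  obtain ⟨O, n, r, hG, a, hB, hL⟩ := h.exists_gd h' ho
  haveI := h'.nice
  obtain ⟨b, c, k⟩ := h.pull e h' hG hB hL
  exact ⟨b, c β ▸ hG.isV a (k β hβ)⟩

theorem isW (hv : D'.IsW act' Z' S' d v) : IsOpenEmbedding Φ ∧ D.IsW act Z S d (res Φ v) := by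
  obtain ⟨O', n', r', h', ho, hm, rfl⟩ := hv
  obtain ⟨O, n, r, hG, a, hB, hL⟩ := h.exists_gd h' ho
  haveI := h'.nice
  obtain ⟨b, c, -⟩ := h.pull e h' hG hB hL
  haveI := hG.dom.isAct
  haveI := h'.dom.isAct
  have k : Mf A O d := fun x hx =>
    ⟨hx, hB.isMfd_lift (x := Holo.Sp.of act x hx) (hm _ (hB.maps hx)).2 (by omega)⟩
  exact ⟨b, O, n, r, hG, a, k, (c _).trans (congrArg _ (hB.pb.res_fundQ isQuo_sp isQuo_sp
    (fun _ => rfl) (holOrb_of_orb hG.dom.orb fun x => (k x x.2).2)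
    (holOrb_of_orb h'.dom.orb fun x => (hm x x.2).2)))⟩

theorem isHomeomorph (ho : IsOpenEmbedding Φ) (hs : SurjOn f Z Z') : IsHomeomorph Φ :=
  ⟨ho.continuous, ho.isOpenMap, ho.injective, by
    rintro ⟨y⟩
    obtain ⟨x, hx, a⟩ := hs y.2
    exact ⟨Quo.mk act ⟨x, hx⟩, (e _).trans (congrArg _ (Subtype.ext a))⟩⟩

/-- uniqueness upstairs -/
theorem eq_res (hU : UF act' S') (hv : D'.IsV act' Z' S' v) {w : BM (Quo act Z)}
    (hw : D.IsV act Z S w) : w = res Φ v := by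
  obtain ⟨_, _, _, hR⟩ := h.reg'
  obtain ⟨O', β, -, ho, h', hβ, rfl⟩ := hv.exists_gd hR
  obtain ⟨O, n, r, hG, a, hB, hL⟩ := h.exists_gd h' ho
  haveI := h'.nice
  obtain ⟨-, c, k⟩ := h.pull e h' hG hB hL
  haveI := h'.dom.isAct
  obtain ⟨κ, i, h1, -, -, h2⟩ := hG.exists_isKP
  rw [c, h2]
  exact hw.eq_vir' (uf_lift hB h'.dom.orb h'.lc (hU.mono ho))
    ⟨hG.dom.sub, a, hG.dom.isAct, hG.dom.orb, hG.dom.zero⟩ h1 (k β hβ)

end Pl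

variable {K : KD A W P'} {D₀ : KD A W P''} {v : BM (Quo act Z)}

theorem Trv.mono {x : W} (h : K.Trv Z O x) {U : Set W} (hU : U ∈ 𝓝 x) :
    K.Trv (Z ∩ U) (O ∩ U) x := fun v hv H =>
  (mem_tan_inter hU).2
    (h v ((mem_tan_inter hU).1 hv) fun m ψ b => H m ψ (b.mono inter_subset_left))

theorem Reg.ivtZ (h : D.Reg act Z S O n r) : Ivt act Z := fun a ha x hx =>
  (h.zero _ (h.inv a ha x (h.sub hx))).1 (h.ok.eqv x (h.sub hx) a ha ▸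
    h.ok.fam.inv x (h.sub hx) a ha _ ((h.zero x (h.sub hx)).2 hx))

/-- the domain can be shrunk into an invariant open part of the base -/
theorem IsW.exists_sub (hv : D.IsW act Z S d v) (ho : ∃ U, IsOpen U ∧ O = S ∩ U) (hi : Ivt act O)
    (hZ : Z ⊆ O) : ∃ (O₁ : Set W) (n r : ℕ) (h : D.Gd act Z O₁ n r), O₁ ⊆ O ∧
      (∃ U, IsOpen U ∧ O₁ = S ∩ U) ∧ Mf A O₁ d ∧ v = D.vr act Z O₁ (h.fu d) := by
  obtain ⟨O₁, n, r, h, ⟨U₁, a1, a2⟩, hm, rfl⟩ := hv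
  obtain ⟨U, b1, b2⟩ := ho
  have c1 : O₁ ∩ U ⊆ O := fun x hx => b2.ge ⟨(a2.le hx.1).1, hx.2⟩
  have c2 : Ivt act (O₁ ∩ U) := fun a ha x hx =>
    ⟨h.ivt a ha x hx.1, (b2.le (hi a ha x (c1 hx))).2⟩
  have c3 : Z ⊆ O₁ ∩ U := fun x hx => ⟨h.dom.sub hx, (b2.le (hZ hx)).2⟩
  have k := h.mono inter_subset_left c2 (h.lc.inter b1.isLocallyClosed) (inter_eq_left.2 c3).symm
  haveI := h.nice
  obtain ⟨c4, c5⟩ := h.res_fu hm k inter_subset_left ⟨U, b1, rfl⟩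
  exact ⟨_, n, r, k, c1, ⟨U₁ ∩ U, a1.inter b1, by rw [a2, inter_assoc]⟩, c4, by
    rw [h.vr_res inter_subset_left c2 ⟨U, b1, rfl⟩ c3, c5]⟩

theorem Reg.tz {C O₁ : Set W} (hK : K.Reg act (S₀ ∩ C) S C n' r') (hS : S₀ ⊆ S)
    (hm : Mf A (S₀ ∩ C) d) (ht : ∀ x ∈ S₀ ∩ C, K.Trv (S₀ ∩ C) C x)
    (hp : ∀ x ∈ S₀ ∩ C, K.Sep C x) (h : D.Gd act Z O₁ n r)
    (e : O₁ ⊆ C) (ho : ∃ U, IsOpen U ∧ O₁ = S ∩ U) (hm₁ : Mf A O₁ (d + r')) :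
    ∃ k : K.Gd act (S₀ ∩ O₁) O₁ n' r', (∃ U, IsOpen U ∧ S₀ ∩ O₁ = S₀ ∩ U) ∧ Mf A (S₀ ∩ O₁) d ∧
      K.vr act (S₀ ∩ O₁) O₁ (h.fu (d + r')) = @fnd _ _ _ _ _ _ act (S₀ ∩ O₁) k.isActZ d := by
  obtain ⟨U, a1, a2⟩ := ho
  obtain ⟨V, -, b2⟩ := hK.opn
  have c1 : O₁ = C ∩ U := Subset.antisymm (fun x hx => ⟨e hx, (a2.le hx).2⟩)
    fun x hx => a2.ge ⟨(b2.le hx.1).1, hx.2⟩
  have c2 : S₀ ∩ O₁ = S₀ ∩ C ∩ U := by rw [c1, inter_assoc]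
  have k : K.Gd act (S₀ ∩ O₁) O₁ n' r' :=
    ⟨⟨inter_subset_right, ⟨univ, isOpen_univ, (inter_univ _).symm⟩, h.dom.isAct, h.dom.orb,
      fun x hx => (hK.zero x (e hx)).trans ((and_iff_left (e hx)).trans (and_iff_left hx).symm)⟩,
      hK.ok.mono e⟩
  have c3 : Mf A (S₀ ∩ O₁) d := c2 ▸ mf_inter hm a1
  haveI := k.isActZ
  refine ⟨k, ⟨U, a1, by rw [a2, ← inter_assoc, inter_eq_left.2 hS]⟩, c3,
    k.vr_tz hm₁ c3 (fun x hx => ?_) fun x hx => (hp x (c2.le hx).1).mono' e⟩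
  have := (ht x (c2.le hx).1).mono (a1.mem_nhds (c2.le hx).2)
  rwa [← c2, ← c1] at this

/-- **Cutting the base by a part of the section.** -/
theorem IsW.cut (hD : D.Reg act Z S O n r) {C : Set W} (hK : K.Reg act (S₀ ∩ C) S C n' r')
    (hC : Z ⊆ C) (hS : S₀ ⊆ S) (h₀ : D₀.Reg act Z S₀ O₀ n₀ r₀) {B₁ : P →ₗ[ℂ] P'}
    {B₀ : P'' →ₗ[ℂ] P} (h1 : D.Lin K id id O B₁) (h2 : D₀.Lin D id id O₀ B₀)
    (hi : D₀.Inj D id Z B₀) (hs : D.Srj K id Z B₁)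
    (hc : ∀ x ∈ Z, ∀ w ∈ D₀.obs x, B₁ (B₀ w) ∈ K.van x) (hr : Z.Nonempty → r = r₀ + r')
    (hm : Mf A (S₀ ∩ C) d) (ht : ∀ x ∈ S₀ ∩ C, K.Trv (S₀ ∩ C) C x)
    (hp : ∀ x ∈ S₀ ∩ C, K.Sep C x) (hv : D.IsW act Z S (d + r') v) : D₀.IsW act Z S₀ d v := by
  obtain ⟨U₀, a1, a2⟩ := h₀.opn
  obtain ⟨U₁, b1, b2⟩ := hD.opn
  obtain ⟨U₂, c1, c2⟩ := hK.opn
  obtain ⟨U, d1, d2, d3, d4⟩ := exists_loc (Z := Z) (S' := O₀ ∩ C) hK.ivtZ
    (fun a ha x hx => ⟨h₀.inv a ha x hx.1, hK.inv a ha x hx.2⟩) fun x hx =>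
      mem_of_superset (a1.mem_nhds (a2.le (h₀.sub hx)).2) fun y hy =>
        and_congr_left' ⟨fun a => a2.ge ⟨a, hy⟩, fun a => (a2.le a).1⟩
  obtain ⟨O₁, _, _, k, e1, e2, e3, rfl⟩ := hv.exists_sub (O := O ∩ C ∩ U)
    ⟨U₁ ∩ U₂ ∩ U, (b1.inter c1).inter d1, by
      rw [← inter_assoc, inter_inter_distrib_left, ← b2, ← c2]⟩
    (fun a ha x hx => ⟨⟨hD.inv a ha x hx.1.1, hK.inv a ha x hx.1.2⟩, d2 a ha x hx.2⟩)
    fun x hx => ⟨⟨hD.sub hx, hC hx⟩, d3 hx⟩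
  have e4 : O₁ ⊆ O := fun x hx => (e1 hx).1.1
  have k₁ : D.Gd act Z O₁ n r := ⟨k.dom, hD.ok.mono e4⟩
  obtain ⟨k₂, f1, f2, f3⟩ := hK.tz hS hm ht hp k (fun x hx => (e1 hx).1.2) e2 e3
  have e5 : S₀ ∩ O₁ ⊆ O₀ := fun x hx => (d4.le ⟨⟨hx.1, (e1 hx.2).1.2⟩, (e1 hx.2).2⟩).1.1
  have k₀ : D₀.Gd act Z (S₀ ∩ O₁) n₀ r₀ :=
    ⟨⟨fun x hx => ⟨(a2.le (h₀.sub hx)).1, k.dom.sub hx⟩, ⟨univ, isOpen_univ, (inter_univ _).symm⟩,
      k₂.isActZ, k₂.orbZ, fun x hx => h₀.zero x (e5 hx)⟩, h₀.ok.mono e5⟩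
  exact ⟨_, n₀, r₀, k₀, f1, f2, (k₁.vr_comp k₂ k₀ (h1.mono e4) (h2.mono e5) hi hs hc hr _).trans
    (congrArg _ f3)⟩

/-- **Cutting the base and the zero set by an independent section.** -/
theorem IsW.cut' (hD : D.Reg act Z S O n r) {C : Set W} (hK : K.Reg act (S₀ ∩ C) S C n' r')
    (hC : Z ⊆ C) (hS : S₀ ⊆ S) (hZ : Z₀ = Z ∩ S₀) (hm : Mf A (S₀ ∩ C) d)
    (ht : ∀ x ∈ S₀ ∩ C, K.Trv (S₀ ∩ C) C x) (hp : ∀ x ∈ S₀ ∩ C, K.Sep C x)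
    (hv : D.IsW act Z S (d + r') v) :
    K.Gd act Z₀ Z n' r' ∧ D.IsW act Z₀ S₀ d (K.vr act Z₀ Z v) := by
  have _ := hD
  obtain ⟨O₁, n₁, r₁, k, e1, e2, e3, rfl⟩ := hv.exists_sub hK.opn hK.inv hC
  obtain ⟨k₂, f1, f2, f3⟩ := hK.tz hS hm ht hp k e1 e2 e3
  have e4 : Z₀ = Z ∩ (S₀ ∩ O₁) := by
    rw [hZ, inter_comm S₀, ← inter_assoc, inter_eq_left.2 k.dom.sub]
  exact ⟨k₂.mono k.dom.sub k.ivtZ k.lcZ (e4.trans (inter_comm _ _)), _, n₁, r₁,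
    k.mono inter_subset_right k₂.ivtZ k₂.lcZ e4, f1, f2,
    (k.vr_comm k₂ e4 _).symm.trans (congrArg _ f3)⟩

end Vale.Agent.P269.Ch.KD
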