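import Vale.Agent.P269.Map.Gy

set_option linter.unusedSectionVars false

/-!
# The calculus of virtual pull-backs
-/

namespace Vale.Agent.P269.Ch.KD

open Set Function Topology Filter Module Vale.Agent.P291Z Vale.Agent.P269.Orb Holo

variable {A A' W W' P P' P'' : Type} [NormedRing A] [NormedAlgebra ℂ A] [NormedAddCommGroup W]
  [NormedSpace ℂ W] [AddCommGroup P] [Module ℂ P] [TopologicalSpace P] [NormedRing A']
  [NormedAlgebra ℂ A'] [NormedAddCommGroup W'] [NormedSpace ℂ W'] [AddCommGroup P'] [Module ℂ P']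
  [TopologicalSpace P'] [AddCommGroup P''] [Module ℂ P''] [TopologicalSpace P'']
  [IsTopologicalAddGroup P] [ContinuousSMul ℂ P] [T2Space P]
  [IsTopologicalAddGroup P'] [ContinuousSMul ℂ P'] [T2Space P']
  [IsTopologicalAddGroup P''] [ContinuousSMul ℂ P''] [T2Space P'']
  [FiniteDimensional ℂ A] [FiniteDimensional ℂ A'] [FiniteDimensional ℂ W] [FiniteDimensional ℂ W']
  {act : A → W → W} {act' : A' → W' → W'} {Z Z₀ S O O₀ : Set W} {Z' O' : Set W'} {D : KD A W P}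
  {D' : KD A' W' P'} {n r n' r' n₀ r₀ d : ℕ}

theorem _root_.Vale.Agent.P269.Ch.KP.Hom.cmp_ne {Y Y' : Ch.Sp} {k' : KP Y'} {k : KP Y} {m : Mor Y' Y}
    {L : Y'.T → k'.P.W →ₗ[ℂ] k.P.W} (h : k'.Hom k m L)
    (inj : ∀ t ∈ k'.Zs, ∀ w ∈ k'.obs t, L t w ∈ k.van (m.f t) → w ∈ k'.van t)
    (hr : k'.Zs.Nonempty → k'.r = k.r) : k'.Cmp k m.map := by
  rcases eq_empty_or_nonempty k'.Zs with h1 | h1
  · exact ⟨m.map.continuous, h.Z_subset, h.isol inj, LCoh.of_van (by simp [KP.Z, h1])⟩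
  · exact h.cmp inj (hr h1)

namespace Dom

variable {S' : Set W'} (h : D.Dom act Z S O) (h' : D'.Dom act' Z' S' O') {k : KP h.sp}
  {i : k.P.W →ₗ[ℂ] P} {k' : KP h'.sp} {i' : k'.P.W →ₗ[ℂ] P'} (hk : h.IsKP k i) (hk' : h'.IsKP k' i')
  (m : Mor h.sp h'.sp) {θ : A → A'} {f : W → W'} {B : P →ₗ[ℂ] P'}
  (e2 : ∀ t, h'.pres.i (m.f t) = f (h.pres.i t))
include hk hk' e2

/-- the homomorphism of presentations given by a linear comparison map -/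
theorem exists_hom (e1 : ∀ g, h'.pres.u (m.ρ g) = θ (h.pres.u g)) (hL : D.Lin D' θ f O B) :
    ∃ L : h.sp.T → k.P.W →ₗ[ℂ] k'.P.W, k.Hom k' m L ∧ ∀ t w, i' (L t w) = B (i w) :=
  IsKP.exists_hom hk' hk m (fun _ => B) (fun _ => hL.mem) (fun _ _ => continuous_const)
    (fun g _ w hw => (hL.eqv _ (h.pres.unit g) w hw).trans (by rw [e1]))
    (fun t w _ hw => (e2 t).symm ▸ hL.van _ (h.pres.mem t) w hw)
    (fun t => (e2 t).symm ▸ hL.sec _ (h.pres.mem t))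
    fun t ht w _ hw => (e2 t).symm ▸ hL.obs _ (h.pres.mem t) (hk.mem_Zs.1 ht) w hw

theorem inj_hom (hi : D.Inj D' f Z B) {L : h.sp.T → k.P.W →ₗ[ℂ] k'.P.W}
    (hL : ∀ t w, i' (L t w) = B (i w)) :
    ∀ t ∈ k.Zs, ∀ w ∈ k.obs t, L t w ∈ k'.van (m.f t) → w ∈ k.van t := fun t ht w hw e =>
  (hk.van t w).2 (hi _ ((h.mem_Zs hk).1 ht) _ ((hk.obs t ht w).1 hw) (by
    have := (hk'.van _ _).1 e
    rwa [hL, e2] at this))

end Dom

/-- the inclusion of domains of different data -/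
noncomputable def Dom.inc {K : KD A W P'} {S₀ : Set W} (h : D.Dom act Z S O)
    (h' : K.Dom act Z₀ S₀ O₀) (e : O₀ ⊆ O) : Mor h'.sp h.sp :=
  ⟨MonoidHom.id _, Holo.Sp.incl act e, continuous_id, (Holo.Sp.isEmbedding_incl e).continuous,
    fun _ _ => rfl⟩

theorem Dom.inc_map {K : KD A W P'} {S₀ : Set W} (h : D.Dom act Z S O)
    (h' : K.Dom act Z₀ S₀ O₀) (e : O₀ ⊆ O) : ⇑(h.inc h' e).map = Quo.incl act e :=
  ((h.inc h' e).map_eq fun _ => rfl).symm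

/-- the morphism given by an equivariant holomorphic map -/
noncomputable def Dom.mor {S' : Set W'} (h : D.Dom act Z S O) (h' : D'.Dom act' Z' S' O')
    {θ : A →L[ℂ] A'} {f : W → W'} (hE : Et act act' O O' θ f) : Mor h.sp h'.sp :=
  ⟨hE.ρ, hE.F, θ.continuous.units_map hE.ring.toMonoidHom, hE.continuous_F,
    fun (g : Aˣ) (t : Holo.Sp act O) => Subtype.ext (hE.eqv g g.isUnit t.val t.val_mem)⟩

namespace Gd

variable (h : D.Gd act Z O n r)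
include h

/-- **pull-back along open embeddings** -/
theorem vr_pull (h' : D'.Gd act' Z' O' n' r') [Nice (Quo act' Z')] [Nice (Quo act' O')]
    {θ : A →L[ℂ] A'} {f : W → W'} (hE : Et act act' O O' θ f) {B : P →ₗ[ℂ] P'}
    (hL : D.Lin D' θ f O B) (hi : D.Inj D' f Z B) (hr : Z.Nonempty → r = r') (hZ : MapsTo f Z Z')
    {Ψ : Quo act O → Quo act' O'} (hΨ : IsOpenEmbedding Ψ)
    (eΨ : ∀ x : O, Ψ (Quo.mk act x) = Quo.mk act' ⟨f x, hE.maps x.2⟩)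
    {Φ : Quo act Z → Quo act' Z'} (eΦ : ∀ x : Z, Φ (Quo.mk act x) = Quo.mk act' ⟨f x, hZ x.2⟩) :
    IsOpenEmbedding Φ ∧ ∀ β, res Φ (D'.vr act' Z' O' β) = D.vr act Z O (res Ψ β) := by
  obtain ⟨k, i, hk, -, h1, h2⟩ := h.exists_isKP
  obtain ⟨k', i', hk', -, h3, h4⟩ := h'.exists_isKP
  obtain ⟨L, h5, h6⟩ := h.dom.exists_hom h'.dom hk hk' (h.dom.mor h'.dom hE) (fun _ => rfl)
    (fun _ => rfl) hL
  have h7 := h5.cmp_ne (h.dom.inj_hom h'.dom hk hk' _ (fun _ => rfl) hi h6) fun ⟨t, ht⟩ => by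
    rw [h1, h3, hr ⟨_, (h.dom.mem_Zs hk).1 ht⟩]
  rw [← (h.dom.mor h'.dom hE).map_eq (φ := Ψ) eΨ] at h7
  have h8 : ∀ z, Ψ (Quo.incl act h.dom.sub z) = Quo.incl act' h'.dom.sub (Φ z) := fun z =>
    Quot.inductionOn z fun x => (eΨ ⟨x.1, h.dom.sub x.2⟩).trans
      (congrArg (Quo.incl act' h'.dom.sub) (eΦ x)).symm
  refine ⟨h7.isOpenEmbedding hΨ (h'.dom.isZ hk') (h.dom.isZ hk) h8, fun β => ?_⟩
  rw [h2, h4]
  exact h7.res_vir hΨ (h'.dom.isZ hk') (h.dom.isZ hk) h8 β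

/-- **composition**: `0 → obs D₀ → obs D → obs K → 0` along `Z` -/
theorem vr_comp {K : KD A W P'} {D₀ : KD A W P''} (hK : K.Gd act O₀ O n' r')
    (h₀ : D₀.Gd act Z O₀ n₀ r₀) {B₁ : P →ₗ[ℂ] P'} {B₀ : P'' →ₗ[ℂ] P}
    (h1 : D.Lin K id id O B₁) (h2 : D₀.Lin D id id O₀ B₀) (hi : D₀.Inj D id Z B₀)
    (hs : D.Srj K id Z B₁) (hc : ∀ x ∈ Z, ∀ w ∈ D₀.obs x, B₁ (B₀ w) ∈ K.van x)
    (hr : Z.Nonempty → r = r₀ + r') (β : BM (Quo act O)) :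
    D.vr act Z O β = D₀.vr act Z O₀ (K.vr act O₀ O β) := by
  rcases eq_empty_or_nonempty Z with hZ | hZ
  · have : IsEmpty (Quo act Z) := ⟨fun z => Quot.inductionOn z fun x => (hZ.le x.2).elim⟩
    exact BM_eq_of_isEmpty _ _
  obtain ⟨k, i, hk, -, a1, a2⟩ := h.exists_isKP
  obtain ⟨k₁, i₁, hk₁, -, b1, b2⟩ := hK.exists_isKP
  obtain ⟨k₂, i₂, hk₂, -, c1, c2⟩ := h₀.exists_isKP
  obtain ⟨L₁, h3, h4⟩ := h.dom.exists_hom hK.dom hk hk₁ (Mor.id h.dom.sp) (fun _ => rfl)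
    (fun _ => rfl) h1
  obtain ⟨L₂, h5, h6⟩ := h₀.dom.exists_hom h.dom hk₂ hk (h.dom.inc h₀.dom hK.dom.sub)
    (fun _ => rfl) (fun _ => rfl) h2
  have h7 := h.dom.inc_map h₀.dom hK.dom.sub
  have h8 := (KP.Hom.vir_comp (k₁ := k₁) h3 h5
    (h₀.dom.inj_hom h.dom hk₂ hk _ (fun _ => rfl) hi h6) (fun t ht w hw => ?_)
    (fun t ht w hw => ?_) (by rw [a1, b1, c1, hr hZ]) (h7 ▸ hK.dom.isZ hk₁) (h₀.dom.isZ hk₂) β).2
  · have h9 : ⇑(h.dom.inc h₀.dom hK.dom.sub).map ∘ Quo.incl act h₀.dom.sub =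
        Quo.incl act h.dom.sub :=
      funext fun z => (congrFun h7 _).trans (Quot.inductionOn z fun _ => rfl)
    rw [a2, b2, c2]
    exact (congrArg (k.vir · β) h9.symm).trans
      (h8.trans (congrArg (fun j => k₂.vir _ (k₁.vir j β)) h7))
  · have d1 := (h₀.dom.mem_Zs hk₂).1 ht
    have d2 := h5.mem_Zs ht
    obtain ⟨u, d3, d4⟩ := hs _ d1 _ ((hk₁.obs _ (h3.mem_Zs d2) w).1 hw)
    obtain ⟨u, rfl⟩ := hk.lift (h.ok.obs_le _ (h.dom.sub d1) ((h.dom.zero _ (h.dom.sub d1)).2 d1) d3)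
    exact ⟨u, (hk.obs _ d2 u).2 d3, (hk₁.van _ _).2 (by rw [map_sub, h4]; exact d4)⟩
  · exact (hk₁.van _ _).2 (by
      rw [h4, h6]
      exact hc _ ((h₀.dom.mem_Zs hk₂).1 ht) _ ((hk₂.obs t ht w).1 hw))

/-- **two virtual pull-backs commute** -/
theorem vr_comm {K : KD A W P'} (hK : K.Gd act O₀ O n' r') (hZ : Z₀ = Z ∩ O₀)
    (β : BM (Quo act O)) :
    D.vr act Z₀ O₀ (K.vr act O₀ O β) = K.vr act Z₀ Z (D.vr act Z O β) := by
  obtain ⟨k, i, hk, -, -, a2⟩ := h.exists_isKP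
  obtain ⟨k₁, i₁, hk₁, -, -, b2⟩ := hK.exists_isKP
  have h1 := (h.mono hK.dom.sub hK.ivtZ hK.lcZ hZ).dom
  have h2 := (hK.mono h.dom.sub h.ivtZ h.lcZ (hZ.trans (inter_comm _ _))).dom
  have h3 : h1.IsKP (k.pb (h.dom.incl h1 hK.dom.sub)) i := hk.pb (h.dom.incl h1 hK.dom.sub)
  have h4 : h2.IsKP (k₁.pb (hK.dom.incl h2 h.dom.sub)) i₁ :=
    hk₁.pb (hK.dom.incl h2 h.dom.sub)
  have h5 := k.cmp_pb (h.dom.incl h1 hK.dom.sub)
  rw [h.dom.incl_map] at h5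
  have := h.niceZ
  have h6 := h5.vir_gys (hK.dom.isZ hk₁).emb (h.dom.isZ hk) (h1.isZ h3) (g := Quo.incl act h2.sub)
    (fun z => Quot.inductionOn z fun _ => rfl) (hK.dom.isZ hk₁).lco β
  rw [a2, b2, h1.vr_eq h3, h2.vr_eq h4, KP.vir_pb _ _ (h2.isZ h4), hK.dom.incl_map]
  exact h6.symm

end Gd

end Vale.Agent.P269.Ch.KD
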