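import Vale.Agent.P269.Map.CutA

set_option linter.unusedSectionVars false

/-!
# Nowhere vanishing movable fields become base fields: the Kuranishi data
-/

namespace Vale.Agent.P269

open P291Z Set Function Topology Filter Base Holo Vir Module

variable {S Λ R J K ι ν κ α : Type} [Fintype S] [Fintype Λ] [Fintype R] [Fintype J] [Fintype K]
  [Fintype ι] [DecidableEq ι] [Fintype ν] [Fintype κ]

namespace Ch

variable {ch : Ch ι J} {F : Fam S Λ R J K} {e : K → ι → ℕ} {K₀ : Set K} {ℓ : R → ι → ℤ} {T : Set J}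
  {x x₀ : ch.WF ν κ Λ} {O : Set (ch.WF ν κ Λ)} {l : Filter α} {w : ch.P K}

namespace MCut

/-- a line bundle with a section without zeros has degree zero -/
theorem eu_wd {ν' : Type} [Fintype ν'] {x : ch.W ν'} (hx : x ∈ ch.base ν') {j : J}
    (h : ∀ c ∈ crv x, (∃ y, Val x j c y) ∧ fld x c j ≠ 0) : ch.eu (ch.wd j) = 1 - ch.g := by
  obtain ⟨X, _, _, _, Q, N, A, π, u, p, ξ, k⟩ := Cv.exists_cr hx
  obtain ⟨s, a⟩ := k.exists_ind_iff.2 fun c hc => (h c hc).1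
  have := Cv.deg_of_ne (k.ind_mem a).1 fun y => k.fld_π a y ▸ (h _ (k.par.mem y)).2
  rw [Cv.deg_bz] at this
  simp only [k.deg_eq] at this
  rw [eu, this, zero_add]

theorem sol_secT (hT : F.Tor T) (hx : x ∈ ch.solF ν κ F ∩ ch.main κ F 0) : x ∈ ch.secT ν κ F T :=
  ⟨hx.2, fun j hj c hc =>
    ⟨((mem_solF.1 hx.1).2 c hc).1 j, hT.ne _ ((mem_solF.1 hx.1).2 c hc).2 j hj⟩⟩

theorem zr_adm (hx : x ∈ ch.baseF ν κ F.B) : zr Tᶜ x ∈ ch.adm ν κ (F.kos T) :=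
  ⟨hx, fun j hj _ _ => ⟨0, fun u _ μ => by rw [zr_X_mem x (T := Tᶜ) hj]; simp⟩, fun _ _ => trivial,
    fun _ hj => zr_X_mem x hj, fun _ hj _ =>
      (fld_of_zero (x := (zr Tᶜ x).2) (p_mem_crv hx.2.1 _) (zr_X_mem x hj)).trans
        (fld_of_zero (x := (zr Tᶜ x).2) (p_mem_crv hx.2.1 _) (zr_X_mem x hj)).symm⟩

theorem zr_sol (hx : x ∈ ch.baseF ν κ F.B) : zr Tᶜ x ∈ ch.solF ν κ (F.kos T) ↔
    ∀ j ∈ T, ∀ c ∈ crv x.2, (∃ y, Val x.2 j c y) ∧ fld x.2 c j ≠ 0 := by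
  have a : ∀ c ∈ crv x.2, ∀ j ∈ T, fld (zr Tᶜ x).2 c j = fld x.2 c j := fun c hc j hj =>
    (congrFun (fld_zr x hc) j).trans (zc_not _ (not_not.2 hj))
  refine mem_solF.trans ⟨fun h j hj c hc => ⟨val_zr x (T := Tᶜ) (not_not.2 hj) ▸ (h.2 c hc).1 j,
    a c hc j hj ▸ ((Fam.mem_cone _).1 (h.2 c hc).2).2.1 j hj⟩, fun h => ⟨hx, fun c hc =>
      ⟨fun j => ?_, (Fam.mem_cone _).2 ⟨⟨hx.1, trivial, fun j hj =>
        fld_of_zero (x := (zr Tᶜ x).2) hc (zr_X_mem x hj)⟩,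
        fun j hj => (a c hc j hj).trans_ne (h j hj c hc).2, fun k => k.elim⟩⟩⟩⟩
  by_cases hj : j ∈ T
  · exact (val_zr x (T := Tᶜ) (not_not.2 hj)).symm ▸ (h j hj c hc).1
  · exact (zr_adm hx).2.1 j hj c hc

/-- the domain of the Koszul equations -/
def cK (F : Fam S Λ R J K) (T : Set J) : Set (ch.WF ν κ Λ) :=
  ch.main κ F 0 ∩ zr Tᶜ ⁻¹' ch.dom ν κ (F.kos T) Empty.elim

theorem secT_cK (hx : x ∈ ch.secT ν κ F T) : x ∈ cK F T :=
  ⟨hx.1, mem_dom ((zr_sol hx.1.1.1).2 hx.2) (zr_adm hx.1.1.1)⟩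

theorem cK_open (h : ch.Std F e K₀ ℓ) (T : Set J) :
    ∃ U, IsOpen U ∧ cK F T = (ch.main κ F 0 : Set (ch.WF ν κ Λ)) ∩ U :=
  let ⟨U, a, b⟩ := (h.kos T).dom_open (ν := ν) (κ := κ)
  ⟨zr Tᶜ ⁻¹' U, a.preimage (ContinuousLinearMap.continuous _), Set.ext fun _ => and_congr_right fun hx =>
    ⟨fun c => (b.le c).2, fun c => b.ge ⟨zr_adm hx.1.1, c⟩⟩⟩

theorem reg_kdK (h : ch.Std F e K₀ ℓ) (hl : IsLocallyClosed (ch.main κ F (0 : ν → J → ℕ))) :
    ∃ v, (ch.kdK ν κ F T).Reg (actF F.toWt) (ch.secT ν κ F T ∩ cK F T) (ch.main κ F 0) (cK F T) v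
      (ch.rk (F.kos T) ℓ univ).toNat := by
  obtain ⟨v, k⟩ := (h.kos T).ok (ν := ν) (κ := κ)
  obtain ⟨U, a, b⟩ := cK_open (ν := ν) (κ := κ) h T
  refine ⟨v, inter_subset_right, ⟨U, a, b⟩, fun s hs x hx => ⟨actF_mem_main h.inv hs hx.1, ?_⟩,
    b ▸ hl.inter a.isLocallyClosed, fun x hx => ((h.kos T).zero hx.2).trans
      ((zr_sol hx.1.1.1).trans ⟨fun c => ⟨⟨hx.1, c⟩, hx⟩, fun c => c.1.2⟩),
    k.pb (MonoidHom.id _) continuous_id (fun _ => rfl) (ContinuousLinearMap.continuous _).continuousOn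
      (fun _ hx => hx.2) fun x _ s _ => zr_actF x F.toWt s⟩
  rw [mem_preimage, zr_actF]
  exact actF_mem_dom (h.kos T).inv hs hx.2

/-- on `secT` the base fields of `F.bas T` are sections -/
theorem exists_bs' (hx : x ∈ ch.secT ν κ F T) {z : ch.Pt} (hz : z ∈ gr x.2) :
    ∃ y, (x.1, y) ∈ (F.bas T).bs ∧ ∀ j ∉ (F.bas T).mov, yv x.2 z j = y j • tvZ z.1 j := by
  have hc : z.1 ∈ crv x.2 := ⟨z, hz, rfl⟩
  refine ⟨fld x.2 z.1, ⟨hx.1.1.1.1, hx.1.1.2.2.1 _ hc, fun j hj =>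
    fld_of_zero hc (hx.1.1.2.2.2.1 j hj)⟩, fun j hj => LinearMap.ext (val_fld ?_ z.2 hz)⟩
  by_cases h : j ∈ T
  · exact (hx.2 j h _ hc).1
  · exact hx.1.1.2.1 j (fun a => hj ⟨a, h⟩) _ hc

theorem cone_lim' [l.NeBot] (h : ch.Std F e K₀ ℓ) {x : α → ch.WF ν κ Λ}
    (hx : ∀ᶠ a in l, (x a).2 ∈ ch.base _ ∧ ∀ z ∈ gr (x a).2, ∃ y, ((x a).1, y) ∈ F.bs ∧
      ∀ j ∉ F.mov, yv (x a).2 z j = y j • tvZ z.1 j) (h0 : x₀ ∈ ch.solF ν κ F)
    (h1 : Tendsto x l (𝓝 x₀)) {c : α → ℂ} {f : α → ch.P K}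
    (hf : ∀ᶠ a in l, f a ∈ vanM F e (x a))
    (h2 : Tendsto (fun a => c a • sctF F e (x a) + f a) l (𝓝 w)) : w ∈ obsM F e x₀ := by
  have p : ∀ᶠ a in l, c a • sctF F e (x a) + f a ∈ ch.polF F e :=
    hf.mono fun _ b => add_mem (Submodule.smul_mem _ _ (h.fits.sctF_mem _)) b.1
  have p0 : w ∈ ch.polF F e := isClosed_polS.mem_of_tendsto h2 p
  refine mem_obsM.2 ⟨p0, fun z₀ hz => ?_⟩
  obtain ⟨z, a, b⟩ := h.cuts.exists_gr (hx.mono fun _ b => b.1) h0.2.1 h1.snd_nhds hz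
  obtain ⟨y₀, c1, c2⟩ := exists_cone h0 hz
  refine h.fits.cone_pt h.inv h.reg h1 b hz.1 c2 c1 ((hx.and a).mono fun _ c => c.1.2 _ c.2)
    (r := c) ((tendsto_evZ p p0 h2 b).congr' ((hf.and a).mono fun _ d => ?_))
  simp only [map_add, map_smul, (mem_vanM.1 d.1).2 _ d.2, add_zero]

/-- the obstruction theory relative to the fields in `T`, without their matching conditions -/
theorem ok_bas (h : ch.Std F e K₀ ℓ) (hT : F.Tor T) :
    ∃ v, (ch.kd ν κ (F.bas T) e).Ok (actF F.toWt) (ch.secT ν κ F T ∩ ch.dom ν κ F e) v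
      (ch.rk (F.bas T) ℓ K₀).toNat := by
  obtain ⟨v, k⟩ := h.ok (ν := ν) (κ := κ)
  have k := k.mono (inter_subset_right (s := ch.secT ν κ F T))
  have g := h.bas hT
  refine ⟨v, k.fin, k.rep, k.fam, k.mem, k.cont, k.eqv,
    isClosed_of_closure_subset fun z hz => ?_, fun x hx b => ?_,
    fun _ _ _ _ hs _ => obsM_actF g.inv hs, fun _ _ _ => vanM_le_obsM, fun _ _ _ => inf_le_left,
    fun x hx b w y c u d1 d2 d3 => cone_lim' g
      (.of_forall fun n => ⟨(d1 n).1.1.1.1.2.1, fun _ => exists_bs' (d1 n).1⟩) (hx.2.2 b) d2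
      (.of_forall d3)⟩
  · have b := closure_minimal (fun _ c => And.left c) ((h.cuts.isClosed_zero (F := F) (e := e)
      (O := ch.secT ν κ F T ∩ ch.dom ν κ F e) fun _ b => b.2.1.1.2.1).preimage continuous_fst) hz
    obtain ⟨l, c, d⟩ := mem_closure_iff_ultrafilter.1 hz
    exact ⟨b, g.cuts.obs_lim (l := l) (x := fun y => y.1.1) g.inv g.reg g.fits
      (mem_of_superset c fun y c => y.1.2.2.2 c.1) (z.1.2.2.2 b)
      (((continuous_subtype_val.comp continuous_fst).tendsto z).mono_left d)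
      (mem_of_superset c fun _ c => c.2) ((continuous_snd.tendsto z).mono_left d)⟩
  · have a1 := finrank_obsM g.inv g.reg g.fits g.wt g.cuts.ne (hx.2.2 b)
    have a2 := g.rk_nonneg (hx.2.2 b)
    have a3 : finrank ℂ (vanM (F.bas T) e x) = v := k.fam.rank x hx
    change finrank ℂ (obsM (F.bas T) e x) = _
    omega

theorem reg_bas (h : ch.Std F e K₀ ℓ) (hT : F.Tor T) (hi : Ivt (actF F.toWt) (ch.secT ν κ F T))
    (hl : IsLocallyClosed (ch.secT ν κ F T)) :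
    ∃ v, (ch.kd ν κ (F.bas T) e).Reg (actF F.toWt) (ch.solF ν κ F ∩ ch.main κ F 0) (ch.secT ν κ F T)
      (ch.secT ν κ F T ∩ ch.dom ν κ F e) v (ch.rk (F.bas T) ℓ K₀).toNat := by
  obtain ⟨v, k⟩ := ok_bas (ν := ν) (κ := κ) h hT
  obtain ⟨U, a, b⟩ := h.dom_open (ν := ν) (κ := κ)
  have c : ch.secT ν κ F T ∩ ch.dom ν κ F e = ch.secT ν κ F T ∩ U := by
    rw [b, ← inter_assoc, inter_eq_left.2 (show ch.secT ν κ F T ⊆ _ from fun _ d => d.1.1)]
  exact ⟨v, fun x hx => ⟨sol_secT hT hx, mem_dom hx.1 hx.2.1⟩, ⟨U, a, c⟩,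
    fun s hs x hx => ⟨hi s hs x hx.1, actF_mem_dom h.inv hs hx.2⟩, c ▸ hl.inter a.isLocallyClosed,
    fun x hx => (h.zero hx.2).trans (and_iff_left hx.1.1).symm, k⟩

theorem BT_mem {j : J} (h : j ∈ T) : (BT Tᶜ Empty.elim w).1 j = w.1 j := if_neg (not_not.2 h)

theorem BT_not {j : J} (h : j ∉ T) : (BT Tᶜ Empty.elim w).1 j = 0 := if_pos h

theorem BT_pol (h : w ∈ ch.polF F e) : BT Tᶜ Empty.elim w ∈ ch.polF (F.kos T) Empty.elim := by
  refine mem_polS.2 ⟨fun j => ?_, fun k => k.elim⟩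
  by_cases hj : j ∈ T
  · exact mem_of_eq_of_mem (BT_mem hj) ((mem_polS.1 h).1 j)
  · exact mem_of_eq_of_mem (BT_not hj) (zero_mem _)

theorem BT_van (h : w ∈ ch.polF F e) : BT Tᶜ Empty.elim w ∈ vanM (F.kos T) Empty.elim (zr Tᶜ x) ↔
    ∀ z ∈ gr x.2, ∀ j ∈ T, w.1 j z = 0 := by
  refine mem_vanM.trans ((and_iff_right (BT_pol h)).trans (forall₂_congr fun z _ =>
    ⟨fun a j hj => (congrFun (BT_mem hj) z).symm.trans (congrFun (congrArg Prod.fst a) j),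
      fun a => Prod.ext (funext fun j => ?_) (funext fun k => k.elim)⟩))
  by_cases hj : j ∈ T
  · exact (congrFun (BT_mem hj) z).trans (a j hj)
  · exact congrFun (BT_not hj) z

theorem BT_sct : BT Tᶜ Empty.elim (sctF F e x) = sctF (F.kos T) Empty.elim (zr Tᶜ x) := by
  refine Prod.ext (funext fun j => ?_) (funext fun k => k.elim)
  by_cases hj : j ∈ T
  · refine (BT_mem hj).trans (funext₂ fun z m => ?_)
    change _ = _ * z.2 (some j) ((zr Tᶜ x).2.X j m.1) - _ * z.2 (some j) ((zr Tᶜ x).2.X j m.2)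
    rw [zr_X_not x (T := Tᶜ) (not_not.2 hj)]
    rfl
  · refine (BT_not hj).trans (funext₂ fun z m => ?_)
    change _ = _ * z.2 (some j) ((zr Tᶜ x).2.X j m.1) - _ * z.2 (some j) ((zr Tᶜ x).2.X j m.2)
    rw [zr_X_mem x (T := Tᶜ) hj]
    simp

theorem lin_BT : (ch.kd ν κ F e).Lin (ch.kdK ν κ F T) id id O (BT Tᶜ Empty.elim) where
  mem _ := BT_pol
  eqv s _ w _ := Prod.ext (funext fun j => by
    by_cases hj : j ∈ T
    · refine (BT_mem hj).trans (funext₂ fun z m => ?_)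
      change _ = (_ • (BT Tᶜ Empty.elim w).1 j) _ _
      rw [BT_mem hj]
      rfl
    · refine (BT_not hj).trans (funext₂ fun z m => ?_)
      change _ = (_ • (BT Tᶜ Empty.elim w).1 j) _ _
      rw [BT_not hj, smul_zero]
      rfl) (funext fun k => k.elim)
  van _ _ _ hw := (BT_van hw.1).2 fun z hz j _ =>
    congrFun (congrArg Prod.fst ((mem_vanM.1 hw).2 z hz)) j
  sec _ _ := mem_of_eq_of_mem (sub_eq_zero.2 BT_sct) (zero_mem _)
  obs x _ _ w hw := by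
    classical
    refine mem_obsM.2 ⟨BT_pol hw.1, fun z hz => ?_⟩
    obtain ⟨Y, -, b⟩ := (mem_obsM.1 hw).2 z hz
    refine ⟨fun j => if j ∈ T then Y j else 0, fun j hj => if_neg hj,
      Prod.ext (funext fun j => ?_) (funext fun k => k.elim)⟩
    change kos _ (if j ∈ T then Y j else 0) = (BT Tᶜ Empty.elim w).1 j z
    by_cases hj : j ∈ T
    · rw [if_pos hj, BT_mem hj]
      exact congrFun (congrArg Prod.fst b) j
    · rw [if_neg hj, BT_not hj]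
      exact funext fun m => kos_zero m

theorem obs_bas_le : obsM (F.bas T) e x ≤ obsM F e x := fun _ hw =>
  mem_obsM.2 ⟨hw.1, fun z hz =>
    let ⟨Y, a, b⟩ := (mem_obsM.1 hw).2 z hz
    ⟨Y, fun j hj => a j fun c => hj c.1, b⟩⟩

theorem lin_bas : (ch.kd ν κ (F.bas T) e).Lin (ch.kd ν κ F e) id id O LinearMap.id :=
  ⟨fun _ a => a, fun _ _ _ _ => rfl, fun _ _ _ a => a,
    fun _ _ => mem_of_eq_of_mem (sub_self _) (zero_mem _), fun _ _ _ _ a => obs_bas_le a⟩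

theorem BT_obs_bas (hw : w ∈ obsM (F.bas T) e x) :
    BT Tᶜ Empty.elim w ∈ vanM (F.kos T) Empty.elim (zr Tᶜ x) :=
  (BT_van (F := F) (e := e) hw.1).2 fun z hz j hj => by
    obtain ⟨Y, a, b⟩ := (mem_obsM.1 hw).2 z hz
    refine (congrFun (congrArg Prod.fst b) j).symm.trans (funext fun m => ?_)
    change kos _ (Y j) m = 0
    rw [a j fun c => c.2 hj]
    exact kos_zero m

/-- exactness in the middle -/
theorem obs_bas (h : ch.Fits F e) (hT : F.Tor T) (hx : x ∈ ch.solF ν κ F) (hw : w ∈ obsM F e x)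
    (h0 : BT Tᶜ Empty.elim w ∈ vanM (F.kos T) Empty.elim (zr Tᶜ x)) : w ∈ obsM (F.bas T) e x := by
  refine mem_obsM.2 ⟨hw.1, fun z hz => ?_⟩
  obtain ⟨Y, a, b⟩ := (mem_obsM.1 hw).2 z hz
  obtain ⟨y, c1, c2⟩ := exists_cone hx hz
  choose m hm using tvZ_ne (ch := ch) hz.1
  obtain ⟨η, d1, d2⟩ := hT.tan _ c1 fun j => Y j (m j) / tvZ z.1 j (m j)
  obtain ⟨d3, d4⟩ := Fam.mem_vert.1 d1
  refine ⟨Y - fun j => η j • (pd F e x z).tv j, fun j hj => ?_, ?_⟩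
  · change Y j - η j • tvZ z.1 j = 0
    by_cases k : j ∈ T
    · rw [d2 j k, sub_eq_zero]
      exact eq_of_kos (hm j) fun n => congrFun ((congrFun (congrArg Prod.fst b) j).trans
        ((BT_van hw.1).1 h0 z hz j k)) (n, m j)
    · have k' : j ∉ F.mov := fun c => hj ⟨c, k⟩
      rw [a j k', d3 j k', zero_smul, sub_zero]
  · change (pd F e x z).dEq pwT _ = _
    rw [map_sub, (h.rel c2).dEq_tv d3, b, show (fun k => ∑ j, F.jac (x.1, y) k j * η j) = 0 from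
      funext d4, map_zero, sub_zero]

theorem kdT_mem (q : κ) {j : J} (h : j ∈ T) : (ch.kdT ν κ F T).s x q j =
    fld x.2 (x.2.p (.inr (q, false))) j - fld x.2 (x.2.p (.inr (q, true))) j :=
  zc_not _ (not_not.2 h)

theorem kdT_not (q : κ) {j : J} (h : j ∉ T) : (ch.kdT ν κ F T).s x q j = 0 := zc_mem _ h

theorem kdT_zero : (ch.kdT ν κ F T).s x ∈ (ch.kdT ν κ F T).van x ↔ ∀ q, ∀ j ∈ T,
    fld x.2 (x.2.p (.inr (q, false))) j = fld x.2 (x.2.p (.inr (q, true))) j := by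
  refine (Submodule.mem_bot ℂ).trans ⟨fun a q j hj =>
    sub_eq_zero.1 ((kdT_mem q hj).symm.trans (congrFun₂ a q j)), fun a => funext₂ fun q j => ?_⟩
  by_cases hj : j ∈ T
  · exact (kdT_mem q hj).trans (sub_eq_zero.2 (a q j hj))
  · exact kdT_not q hj

theorem cont_fld (n : Mk ν κ) {j : J} (h : j ∈ T) :
    ContinuousOn (fun x : ch.WF ν κ Λ => fld x.2 (x.2.p n) j) (ch.secT ν κ F T) := fun x hx =>
  haveI := mem_closure_iff_nhdsWithin_neBot.1 (subset_closure hx)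
  have a : Tendsto id (𝓝[ch.secT ν κ F T] x) (𝓝 x) := tendsto_id.mono_left nhdsWithin_le_nhds
  (lim_fld hx.1.1.1.2.1.1 a (((W.pL (ch := ch) n).continuous.tendsto _).comp a.snd_nhds)
    (p_mem_crv hx.1.1.1.2.1 n) (eventually_nhdsWithin_of_forall fun _ b =>
      ⟨p_mem_crv b.1.1.1.2.1 n, (b.2 j h _ (p_mem_crv b.1.1.1.2.1 n)).1⟩)).2

/-- the matching conditions for the fields in `T` are Kuranishi data -/
theorem ok_kdT (h : ch.Std F e K₀ ℓ) :
    (ch.kdT ν κ F T).Ok (actF F.toWt) (ch.secT ν κ F T) 0 (Fintype.card κ * T.ncard) := by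
  have a : ContinuousOn (ch.kdT ν κ F T).s (ch.secT ν κ F T) :=
    continuousOn_pi.2 fun q => continuousOn_pi.2 fun j => by
      by_cases hj : j ∈ T
      · exact ((cont_fld _ hj).sub (cont_fld _ hj)).congr fun _ _ => kdT_mem q hj
      · exact continuousOn_const.congr fun _ _ => kdT_not q hj
  have b : ∀ x, IsClosed ((ch.kdT ν κ F T).obs x : Set (κ → J → ℂ)) := fun _ =>
    Submodule.closed_of_finiteDimensional _
  refine ⟨inferInstance, (h.ok_kdQ (empty_subset _)).rep, ⟨fun _ _ => bot_le,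
      isClosed_eq continuous_snd continuous_const, fun _ _ => finrank_bot ℂ _,
      fun _ _ _ _ _ hq => funext₂ fun q j => mul_eq_zero_of_right _ (congrFun₂ hq q j)⟩,
    fun _ _ => trivial, a, fun x hx s hs => funext₂ fun q j => ?_,
    (isClosed_eq (a.domRestrict.comp continuous_fst) continuous_const).inter
      ((b 0).preimage continuous_snd),
    fun _ _ _ => (Fam.finrank_pi_univ fun _ => (Fam.finrank_mov T).trans
      (Nat.card_coe_set_eq T)).trans (zero_add _).symm,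
    fun _ _ _ _ _ _ hf q _ j hj => mul_eq_zero_of_right _ (hf q trivial j hj), fun _ _ _ => bot_le,
    fun _ _ _ => le_top, fun x _ _ w y c u _ _ h3 h4 => (b x).mem_of_tendsto h4
      (.of_forall fun n => add_mem (Submodule.smul_mem _ _ fun q _ j hj => kdT_not q hj)
        (mem_of_eq_of_mem (h3 n) (zero_mem _)))⟩
  change _ = _ * (ch.kdT ν κ F T).s x q j
  by_cases hj : j ∈ T
  · have c := fun n => p_mem_crv hx.1.1.1.2.1 n
    rw [kdT_mem q hj, kdT_mem q hj, fld_actF_p hs (c _) (hx.2 j hj _ (c _)).1,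
      fld_actF_p hs (c _) (hx.2 j hj _ (c _)).1, mul_sub]
    rfl
  · rw [kdT_not q hj, kdT_not q hj, mul_zero]

/-- the components in `T` -/
noncomputable def BQ (κ : Type) (T : Set J) : (κ → J → ℂ) →ₗ[ℂ] κ → J → ℂ := (zc Tᶜ).compLeft κ

theorem BQ_mem (w : κ → J → ℂ) (q : κ) {j : J} (h : j ∈ T) : BQ κ T w q j = w q j :=
  zc_not _ (not_not.2 h)

theorem BQ_not (w : κ → J → ℂ) (q : κ) {j : J} (h : j ∉ T) : BQ κ T w q j = 0 := zc_mem _ h

theorem lin_BQ : (ch.kdQ ν κ F).Lin (ch.kdT ν κ F T) id id O (BQ κ T) where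
  mem _ _ := trivial
  eqv s _ w _ := funext₂ fun q j => by
    change _ = _ * BQ κ T w q j
    by_cases hj : j ∈ T
    · rw [BQ_mem _ q hj, BQ_mem _ q hj]
      rfl
    · rw [BQ_not _ q hj, BQ_not _ q hj, mul_zero]
  van _ _ _ hw := (congrArg _ hw).trans (map_zero _)
  sec _ _ := sub_self _
  obs _ _ _ w _ q _ _ hj := BQ_not w q hj

theorem lin_kdQ : (ch.kdQ ν κ (F.bas T)).Lin (ch.kdQ ν κ F) id id O LinearMap.id :=
  ⟨fun _ a => a, fun _ _ _ _ => rfl, fun _ _ _ a => a, fun _ _ => sub_self _,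
    fun _ _ _ _ a q _ => Fam.mem_vert.2 ((Fam.mem_vert.1 (a q trivial)).imp_left
      fun b j hj => b j fun c => hj c.1)⟩

theorem BQ_obs_bas {w : κ → J → ℂ} (hw : w ∈ (ch.kdQ ν κ (F.bas T)).obs x) : BQ κ T w = 0 :=
  funext₂ fun q j => by
    by_cases hj : j ∈ T
    · exact (BQ_mem w q hj).trans ((Fam.mem_vert.1 (hw q trivial)).1 j fun c => c.2 hj)
    · exact BQ_not w q hj

theorem srj_BQ (hT : F.Tor T) (hO : O ⊆ ch.solF ν κ F) :
    (ch.kdQ ν κ F).Srj (ch.kdT ν κ F T) id O (BQ κ T) := fun x hx w hw => by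
  choose η a b using fun q => hT.tan _ (vl_mem (hO hx) (.inr (q, false))) (w q)
  refine ⟨η, fun q _ => a q, sub_eq_zero.2 (funext₂ fun q j => ?_)⟩
  by_cases hj : j ∈ T
  · exact (BQ_mem η q hj).trans (b q j hj)
  · exact (BQ_not η q hj).trans (hw q trivial j hj).symm

end MCut

end Ch

end Vale.Agent.P269
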