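import Vale.Agent.P269.Map.UpD
import Vale.Agent.P269.Map.GyB
import Vale.Agent.P269.Map.CutA
import Vale.Agent.P269.Map.Eq0

set_option linter.unusedSectionVars false
set_option linter.style.haveILetI false

/-!
# Determined fields and the matched solutions
-/

namespace Vale.Agent.P269

open P291Z Set Function Topology Filter Base Holo

variable {S Λ R J K K' ι ν κ : Type} [Fintype S] [Fintype Λ] [Fintype R] [Fintype J] [Fintype K]
  [Fintype K'] [Fintype ι] [DecidableEq ι] [Fintype ν] [Fintype κ]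

namespace Fam.Det

variable {F : Fam S Λ R J K} {F' : Fam S Λ R J K'} {T : Set J} {φ : K → K'} (h : F.Det F' T φ)
  {l : Λ → ℂ} {y η : J → ℂ}
include h

theorem sum_jac (k : K) :
    ∑ j, F'.jac (l, y) (φ k) j * η j = ∑ j, F.jac (l, zc T y) k j * zc T η j := by
  refine (Vir.hasDerivAt_eval _ _ _).unique ((Vir.hasDerivAt_eval _ _ _).congr_of_eventuallyEq
    (.of_forall fun ε => ?_))
  simp only [fib, h.G, MvPolynomial.eval_eq']
  exact Finset.sum_congr rfl fun β hβ => congrArg _ (prod_pow_congr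
    (h.free k β (MvPolynomial.support_map_subset _ _ hβ)) fun i a => by rw [zc_not y a, zc_not η a])

theorem vert_zc (a : η ∈ F'.vert (l, y)) : zc T η ∈ F.vert (l, zc T y) :=
  mem_vert.2 ⟨fun j b => by
    by_cases c : j ∈ T
    exacts [zc_mem η c, (zc_not η c).trans ((mem_vert.1 a).1 j ((Ch.det_not h).2 ⟨b, c⟩))],
    fun k => (h.sum_jac k).symm.trans ((mem_vert.1 a).2 _)⟩

theorem vert_inj (hy : (l, y) ∈ F'.cone) (a : η ∈ F'.vert (l, y)) (b : zc T η = 0) : η = 0 := by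
  classical
  have c : ∀ j ∉ T, η j = 0 := fun j c => (zc_not η c).symm.trans (congrFun b j)
  refine funext fun j => by_contra fun d => ?_
  have e : j ∈ T := by_contra fun e => d (c j e)
  obtain ⟨k, q⟩ := h.dq e
  refine mul_ne_zero (q.ne _ hy) d (((Finset.sum_eq_single j (fun i _ f => ?_) (by simp)).symm.trans
    ((mem_vert.1 a).2 k)))
  by_cases g : i ∈ T
  · rw [jac, MvPolynomial.pderiv_eq_zero_of_notMem_vars fun a =>
      let ⟨β, b, c⟩ := (MvPolynomial.mem_vars_iff_mem_support _).1 a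
      Finsupp.mem_support_iff.1 c (q.sup β (MvPolynomial.support_map_subset _ _ b) i g f),
      map_zero, zero_mul]
  · rw [c i g, mul_zero]

theorem vert_srj (hF : F.Inv) (hy : (l, y) ∈ F'.cone) (a : η ∈ F.vert (l, zc T y)) :
    ∃ η' ∈ F'.vert (l, y), zc T η' = η := by
  obtain ⟨a1, a2⟩ := mem_vert.1 a
  have b : ∀ {η'}, (∀ j ∉ T, η' j = η j) → zc T η' = η := fun {η'} e => funext fun j => by
    by_cases c : j ∈ T
    exacts [(zc_mem η' c).trans (a1 j (disjoint_left.1 hF.zer_base (h.sub c))).symm,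
      (zc_not η' c).trans (e j c)]
  obtain ⟨η', c1, c2⟩ := h.tan _ hy η a1 fun k => by rw [h.sum_jac, b fun _ _ => rfl, a2]
  exact ⟨η', mem_vert.2 ⟨fun j d => (c1 j ((Ch.det_not h).1 d).2).trans
    (a1 j ((Ch.det_not h).1 d).1), c2⟩, b c1⟩

end Fam.Det

namespace Ch

variable {ch : Ch ι J} {F : Fam S Λ R J K} {F' : Fam S Λ R J K'} {T : Set J} {φ : K → K'}
  {e : K' → ι → ℕ} {K₀ : Set K} {K₀' : Set K'} {ℓ : R → ι → ℤ} {x : ch.WF ν κ Λ}

theorem vl_zr (hx : x.2 ∈ ch.base _) (n : Mk ν κ) : vl (zr T x) n = (x.1, zc T (vl x n).2) :=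
  Prod.ext rfl (fld_zr x (p_mem_crv hx n))

section det

variable (h : F.Det F' T φ) (hs' : ch.Std F' e K₀' ℓ)
include h hs'

theorem det_dia (hx : x ∈ ch.solF ν κ F') : Dia (zr T x) ↔ Dia x := by
  have _ := hs'
  refine forall_congr' fun q => ?_
  rw [vl_zr hx.1.2.1, vl_zr hx.1.2.1]
  refine ⟨fun a => Prod.ext rfl (funext fun j => ?_), fun a => by rw [a]⟩
  have b := (Prod.ext_iff.1 a).2
  by_cases c : j ∈ T
  · obtain ⟨k, d⟩ := h.dq c
    exact (d.val c (vl_mem hx _)).2.trans ((congrArg (fun y => -F'.eqn (x.1, y) k /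
      F'.jac (x.1, y) k j) b).trans (d.val c (vl_mem hx _)).2.symm)
  · exact (zc_not _ c).symm.trans ((congrFun b j).trans (zc_not _ c))

theorem det_bijM : BijOn (zr T) (ch.zM ν κ F') (ch.zM ν κ F) :=
  ⟨fun _ a => ⟨det_maps h a.1, (det_main h hs'.inv).1 a.2⟩, (det_injOn h).mono inter_subset_left,
    fun _ a => let ⟨y, b, c⟩ := det_surjOn h hs' a.1
      ⟨y, ⟨b, (det_main h hs'.inv).2 (c ▸ a.2)⟩, c⟩⟩

theorem det_bijD : BijOn (zr T) (ch.zD ν κ F') (ch.zD ν κ F) :=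
  ⟨fun _ a => ⟨(det_bijM h hs').mapsTo a.1, (det_dia h hs' a.1.1).2 a.2⟩,
    (det_bijM h hs').injOn.mono inter_subset_left, fun _ a =>
      let ⟨y, b, c⟩ := (det_bijM h hs').surjOn a.1
      ⟨y, ⟨b, (det_dia h hs' b.1).1 (c ▸ a.2)⟩, c⟩⟩

theorem det_eqD : EqM (actF F.toWt) (actF F.toWt) (ch.zD ν κ F') (ch.zD ν κ F) id (zr T) :=
  .same (det_bijD h hs').mapsTo continuous_kill.continuousOn fun s _ _ _ => kill_actF s

open Classical in
/-- **determined fields do not change the virtual class of the matched solutions** -/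
theorem det_isD (hs : ch.Std F (fun k => e (φ k)) K₀ ℓ) (hr : ch.rk F' ℓ K₀' = ch.rk F ℓ K₀ +
      ∑ j with j ∈ T, Module.finrank ℂ (ch.Th j) * ch.eu fun i => ch.a (some j) i)
    (hl : IsLocallyClosed (ch.main κ F (0 : ν → J → ℕ)))
    [Nice (Quo (actF F.toWt) (ch.zD ν κ F))] {w : BM (Quo (actF F.toWt) (ch.zD ν κ F))}
    (hw : IsD F (fun k => e (φ k)) (actF F.toWt) _ w) :
    IsHomeomorph (det_eqD (ν := ν) (κ := κ) h hs').map ∧
      IsD F' e (actF F.toWt) _ (res (det_eqD h hs').map w) := by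
  obtain ⟨d, -, -, v, hv, ⟨k, -⟩, rfl⟩ := hw
  haveI := k.isAct
  haveI := k.nice
  obtain ⟨m, a, d', b⟩ : ∃ m : EqM (actF F.toWt) (actF F.toWt)
      (ch.solF ν κ F' ∩ ch.main κ F' (0 : ν → J → ℕ)) (ch.zM ν κ F) id (zr T), IsHomeomorph m.map ∧
      ∃ d', (ch.kd ν κ F' e).IsW (actF F.toWt) _ (ch.main κ F' 0) d' (res m.map v) := by
    rw [show ch.main κ F' (0 : ν → J → ℕ) = zr T ⁻¹' ch.main κ F 0 from
      Set.ext fun _ => det_main h hs'.inv]
    exact ⟨_, det_isW h hs hs' hr (fun _ a => a.1) (fun _ a _ => actF_mem_main hs.inv a) hl hv⟩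
  have k₀ := hs.gd_kdQ (fun _ a => ⟨a.1, a.2.1⟩) k.orb
  obtain ⟨_, _, _, g, -⟩ := id b
  have k₁ : (ch.kdQ ν κ F').Gd (actF F.toWt) (ch.zD ν κ F') (ch.zM ν κ F') 0
      (Fintype.card κ * F'.dv K₀') := by
    have a : ∀ W, F'.toWt = W → ∀ [IsAct (actF W) (ch.zM ν κ F')],
        Orb.Orb (ch.AF ν κ S)ˣ (Holo.Sp (actF W) (ch.zM ν κ F')) → (ch.kdQ ν κ F').Gd (actF W)
          (ch.zD ν κ F') (ch.zM ν κ F') 0 (Fintype.card κ * F'.dv K₀') := by
      rintro _ rfl _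
      exact hs'.gd_kdQ fun _ a => ⟨a.1, a.2.1⟩
    exact @a _ h.wt g.isActZ g.orbZ
  have hL : (ch.kdQ ν κ F').Lin (ch.kdQ ν κ F) (ContinuousLinearMap.id ℂ _) (zr T) (ch.zM ν κ F')
      ((zc T).compLeft κ) :=
    ⟨fun _ _ => trivial, fun s _ w _ => funext₂ fun q j => by
      change zc T _ j = _ * zc T _ j
      by_cases f : j ∈ T
      · rw [zc_mem _ f, zc_mem _ f, mul_zero]
      · rw [zc_not _ f, zc_not _ f, ← h.wt]
        rfl,
      fun _ _ _ a => mem_of_eq_of_mem ((congrArg _ a).trans (map_zero _)) (zero_mem _),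
      fun x hx => mem_of_eq_of_mem (sub_eq_zero.2 (funext fun q => by
        simp only [vl_zr hx.1.1.2.1]; exact map_sub (zc T) _ _)) (zero_mem _),
      fun x hx _ w hw q _ => (congrArg F.vert (vl_zr hx.1.1.2.1 _)).ge (h.vert_zc (hw q trivial))⟩
  have hi : (ch.kdQ ν κ F').Inj (ch.kdQ ν κ F) (zr T) (ch.zD ν κ F') ((zc T).compLeft κ) :=
    fun x hx w hw a => funext fun q => h.vert_inj (vl_mem hx.1.1 _) (hw q trivial) (congrFun a q)
  obtain ⟨p, q⟩ := k₁.vr_pull k₀ (θ := .id ℂ _) ⟨rfl, fun _ _ => rfl, surjective_id,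
      fun b a => ⟨b, a, rfl⟩, m.maps, fun x _ => ⟨_, (zr T).analyticAt x, .of_forall fun _ => rfl⟩,
      m.eqv, fun x hx y hy a => ⟨1, isUnit_one, rfl, (g.isActZ.one x hx).trans
        (det_injOn h hx.1 hy.1 a)⟩, fun _ _ _ _ a _ => a⟩ hL hi
    (k₁.rank_eq k₀ m.maps hL hi fun x hx w hw => by
      choose η a1 a2 using fun q => h.vert_srj hs.inv (vl_mem hx.1.1 _)
        ((congrArg F.vert (vl_zr hx.1.1.2.1 _)).le (hw q trivial))
      exact ⟨η, fun q _ => a1 q, sub_eq_zero.2 (funext a2)⟩)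
    (det_bijD h hs').mapsTo a.isOpenEmbedding (fun _ => rfl) (Φ := (det_eqD h hs').map) fun _ => rfl
  refine ⟨⟨p.continuous, p.isOpenMap, p.injective, fun z => Quot.inductionOn z fun y => ?_⟩,
    d', _, _, _, b, k₁, q v⟩
  obtain ⟨x, a1, a2⟩ := (det_bijD h hs').surjOn y.2
  exact ⟨Quo.mk _ ⟨x, a1⟩, congrArg (Quo.mk _) (Subtype.ext a2)⟩

end det

section cone

variable (hW : F'.toWt = F.toWt) (hθ : F'.θ = F.θ) (hB : F'.B = F.B) (hE : F'.E = F.E)
  (hm : F'.mov = F.mov) (hz : F'.zer = F.zer) (hc : F'.cone = F.cone)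
include hW hθ hB hE hm hz hc

theorem zD_of_cone : ch.zD ν κ F' = ch.zD ν κ F := by
  cases F'
  subst hW hθ hB hE hm hz
  exact congrArg (· ∩ _ ∩ _) (Fam.solF_eqs hc)

/-- **other equations** -/
theorem IsD.of_cone {e₀ : K → ι → ℕ} (hs : ch.Std F e₀ K₀ ℓ) (hs' : ch.Std F' e K₀' ℓ)
    {Z : Set (ch.WF ν κ Λ)} {w : BM (Quo (actF F.toWt) Z)} (hw : IsD F e₀ (actF F.toWt) Z w) :
    IsD F' e (actF F.toWt) Z w := by
  cases F'
  subst hW hθ hB hE hm hz
  exact hs.eqs_isD hs' hc hw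

end cone

end Ch

end Vale.Agent.P269
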