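import Vale.Agent.P269.Map.UpD
import Vale.Agent.P269.Bas.Lv

set_option linter.unusedSectionVars false
set_option linter.style.haveILetI false

/-!
# The main stratum of the absolute theory
-/

namespace Vale.Agent.P269

open P291Z Set Function Topology Filter Base Holo

variable {S Λ R J K ι ν κ : Type} [Fintype S] [Fintype Λ] [Fintype R] [Fintype J] [Fintype K]
  [Fintype ι] [DecidableEq ι] [Fintype ν] [Fintype κ]

namespace Ch

variable {ch : Ch ι J} {F : Fam S Λ R J K} {e : K → ι → ℕ} {K₀ : Set K} {ℓ : R → ι → ℤ} {b : ℕ}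
  {x : ch.WF ν κ Λ} {U : Set (ch.WF ν κ Λ)}

theorem mem_main_zero' (hx : x ∈ ch.adm ν κ F) : x ∈ ch.main κ F (0 : ν → J → ℕ) ↔
    ∀ j ∉ F.mov, j ∉ F.zer → ∀ c ∈ crv x.2, fld x.2 c j ≠ 0 := by
  have a : ∀ j ∉ F.mov, ∀ γ, IsBranch ch.o (crv x.2) γ →
      (analyticOrderAt (fun t => fld x.2 (γ t) j) 0 = 0 ↔ fld x.2 (γ 0) j ≠ 0) := fun j hj γ b =>
    (an_fld hx.1.2.1 (hx.2.1 j hj) b).analyticOrderAt_eq_zero
  refine (and_iff_right hx).trans (forall₃_congr fun j hj _ => ⟨fun h c hc => ?_, fun h γ b => ?_⟩)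
  · obtain ⟨γ, l⟩ := hx.1.2.1.2.2.1.nod.exists_loc hc
    rw [← l.zero true]
    exact (a j hj _ (l.br true)).1 (by simpa using h _ (l.br true))
  · simpa using (a j hj γ b).2 (h _ b.mem.self_of_nhds)

/-- sections without zeros form an open set -/
theorem NdA.eventually_ne (h0 : ∀ n, Surjective (x.2.Q n)) {j : J}
    (h : ∀ c ∈ crv x.2, fld x.2 c j ≠ 0) : ∀ᶠ y in 𝓝 x, (∀ c ∈ crv y.2, ∃ a, Val y.2 j c a) →
      ∀ c ∈ crv y.2, fld y.2 c j ≠ 0 := by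
  refine mem_iff_ultrafilter.2 fun U hU => by_contra fun hn => ?_
  obtain ⟨z, hz⟩ := ((Ultrafilter.eventually_not.2 hn).mono fun y b =>
    show ∃ z : ch.Pt, z ∈ gr y.2 ∧ (∀ c ∈ crv y.2, ∃ a, Val y.2 j c a) ∧ fld y.2 z.1 j = 0 from
      by_contra fun c => b fun a _ ⟨z, hz, e⟩ f => c ⟨z, hz, a, e ▸ f⟩).choice
  have h1 : Tendsto id U (𝓝 x) := hU
  obtain ⟨t, z₀, a, b, c⟩ := exists_lim_gr U h0 h1.snd_nhds (hz.mono fun _ b => b.1)
  have d := (lim_fld h0 h1 c.fst_nhds ⟨z₀, b, rfl⟩ (j := j) (hz.mono fun y e =>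
    ⟨⟨_, tz_mem e.1 (a y), rfl⟩, e.2.1 _ ⟨_, tz_mem e.1 (a y), rfl⟩⟩)).2
  exact h _ ⟨z₀, b, rfl⟩ (tendsto_nhds_unique_of_eventuallyEq d tendsto_const_nhds
    (hz.mono fun y e => (Cv.fld_eq (x := y.2) ⟨_, tz_mem e.1 (a y), rfl⟩
      ((val_fld (e.2.1 _ ⟨_, e.1, rfl⟩)).smul (a y))).trans (mul_eq_zero_of_right _ e.2.2)))

theorem NdA.eventually_main (hx : x ∈ ch.main κ F (0 : ν → J → ℕ)) :
    ∀ᶠ y in 𝓝 x, y ∈ ch.adm ν κ F → y ∈ ch.main κ F (0 : ν → J → ℕ) := by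
  have a : ∀ j, ∀ᶠ y in 𝓝 x, j ∉ F.mov → j ∉ F.zer → (∀ c ∈ crv y.2, ∃ a, Val y.2 j c a) →
      ∀ c ∈ crv y.2, fld y.2 c j ≠ 0 := fun j => eventually_imp_distrib_left.2 fun b =>
    eventually_imp_distrib_left.2 fun c =>
      NdA.eventually_ne hx.1.1.2.1.1 ((mem_main_zero' hx.1).1 hx j b c)
  exact (eventually_all.2 a).mono fun y b c =>
    (mem_main_zero' c).2 fun j d f => b j d f (c.2.1 j d)

theorem NdA.main_open (F : Fam S Λ R J K) :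
    ∃ U, IsOpen U ∧ ch.main κ F (0 : ν → J → ℕ) = ch.adm ν κ F ∩ U :=
  ⟨interior {y | y ∈ ch.adm ν κ F → y ∈ ch.main κ F (0 : ν → J → ℕ)}, isOpen_interior,
    Set.ext fun _ => ⟨fun a => ⟨a.1, mem_interior_iff_mem_nhds.2 (NdA.eventually_main a)⟩,
      fun a => interior_subset a.2 a.1⟩⟩

theorem Cuts.main_open (hc : ch.Cuts) (F : Fam S Λ R J K) :
    ∃ U, IsOpen U ∧ ch.main κ F (0 : ν → J → ℕ) = ch.adm ν κ F ∩ U :=
  have _ := hc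
  NdA.main_open F

theorem Num₀.lc_main (hN : Num₀ ch) (hF : F.Inv) (hB : F.Sm b) :
    IsLocallyClosed (ch.main κ F (0 : ν → J → ℕ)) := by
  obtain ⟨U, a, c⟩ := NdA.main_open (ch := ch) (ν := ν) (κ := κ) F
  rw [c, hN.cuts.adm_eq hF]
  exact ((isLocallyClosed_of_mfd fun x => (hN.mfd_baseF hB x.2).imp fun _ c => c.2.2).inter
    isClosed_closure.isLocallyClosed).inter a.isLocallyClosed

theorem Cuts.sol_cyc (hc : ch.Cuts) (hF : F.Inv)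
    (hne : ∀ j ∉ F.mov, j ∉ F.zer → ∀ z ∈ F.cone, z.2 j ≠ 0) :
    ch.solF ν κ F ∩ ch.cyc κ F (0 : ν → J → ℕ) = ch.zM ν κ F :=
  Set.ext fun _ => and_congr_right fun a => ⟨fun b => (mem_main_zero' (hc.cyc_subset_adm hF _ b)).2
    fun j c d _ f => hne j c d _ ((mem_solF.1 a).2 _ f).2, fun b => ⟨subset_closure b, b.1.1⟩⟩

variable {act : ch.AF ν κ S → ch.WF ν κ Λ → ch.WF ν κ Λ} {Z : Set (ch.WF ν κ Λ)}
  {w w' : BM (Quo act Z)}

theorem IsD.unique (hw : IsD F e act Z w) (hw' : IsD F e act Z w') : w = w' := by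
  obtain ⟨_, _, _, v, a, -, rfl⟩ := hw
  obtain ⟨_, _, _, v', a', -, rfl⟩ := hw'
  rw [a.unique' a']

theorem IsD.nice (hw : IsD F e act Z w) : Nice (Quo act Z) :=
  let ⟨_, _, _, _, _, k, _⟩ := hw
  k.niceZ

theorem IsD.gz (hs : ch.Std F e K₀ ℓ) {w : BM (Quo (actF F.toWt) Z)}
    (hw : IsD F e (actF F.toWt) Z w) : GZ F ℓ Z :=
  let ⟨_, _, _, _, _, k, _⟩ := hw
  haveI := k.isActZ
  hs.gz (fun _ a => (k.dom.sub a).1) (fun _ a => (k.dom.sub a).2.1) k.orbZ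

theorem IsD.reE {E U : Set ((Λ → ℂ) × (J → ℂ))}
    (h1 : ch.solF ν κ (F.reE E U) = ch.solF ν κ F)
    (h2 : ch.main κ (F.reE E U) (0 : ν → J → ℕ) = ch.main κ F 0) :
    IsD (F.reE E U) e act Z w ↔ IsD F e act Z w := by
  unfold IsD
  rw [h1, h2]
  rfl

end Ch

end Vale.Agent.P269
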