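import Vale.Agent.P269.Map.UpD
import Vale.Agent.P269.Map.Psi
import Vale.Agent.P269.Map.Ind

set_option linter.unusedSectionVars false
set_option linter.style.haveILetI false

/-!
# Projections of charts: points and classes
-/

namespace Vale.Agent.P269

open P291Z Set Function Topology Filter Base Holo

variable {S Λ R R' J J' K ι ι' ν κ : Type} [Fintype S] [Fintype Λ] [Fintype R] [Fintype R']
  [Fintype J] [Fintype J'] [Fintype K] [Fintype ι] [DecidableEq ι] [Fintype ι'] [DecidableEq ι']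
  [Fintype ν] [Fintype κ]

namespace Ch

variable {ch' : Ch ι' J'} {D : ch'.Res ι J} {L : D.Lnk} {W : Wt S Λ R' J'} {x : ch'.WF ν κ Λ}
  {Z' Z₀' : Set (ch'.WF ν κ Λ)} {Z Z₁ : Set (D.ch.WF ν κ Λ)} {ℓ : R → ι → ℤ} {ℓ' : R' → ι' → ℤ}

theorem RepD.zr {A T : Set J'} {m : AM Λ R' J' ν κ} {B π u s} (h : RepD ℓ' A x m B π u s) :
    RepD ℓ' (A \ T) (zr T x) m B π u s :=
  ⟨h.l, h.cr.setX _, h.mark, h.L, fun j hj y μ =>
    (congrArg (fun X => u y (some j) (X μ)) (zr_X_not x hj.2)).trans (h.ind j hj.1 y μ)⟩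

/-- the projection of a point that represents an abstract map -/
theorem RepD.res (hc : D.ch.Cuts) (hx : L.Dom x.2) {A : Set J'} {m : AM Λ R' J' ν κ} {B π u s}
    (h : RepD ℓ' A x m B π u s) (h1 : ∀ j, L.n j ≠ 0 → j ∈ A ∧ m.y j = 1) {Ls : R → Cv.LB m.R}
    (hL : ∀ r, Cv.Eqv (Cv.bz (fun i => B (D.σ i)) (ℓ r)) (Ls r)) :
    RepD ℓ (D.φ ⁻¹' A) (L.fF x) (m.res Ls D.φ) (fun i => B (D.σ i)) (fun y => rV D.σ (π y))
      (fun y l => u y (D.τ l)) fun n i => s n (D.σ i) := by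
  have a := hx.cr hc h.cr
  rw [show (fun y => (m.sg ^ ch'.k) y ^ L.r * ∏ j, fld x.2 (π y) j ^ L.n j) = m.sg ^ D.k from
    funext fun y => by
      rw [Finset.prod_eq_one fun j _ => ?_, mul_one, L.k_eq, Pi.pow_apply, Pi.pow_apply, ← pow_mul,
        mul_comm]
      by_cases e : L.n j = 0
      · rw [e, zpow_zero]
      · rw [Cv.fld_eq (h.cr.par.mem y) (h.val (h1 j e).1 y), (h1 j e).2, Pi.one_apply, one_zpow]] at a
  exact ⟨h.l, a, fun n => (congrArg (rV D.σ) (h.mark n)).trans (rV_smul _ _), hL,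
    fun j hj y μ => h.ind _ hj y (D.rb j μ)⟩

namespace Res.RC

variable {W₀ : Wt S Λ R J} {f : ch'.WF ν κ Λ → D.ch.WF ν κ Λ} (h : D.RC W W₀ Z' Z f)
include h

theorem mono (e : Z₀' ⊆ Z') (e' : MapsTo f Z₀' Z₁) : D.RC W W₀ Z₀' Z₁ f :=
  ⟨h.toEqM.mono e e', h.wt, fun x a => h.fst x (e a), fun x a => h.rel x (e a),
    fun x a => h.p x (e a), fun x a => h.nod x (e a)⟩

theorem zr {T : Set J'} (hT : ∀ j, D.φ j ∉ T) (e : MapsTo (Ch.zr T) Z₀' Z') :
    D.RC W W₀ Z₀' Z (f ∘ Ch.zr T) :=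
  ⟨h.toEqM.comp (.same e continuous_kill.continuousOn fun s _ x _ => zr_actF x W s), h.wt,
    fun _ a => h.fst _ (e a), fun x a => ⟨fun j μ => ((h.rel _ (e a)).X j μ).trans
      (congrArg (· (D.rb j μ)) (zr_X_not x (hT j))), (h.rel _ (e a)).into, (h.rel _ (e a)).onto⟩,
    fun _ a => h.p _ (e a), fun _ a => (h.nod _ (e a) :)⟩

variable (o' : OZ W Z') (o : OZ W₀ Z)
include o' o

omit o' in
theorem fld_eq' (hx : x ∈ Z') {y : V ch'.M} (hy : y ∈ crv x.2) :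
    fld (f x).2 (rV D.σ y) = fld x.2 y ∘ D.φ :=
  funext fun _ => (h.rel x hx).fld ((o.base _ (h.maps hx)).1 _) hy

theorem fld_eq (hx : x ∈ Z') {y : V ch'.M} (hy : y ∈ crv x.2) :
    fld (f x).2 (rV D.σ y) = fld x.2 y ∘ D.φ := have _ := o'; h.fld_eq' o hx hy

theorem vl_eq (hx : x ∈ Z') (n : Mk ν κ) : vl (f x) n = (x.1, (vl x n).2 ∘ D.φ) :=
  Prod.ext (h.fst x hx) ((congrArg (fld (f x).2) (h.p x hx n)).trans
    (h.fld_eq' o hx (p_mem_crv (o'.base x hx) n)))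

theorem psi (n : Mk ν κ) : hcls (psiF n : Coch (Quo (actF W) Z')) =
    H.map h.toEqM.map (hcls (psiF n : Coch (Quo (actF W₀) Z))) :=
  haveI := o.act
  haveI := o'.act
  (psiF_res o.orb o.cuts o.base o'.orb o'.cuts (fun x a => ⟨o'.base x a, h.nod x a⟩) h.toEqM
    (fun x a => ⟨(h.rel x a).crv, h.p x a⟩) n).trans
      (H.map_hcls _ (psiF_cocycle o.orb o.cuts o.base n)).symm

theorem indC (j : J) : Ch.indC W Z' (D.φ j) =
    PowerSeries.map (Hev.map h.toEqM.map).toRingHom (Ch.indC W₀ Z j) :=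
  haveI := o.act
  haveI := o'.act
  indC_res o.orb o.cuts o.base o'.orb o'.cuts o'.base h.toEqM
    (fun x a => ⟨(h.rel x a).into, (h.rel x a).onto⟩) (h.wt j)

end Res.RC

end Ch

end Vale.Agent.P269
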