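import Vale.Agent.P269.Map.Up
import Vale.Agent.P269.Map.PjA
import Vale.Agent.P269.Map.Tr
import Vale.Agent.P269.Glu.Pcy

set_option linter.unusedSectionVars false
set_option linter.style.haveILetI false

/-!
# Projections of charts
-/

namespace Vale.Agent.P269

open P291Z Set Function Topology Filter Base Holo

variable {S Λ R R' J J' K ι ι' ν κ : Type} [Fintype S] [Fintype Λ] [Fintype R] [Fintype R']
  [Fintype J] [Fintype J'] [Fintype K] [Fintype ι] [DecidableEq ι] [Fintype ι'] [DecidableEq ι']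
  [Fintype ν] [Fintype κ]

namespace Ch

variable {ch' : Ch ι' J'} {D : ch'.Res ι J} {L : D.Lnk} {W : Wt S Λ R' J'} {x : ch'.WF ν κ Λ}
  {Z' Z₀' : Set (ch'.WF ν κ Λ)} {Z Z₁ : Set (D.ch.WF ν κ Λ)} {ℓ : R → ι → ℤ} {ℓ' : R' → ι' → ℤ}

namespace Res.Lnk.Pj

variable {F : Fam S Λ R J K} {c : R → R' → ℤ} {E₀ : Set ((Λ → ℂ) × (J' → ℂ))} {Z₀ : Set J'}
  {e : K → ι' → ℕ} {K₀ : Set K} {b : ℕ} {u' : ν → J' → ℕ} {u : ν → J → ℕ}
  (h : L.Pj F W c E₀ Z₀ e K₀ ℓ ℓ' b)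
include h

theorem fres : D.FRes (F.up W D.φ c E₀ Z₀) e F :=
  ⟨fun j => (h.up.wt j).symm, h.up.wl.symm, rfl, fun _ => rfl, rfl, h.sup⟩

theorem cuts' : ch'.Cuts := ⟨h.num'.a_ne, h.num'.cut⟩

theorem std' : ch'.Std (F.up W D.φ c E₀ Z₀) e K₀ ℓ' := by
  refine ⟨h.up.inv_up h.std.inv, h.up.reg h.std.reg, ⟨⟨ℓ', h.wd⟩, fun k α hα i => ?_,
    fun k a => h.std.fits.ne k (funext fun i => congrFun a _)⟩, h.cuts', h.wd⟩
  obtain ⟨α, a, rfl⟩ := (h.fres.cmp.mem k α).1 hα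
  rw [← sum_map D.φ_inj α fun j => ch'.b j i]
  by_cases hi : i ∈ range D.σ
  · obtain ⟨i, rfl⟩ := hi
    exact h.std.fits.le k α a i
  · exact (Finset.sum_eq_zero fun j _ => by rw [D.sup_b j i hi, mul_zero]).trans_le (Nat.zero_le _)

theorem amb : L.Amb (F.aux W D.φ c E₀ Z₀) (0 : ν → J' → ℕ) :=
  ⟨h.up.inv_aux h.std.inv, rfl, h.nz, fun l y y' a b d j p q k =>
    h.det l y y' a b d j p q fun i hi => k i hi fun _ => rfl, fun _ _ _ => rfl, h.wt⟩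

theorem ivt : Ivt (actF W) (D.TU ν κ F W c E₀ Z₀) := fun _ a _ => h.amb.actF_mem a

theorem ivtB : Ivt (actF F.toWt) (D.ch.baseF ν κ F.B) := fun _ a _ b =>
  actF_mem_baseF a b (h.std.inv.invB _ (isUnit_S a) _ b.1)

theorem dom (hx : x ∈ D.TU ν κ F W c E₀ Z₀) : L.Dom x.2 := h.amb.dom hx

theorem bun : Bun (actF W) (actF F.toWt) (D.TU ν κ F W c E₀ Z₀) (D.ch.baseF ν κ F.B) D.θF L.fF :=
  let ⟨_, _, _, _, _, _, g, a⟩ := h.gr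
  h.amb.bun h.std.cuts h.cuts' (fun j => (h.up.wt j).symm) h.up.wl.symm h.num h.num'
    ⟨g.zer, g.free, g.li, fun _ _ _ _ => rfl, g.an, g.wd, fun _ _ _ _ => by simp, g.E⟩ a h.sm

theorem rc (hZ : Z' ⊆ D.TU ν κ F W c E₀ Z₀) (hm : MapsTo L.fF Z' Z) : D.RC W F.toWt Z' Z L.fF :=
  ⟨h.bun.toEt.eqM.mono hZ hm, fun j => (h.up.wt j).symm, fun _ _ => rfl,
    fun _ a => (h.dom (hZ a)).rel h.std.cuts, fun _ _ _ => rfl, fun _ a => (hZ a).2⟩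

omit h in
theorem mem_TU' (h0 : ∀ n, ∀ j ∉ range D.φ, u' n j = 0)
    (hx : x ∈ ch'.main κ (F.up W D.φ c E₀ Z₀) u') (hn : Nod (D.σ D.o) (crv x.2)) :
    x ∈ D.TU ν κ F W c E₀ Z₀ := by
  obtain ⟨⟨a1, a2, a3, a4, a5⟩, a6⟩ := hx
  refine ⟨⟨⟨a1, fun j hj => a2 j fun a => hj (image_subset_range _ _ a), fun y hy => (a3 y hy).1,
    fun j hj => a4 j (.inr hj), fun j hj => a5 j fun a => hj (image_subset_range _ _ a)⟩,
    fun j hj hz γ hγ => ?_⟩, hn⟩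
  rw [a6 j (fun a => hj (image_subset_range _ _ a))
    (fun a => a.elim (fun a => hj (image_subset_range _ _ a)) hz) γ hγ]
  simp only [h0 _ j hj, Pi.zero_apply]

theorem mem_TU (h0 : ∀ n, ∀ j ∉ range D.φ, u' n j = 0)
    (hx : x ∈ ch'.main κ (F.up W D.φ c E₀ Z₀) u') (hn : Nod (D.σ D.o) (crv x.2)) :
    x ∈ D.TU ν κ F W c E₀ Z₀ := have _ := h; mem_TU' h0 hx hn

/-- near a point of the domain the main stratum is contained in the domain -/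
theorem eventually_TU (h0 : ∀ n, ∀ j ∉ range D.φ, u' n j = 0) (hx : x ∈ D.TU ν κ F W c E₀ Z₀) :
    ∀ᶠ y in 𝓝 x, y ∈ ch'.main κ (F.up W D.φ c E₀ Z₀) u' → y ∈ D.TU ν κ F W c E₀ Z₀ :=
  (continuous_snd.continuousAt.eventually (eventually_nod h.cuts' hx.1.1.1.2.1 hx.2)).mono
    fun _ a b => mem_TU' h0 b (a b.1.1.2.1)

section pt

variable (hx : x ∈ D.TU ν κ F W c E₀ Z₀)
include hx

theorem crv_f : crv (L.fF x).2 = rV D.σ '' crv x.2 := (h.dom hx).crv_f h.std.cuts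

theorem fld_f {y : V ch'.M} (hy : y ∈ crv x.2) : fld (L.fF x).2 (rV D.σ y) = fld x.2 y ∘ D.φ :=
  funext ((h.dom hx).fld_f h.std.cuts hy)

theorem fld_p (n : Mk ν κ) : fld (L.fF x).2 ((L.fF x).2.p n) = fld x.2 (x.2.p n) ∘ D.φ :=
  h.fld_f hx (p_mem_crv hx.1.1.1.2.1 n)

theorem vl_f (n : Mk ν κ) : vl (L.fF x) n = (x.1, (vl x n).2 ∘ D.φ) := Prod.ext rfl (h.fld_p hx n)

theorem ex_val {y : V ch'.M} (hy : y ∈ crv x.2) {j : J} :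
    (∃ a, Val (L.fF x).2 j (rV D.σ y) a) ↔ ∃ a, Val x.2 (D.φ j) y a :=
  exists_congr fun _ => (h.dom hx).val_iff h.std.cuts hy

omit h in
theorem fld_ne {j : J'} (hj : j ∉ range D.φ) (hz : j ∉ Z₀) {y : V ch'.M} (hy : y ∈ crv x.2) :
    fld x.2 y j ≠ 0 := by
  obtain ⟨X, _, _, _, Q, N, A, π, v, p, ξ, k⟩ := Cv.exists_cr hx.1.1.1.2.1
  obtain ⟨y, t, a, rfl⟩ := (k.par.img y).1 hy
  rw [k.fld_smul (FibP.ind_fld k (hx.1.1.2.1 j hj)) y a]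
  exact mul_ne_zero (prod_zpow_ne a _) (FibP.fld_ne hx.1 k hj hz fun _ _ => rfl)

theorem mem_adm : x ∈ ch'.adm ν κ (F.up W D.φ c E₀ Z₀) ↔ L.fF x ∈ D.ch.adm ν κ F := by
  have m : ∀ {j}, D.φ j ∈ D.φ '' F.mov ↔ j ∈ F.mov := D.φ_inj.mem_set_image
  obtain ⟨b1, b2, b3, b4, b5⟩ := hx.1.1
  refine ⟨fun ⟨_, a2, a3, a4, a5⟩ => ⟨h.bun.maps hx, fun j hj => ?_, ?_, fun j hj => ?_,
    fun j hj q => ?_⟩, fun ⟨_, a2, a3, a4, a5⟩ => ⟨b1, fun j hj y hy => ?_, fun y hy =>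
      ⟨b3 y hy, h.fld_f hx hy ▸ a3 _ ((h.crv_f hx).ge ⟨y, hy, rfl⟩)⟩, ?_, fun j hj q => ?_⟩⟩
  · rw [h.crv_f hx, forall_mem_image]
    exact fun y hy => (h.ex_val hx hy).2 (a2 _ (mt m.1 hj) y hy)
  · rw [h.crv_f hx, forall_mem_image]
    exact fun y hy => (h.fld_f hx hy).symm ▸ (a3 y hy).2
  · exact ContinuousLinearMap.ext fun μ => congrArg (· (D.rb j μ)) (a4 _ (.inl ⟨j, hj, rfl⟩))
  · rw [h.fld_p hx, h.fld_p hx]
    exact a5 _ (mt m.1 hj) q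
  · by_cases g : j ∈ range D.φ
    · obtain ⟨j, rfl⟩ := g
      exact (h.ex_val hx hy).1 (a2 j (mt m.2 hj) _ ((h.crv_f hx).ge ⟨y, hy, rfl⟩))
    · exact b2 j g y hy
  · rintro _ (⟨j, hj, rfl⟩ | hj)
    · exact ContinuousLinearMap.ext ((D.rb j).surjective.forall.2 fun μ => congrArg (· μ) (a4 j hj))
    · exact b4 _ hj
  · by_cases g : j ∈ range D.φ
    · obtain ⟨j, rfl⟩ := g
      have := a5 j (mt m.2 hj) q
      rwa [h.fld_p hx, h.fld_p hx] at this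
    · exact b5 j g q

open Classical in
theorem ord_iff (hu : ∀ n j, u' n (D.φ j) = u n j) {γ' : ℂ → V ch'.M} {γ : ℂ → V D.ch.M}
    (a : IsBranch ch'.o (crv x.2) γ') (g : ∀ᶠ z in 𝓝 0, γ z = rV D.σ (γ' z)) (j : J) :
    analyticOrderAt (fun t => fld x.2 (γ' t) (D.φ j)) 0 = (∑ n, if ∃ s : ι' → ℂ,
      γ' 0 = s • x.2.p (.inl n) then u' n (D.φ j) else 0 : ℕ) ↔
    analyticOrderAt (fun t => fld (L.fF x).2 (γ t) j) 0 = (∑ n, if ∃ s : ι → ℂ,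
      γ 0 = s • (L.fF x).2.p (.inl n) then u n j else 0 : ℕ) := by
  rw [analyticOrderAt_congr (f := fun t => fld x.2 (γ' t) (D.φ j))
    (g := fun t => fld (L.fF x).2 (γ t) j) ((g.and a.mem).mono fun z k =>
    (congrFun (h.fld_f hx k.2) j).symm.trans (congrArg (fld _ · j) k.1.symm)), g.self_of_nhds]
  simp only [hu, ← (h.dom hx).orb_p h.std.cuts a.mem.self_of_nhds]
  rfl

end pt

theorem mem_main (hu : ∀ n j, u' n (D.φ j) = u n j) (h0 : ∀ n, ∀ j ∉ range D.φ, u' n j = 0)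
    (hx : x ∈ D.TU ν κ F W c E₀ Z₀) :
    x ∈ ch'.main κ (F.up W D.φ c E₀ Z₀) u' ↔ L.fF x ∈ D.ch.main κ F u := by
  refine and_congr (h.mem_adm hx) ⟨fun a j hj hz γ hγ => ?_, fun a j hj hz γ hγ => ?_⟩
  · obtain ⟨γ', b, d⟩ := (h.dom hx).lift_branch h.std.cuts hγ
    exact (h.ord_iff hx hu b d j).1 (a _ (mt D.φ_inj.mem_set_image.1 hj)
      (fun g => g.elim (mt D.φ_inj.mem_set_image.1 hz) (h.up.disj j)) γ' b)
  · by_cases g : j ∈ range D.φ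
    · obtain ⟨j, rfl⟩ := g
      exact (h.ord_iff hx hu hγ (.of_forall fun _ => rfl) j).2 (a j (fun g => hj ⟨j, g, rfl⟩)
        (fun g => hz (.inl ⟨j, g, rfl⟩)) _ ((h.dom hx).branch h.std.cuts hγ))
    · rw [hx.1.2 j g (fun k => hz (.inr k)) γ hγ]
      simp only [h0 _ j g, Pi.zero_apply]

theorem mem_solF (hx : x ∈ D.TU ν κ F W c E₀ Z₀) :
    x ∈ ch'.solF ν κ (F.up W D.φ c E₀ Z₀) ↔ L.fF x ∈ D.ch.solF ν κ F := by
  rw [Ch.mem_solF, Ch.mem_solF, h.crv_f hx, forall_mem_image]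
  refine ⟨fun a => ⟨h.bun.maps hx, fun y hy => ⟨fun j => (h.ex_val hx hy).2 ((a.2 y hy).1 _),
    (h.fld_f hx hy).symm ▸ (h.up.mem_cone.1 (a.2 y hy).2).1⟩⟩, fun a => ⟨hx.1.1.1, fun y hy =>
      ⟨fun j => ?_, h.up.mem_cone.2 ⟨h.fld_f hx hy ▸ (a.2 hy).2, hx.1.1.2.2.1 y hy,
        fun j hj => fld_of_zero hy (hx.1.1.2.2.2.1 j hj), fun j g k => fld_ne hx g k hy⟩⟩⟩⟩
  by_cases g : j ∈ range D.φ
  · obtain ⟨j, rfl⟩ := g
    exact (h.ex_val hx hy).1 ((a.2 hy).1 j)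
  · exact hx.1.1.2.1 j g y hy

theorem dia_iff (hx : x ∈ D.TU ν κ F W c E₀ Z₀) : Dia (L.fF x) ↔ Dia x := by
  refine forall_congr' fun q => ?_
  rw [h.vl_f hx, h.vl_f hx]
  refine ⟨fun a => Prod.ext rfl (funext fun j => ?_), fun a => by rw [a]⟩
  by_cases g : j ∈ range D.φ
  · obtain ⟨j, rfl⟩ := g
    exact congrFun (congrArg Prod.snd a) j
  · exact hx.1.1.2.2.2.2 j g q

theorem cyc_eq (hu : ∀ n j, u' n (D.φ j) = u n j) (h0 : ∀ n, ∀ j ∉ range D.φ, u' n j = 0) :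
    D.TU ν κ F W c E₀ Z₀ ∩ L.fF ⁻¹' D.ch.cyc κ F u =
      D.TU ν κ F W c E₀ Z₀ ∩ ch'.cyc κ (F.up W D.φ c E₀ Z₀) u' := by
  have a := h.bun.closure_preimage (M := D.ch.main κ F u) fun _ a => a.1.1
  refine Set.ext fun x => and_congr_right fun hx => ⟨fun b => ⟨closure_mono
    (fun y k => (h.mem_main hu h0 k.1).2 k.2) (a.ge ⟨hx, b.1⟩).1, hx.1.1.1⟩,
    fun b => ⟨(a.le ⟨mem_closure_iff_frequently.2 (((mem_closure_iff_frequently.1 b.1).and_eventually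
      (h.eventually_TU h0 hx)).mono fun y k => ⟨k.2 k.1, (h.mem_main hu h0 (k.2 k.1)).1 k.1⟩),
      hx⟩).2, h.bun.maps hx⟩⟩

theorem lin : (ch'.kd ν κ (F.up W D.φ c E₀ Z₀) e).Lin (D.ch.kd ν κ F (D.e e)) D.θF L.fF
    (D.TU ν κ F W c E₀ Z₀) (D.A K) :=
  ⟨fun _ => h.fres.A_pol, fun _ _ _ a => h.fres.A_ρ a rfl (fun _ => rfl) fun _ => rfl,
    fun _ a _ => h.fres.A_van rfl ((h.dom a).rel h.std.cuts), fun _ a => mem_of_eq_of_mem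
      (sub_eq_zero.2 (h.fres.A_sct rfl ((h.dom a).rel h.std.cuts))) (zero_mem _),
    fun _ a _ _ => h.fres.A_obs rfl ((h.dom a).rel h.std.cuts)⟩

/-- **the obstruction theories agree** -/
theorem pl {S' : Set (D.ch.WF ν κ Λ)} (hA : S' ⊆ D.ch.adm ν κ F) (hi : Ivt (actF F.toWt) S')
    (hl : IsLocallyClosed S') :
    KD.Pl (ch'.kd ν κ (F.up W D.φ c E₀ Z₀) e) (D.ch.kd ν κ F (D.e e)) (actF W) (actF F.toWt)
      (D.TU ν κ F W c E₀ Z₀) (D.ch.baseF ν κ F.B) D.θF L.fF (D.A K)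
      (ch'.solF ν κ (F.up W D.φ c E₀ Z₀) ∩ (D.TU ν κ F W c E₀ Z₀ ∩ L.fF ⁻¹' S'))
      (D.TU ν κ F W c E₀ Z₀ ∩ L.fF ⁻¹' S') (D.ch.solF ν κ F ∩ S') S' := by
  have a : Ivt (actF W) (D.TU ν κ F W c E₀ Z₀ ∩ L.fF ⁻¹' S') := fun s hs x hx =>
    ⟨h.ivt s hs x hx.1, pre_of_eq (h.bun.eqv s hs x hx.1) (hi _ (h.bun.isUnit hs) _ hx.2)⟩
  have b : S' ⊆ D.ch.baseF ν κ F.B := fun _ k => (hA k).1
  obtain ⟨n, k⟩ := h.std'.regS (fun x hx => (h.mem_adm hx.1).2 (hA hx.2)) a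
    (h.bun.lc h.ivt h.ivtB b hl)
  obtain ⟨n', k'⟩ := h.std.regS hA hi hl
  exact ⟨h.bun, h.ivt, h.ivtB, a, hi, b, fun _ _ => .of_forall fun _ => Iff.rfl,
    ⟨_, _, _, k, h.lin.mono inter_subset_right⟩, ⟨_, _, _, k'⟩,
    fun x hx => ⟨(h.mem_solF hx.2.1).1 hx.1, hx.2.2⟩,
    fun x hx _ => h.fres.A_inj rfl ((h.dom hx.2.1).rel h.std.cuts), fun x hx w hw =>
      let ⟨f, a, b⟩ := h.fres.A_obs_surj rfl ((h.dom hx.2.1).rel h.std.cuts) hw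
      ⟨f, a, mem_of_eq_of_mem (sub_eq_zero.2 b) (zero_mem _)⟩⟩

variable (hn : ∀ x ∈ ch'.zM ν κ (F.up W D.φ c E₀ Z₀), Nod (D.σ D.o) (crv x.2))
include hn

omit h in
theorem zM_sub : ch'.zM ν κ (F.up W D.φ c E₀ Z₀) ⊆ D.TU ν κ F W c E₀ Z₀ := fun x hx =>
  mem_TU' (fun _ _ _ => rfl) hx.2 (hn x hx)

theorem zM_eq : ch'.solF ν κ (F.up W D.φ c E₀ Z₀) ∩ (D.TU ν κ F W c E₀ Z₀ ∩
    L.fF ⁻¹' D.ch.main κ F 0) = ch'.zM ν κ (F.up W D.φ c E₀ Z₀) :=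
  have a := fun x => h.mem_main (x := x) (u' := 0) (u := 0) (fun _ _ => rfl) fun _ _ _ => rfl
  Set.ext fun x => ⟨fun hx => ⟨hx.1, (a x hx.2.1).2 hx.2.2⟩,
    fun hx => ⟨hx.1, zM_sub hn hx, (a x (zM_sub hn hx)).1 hx.2⟩⟩

theorem rcD : D.RC W F.toWt (ch'.zD ν κ (F.up W D.φ c E₀ Z₀)) (D.ch.zD ν κ F) L.fF :=
  h.rc (fun _ a => zM_sub hn a.1) fun _ a =>
    have b := zM_sub hn a.1
    ⟨⟨(h.mem_solF b).1 a.1.1, ((h.zM_eq hn).ge a.1).2.2⟩, (h.dia_iff b).2 a.2⟩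

/-- **the virtual class of the matched solutions is pulled back** -/
theorem isD (hl : IsLocallyClosed (D.ch.main κ F (0 : ν → J → ℕ)))
    [Nice (Quo (actF F.toWt) (D.ch.zD ν κ F))] {w : BM (Quo (actF F.toWt) (D.ch.zD ν κ F))}
    (hw : IsD F (D.e e) (actF F.toWt) _ w) : IsOpenEmbedding (h.rcD hn).toEqM.map ∧
      IsD (F.up W D.φ c E₀ Z₀) e (actF W) _ (res (h.rcD hn).toEqM.map w) := by
  obtain ⟨d, -, -, v, hv, ⟨k, -⟩, rfl⟩ := hw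
  have P := h.pl (fun _ a => a.1) (fun _ a _ => actF_mem_main h.std.inv a) hl
  rw [h.zM_eq hn] at P
  haveI := k.isAct
  haveI := k.nice
  obtain ⟨a, b⟩ := P.isW (Φ := P.et.map) (fun _ => rfl) hv
  have k₀ := h.std.gd_kdQ (fun _ a => ⟨a.1, a.2.1⟩) k.orb
  obtain ⟨_, _, _, g, -⟩ := id b
  haveI := g.isActZ
  have k₁ := h.std'.gd_kdQ (fun _ a => ⟨a.1, a.2.1⟩) g.orbZ
  obtain ⟨p, q⟩ := k₁.vr_pull k₀ P.et (B := (LinearMap.funLeft ℂ ℂ D.φ).compLeft κ)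
    ⟨fun _ _ => trivial, fun s _ w _ => funext₂ fun q j => congrArg₂ (· * · * w q (D.φ j))
      (congrArg (fun t => ∏ i, s.1 i ^ t i) (h.up.wt j))
      ((congrArg (fun t => ∏ i, s.2.2.2 (.inr q) i ^ t i) (D.psh_wd j).symm).trans
        (prod_psh D.σ_inj _ _)),
      fun _ _ _ a => mem_of_eq_of_mem ((congrArg _ a).trans (map_zero _)) (zero_mem _),
      fun x hx => mem_of_eq_of_mem (sub_eq_zero.2 (funext fun q => by
        simp only [h.vl_f (zM_sub hn hx)]; rfl)) (zero_mem _),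
      fun x hx _ w hw q _ => (congrArg F.vert (h.vl_f (zM_sub hn hx) _)).ge
        (h.up.mem_vert.1 (hw q trivial)).2⟩
    (fun x hx w hw a => funext₂ fun q j => by
      by_cases g : j ∈ range D.φ
      · obtain ⟨j, rfl⟩ := g
        exact congrFun₂ a q j
      · exact (h.up.mem_vert.1 (hw q trivial)).1 j g)
    (fun _ => by rw [h.up.dv]) (h.rcD hn).maps a (fun _ => rfl) (Φ := (h.rcD hn).toEqM.map)
    fun _ => rfl
  exact ⟨p, d, _, _, _, b.congr P.invS (fun _ a _ => actF_mem_main h.std'.inv a) fun x hx =>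
    (h.eventually_TU (u' := 0) (fun _ _ _ => rfl) (zM_sub hn hx)).mono fun y a =>
      ⟨fun b => (h.mem_main (fun _ _ => rfl) (fun _ _ _ => rfl) b.1).2 b.2, fun b =>
        ⟨a b, (h.mem_main (fun _ _ => rfl) (fun _ _ _ => rfl) (a b)).1 b⟩⟩, k₁, q v⟩

end Res.Lnk.Pj

end Ch

end Vale.Agent.P269
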