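import Vale.Agent.P269.Map.PN
import Vale.Agent.P269.Pt.Bnd

set_option linter.unusedSectionVars false

/-!
# Abstract maps for two presentations
-/

namespace Vale.Agent.P269

open P291Z Set Function Topology Filter Base Holo MvPolynomial Pc Cv

variable {S Λ R R' J J' K K' I ν κ : Type} [Fintype S] [Fintype Λ] [Fintype R] [Fintype R']
  [Fintype J] [Fintype J'] [Fintype K] [Fintype K'] [Fintype I] [Fintype ν] [Fintype κ]
  [DecidableEq R] [DecidableEq R'] [DecidableEq I] {F : Fam S Λ R J K} {F' : Fam S Λ R' J' K'}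
  {P : PD Λ R R' J J' I} {m : AM Λ R J ν κ} {m' : AM Λ R' J' ν κ} {g : ℤ} {d : R → ℤ}

/-- **stability does not depend on the polarisation** -/
theorem AM.Sol.stable_iff (hF : F.Good) (h : m.Sol F) : m.Stable F.θ ↔ ∀ x,
    (∀ r, degOn (m.L r) (connectedComponent x) = 0) → 1 ≤ degOn m.ω (connectedComponent x) := by
  obtain ⟨θ₀, N, hA⟩ := hF.ample
  refine (ge_iff_comp zero_le_one).trans (forall_congr' fun x => ?_)
  rw [degOn_mul]
  by_cases a : ∀ r, degOn (m.L r) (connectedComponent x) = 0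
  · simp [degOn_bz, a]
  · have b := h.degOn_θ hA (not_forall.1 a)
    have c := (degOn_K_ge (R := m.R) (exists_comp (R := m.R) x).1 isConnected_connectedComponent).1
    have e := degOn_K_le_omega (R := m.R) m.N m.P (connectedComponent x)
    rw [← AC.degOn_ω] at e
    exact ⟨fun _ k => (a k).elim, fun _ => by omega⟩

namespace Ext

/-- a homogeneous polynomial in the fields is a section -/
theorem evz_mem {W : Wt S Λ R J} (hm : m.Sec W) {p : MvPolynomial J (MvPolynomial Λ ℂ)}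
    {χ : R → ℤ} (hp : ∀ α ∈ p.support, ∀ i, ∑ j, α j * W.w j i = χ i) :
    (fun z => evz (m.vl z) p) ∈ H0 m.N (bz m.L χ) := by
  have e : (fun z => evz (m.vl z) p) =
      ∑ α ∈ p.support, eval m.l (coeff α p) • ∏ j, m.y j ^ α j := funext fun z => by
    rw [evz, eval_map, eval₂_eq']
    simp only [Finset.sum_apply, Pi.smul_apply, Finset.prod_apply, Pi.pow_apply, smul_eq_mul, AM.vl]
  exact e ▸ Submodule.sum_mem _ fun α a => Submodule.smul_mem _ _ (Cpt.mon_mem hm (hp α a))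

theorem evz_one (z : (Λ → ℂ) × (J → ℂ)) : evz z 1 = 1 := by simp [evz]

theorem evz_X (z : (Λ → ℂ) × (J → ℂ)) (j : J) : evz z (X j) = z.2 j := by simp [evz]

theorem bz_smul_sum {α : Type} [Fintype α] {c : AC ν κ} (A : R → LB c.R) (a : α → ℤ)
    (v : α → R → ℤ) : bz A (∑ x, a x • v x) = bz (fun x => bz A (v x)) a := by
  simp only [bz_sum, bz_smul]
  rfl

/-- **the normal form of a point of the larger cone** -/
theorem pt (h : P.Ok F F') {z : (Λ → ℂ) × (J' → ℂ)} (hz : z ∈ F'.cone) :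
    (z.1, fun j => z.2 (P.φ j) * (∏ i, z.2 (P.s i) ^ P.vn (F'.w (P.φ j)) i)⁻¹) ∈ F.cone ∧
    z = F'.actT (1, fun r => ∏ i, z.2 (P.s i) ^ P.nn r i) (evσ P.σ
      (z.1, fun j => z.2 (P.φ j) * (∏ i, z.2 (P.s i) ^ P.vn (F'.w (P.φ j)) i)⁻¹)) := by
  have n := h.ne_s hz
  obtain ⟨t', a, z₀, b, e⟩ := (h.cone z).1 hz
  set t : R' → ℂ := fun r => ∏ i, z.2 (P.s i) ^ P.nn r i with ht
  have c : ∀ r, t r ≠ 0 := fun r => prod_zpow_ne n _
  have k : ∀ v : R' → ℤ, ∏ r, t r ^ v r = ∏ i, z.2 (P.s i) ^ P.vn v i :=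
    fun v => prod_prod_zpow n _ v
  have u : IsUnit (t⁻¹ * t') := (isUnit_pi_iff.2 fun r => inv_ne_zero (c r)).mul a
  have f := h.act_evσ u (fun i => by
    have := congrFun (congrArg Prod.snd e) (P.s i)
    simp only [Wt.actT, evσ, h.σ_s, evz_one, Pi.one_apply, one_zpow, Finset.prod_const_one, one_mul,
      mul_one] at this
    rw [prod_zpow_mul, ← this]
    simp only [Pi.inv_apply, inv_zpow, Finset.prod_inv_distrib, k, h.vn_s]
    rw [Finset.prod_eq_single i (fun j _ o => by simp [o]) (by simp), Pi.single_eq_same, zpow_one,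
      inv_mul_cancel₀ (n i)]) z₀
  have b' := h.inv.cone_act (t := (1, fun r => ∏ r', (t⁻¹ * t') r' ^ P.c r r')) (Prod.isUnit_iff.2
    ⟨isUnit_one, isUnit_pi_iff.2 fun r => prod_zpow_ne (isUnit_pi_iff.1 u) _⟩) b
  generalize F.actT (1, fun r => ∏ r', (t⁻¹ * t') r' ^ P.c r r') z₀ = z₁ at f b'
  have e' : z = F'.actT (1, t) (evσ P.σ z₁) := by
    rw [← f, ← Wt.actT_mul, Prod.mk_mul_mk, one_mul, ← mul_assoc,
      show t * t⁻¹ = 1 from funext fun r => mul_inv_cancel₀ (c r), one_mul]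
    exact e
  have o : (z.1, fun j => z.2 (P.φ j) * (∏ i, z.2 (P.s i) ^ P.vn (F'.w (P.φ j)) i)⁻¹) = z₁ := by
    refine Prod.ext ((congrArg Prod.fst e').trans (F'.actL_one _)) (funext fun j => ?_)
    have := congrFun (congrArg Prod.snd e') (P.φ j)
    simp only [Wt.actT, evσ, h.σ_φ, evz_X, Pi.one_apply, one_zpow, Finset.prod_const_one, one_mul,
      k] at this
    exact (mul_inv_eq_iff_eq_mul₀ (prod_zpow_ne n _)).2 (this.trans (mul_comm _ _))
  rw [o]
  exact ⟨b', e'⟩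

/-- the monomials in the links are isomorphisms of line bundles -/
theorem mon_mem (h : P.Ok F F') (hm : m'.Sol F') (v : R' → ℤ) :
    (fun z => ∏ i, m'.y (P.s i) z ^ P.vn v i) ∈
      H0 m'.N (bz m'.L v / bz (fun r => bz m'.L (P.c r)) (P.vM v)) := by
  have e := congrArg (bz m'.L) (h.dec v)
  rw [bz_add, bz_smul_sum, bz_smul_sum] at e
  rw [e, mul_div_cancel_left]
  exact bz_mem (c := fun z i => m'.y (P.s i) z) (fun i => hm.2.1 _)
    (fun z i => h.ne_s (hm.2.2 z) i) _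

end Ext

namespace PD

theorem bz_ext (v : R' → ℤ) : bz (m.ext P.M P.σ).L v = bz m.L (P.vM v) := bz_bz m.L P.M v

theorem ext_vl (z : m.X) : (m.ext P.M P.σ).vl z = evσ P.σ (m.vl z) := rfl

theorem ext_typ (h : m.Typ g d) : (m.ext P.M P.σ).Typ g (P.dM d) :=
  ⟨h.1, fun r => h.deg_bz (P.M r)⟩

theorem ext_mt (h : ∀ j, m.Mt (m.y j)) (j : J') :
    (m.ext P.M P.σ).Mt ((m.ext P.M P.σ).y j) := fun q =>
  congrArg (fun y => evz (m.l, y) (P.σ j)) (funext fun j => h j q)

theorem jm_res₁ : (P.jm m).res m.L y1 = m := rfl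

theorem jm_res₂ : (P.jm m).res (m.ext P.M P.σ).L y2 = m.ext P.M P.σ := rfl

theorem jm_mt (h : ∀ j, m.Mt (m.y j)) (j : JP J J' R) : (P.jm m).Mt ((P.jm m).y j) := by
  rcases j with (j | j) | o | b
  exacts [h j, ext_mt h j, fun _ => rfl, fun _ => rfl]

namespace Ok

variable (h : P.Ok F F')
include h

theorem _root_.Vale.Agent.P269.Ext.bz_c (r : R) : bz (m.ext P.M P.σ).L (P.c r) = m.L r :=
  (bz_ext _).trans ((congrArg (bz m.L) (h.cM r)).trans ((bz_single _ _ _).trans (zpow_one _)))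

theorem ext_sol (hm : m.Sol F) : (m.ext P.M P.σ).Sol F' :=
  ⟨h.B ▸ hm.1, fun j => (bz_ext (P := P) (m := m) (F'.w j)).symm ▸
    Ext.evz_mem hm.2.1 (h.hom_σ j).hom, fun z => h.evσ_mem (hm.2.2 z)⟩

theorem typ_of_ext (hm : (m.ext P.M P.σ).Typ g (P.dM d)) : m.Typ g d :=
  ⟨hm.1, fun r => (congrArg deg (Ext.bz_c h r)).symm.trans ((hm.deg_bz _).trans (h.c_dM d r))⟩

theorem ext_stable (hF : F.Good) (hF' : F'.Good) (hm : m.Sol F) :
    (m.ext P.M P.σ).Stable F'.θ ↔ m.Stable F.θ := by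
  refine ((h.ext_sol hm).stable_iff hF').trans ((forall_congr' fun x => imp_congr_left
    ⟨fun a r => ?_, fun a r => (degOn_bz m.L _ _).trans (Finset.sum_eq_zero fun r' _ =>
      mul_eq_zero_of_right _ (a r'))⟩).trans (hm.stable_iff hF).symm)
  exact (congrArg (degOn · _) (Ext.bz_c h r)).symm.trans ((degOn_bz _ _ _).trans
    (Finset.sum_eq_zero fun r' _ => mul_eq_zero_of_right _ (a r')))

/-- **every matched solution of the larger presentation comes from the smaller one** -/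
theorem exists_unext (hm : m'.Sol F') (ht : ∀ j, m'.Mt (m'.y j)) : ∃ m : AM Λ R J ν κ, m.Sol F ∧
    (∀ j, m.Mt (m.y j)) ∧ AM.Iso F'.toWt univ (m.ext P.M P.σ) m' := by
  have n := fun z => h.ne_s (hm.2.2 z)
  refine ⟨⟨m'.toAC, fun r => bz m'.L (P.c r), m'.l, fun j z => m'.y (P.φ j) z *
      (∏ i, m'.y (P.s i) z ^ P.vn (F'.w (P.φ j)) i)⁻¹⟩,
    ⟨h.B ▸ hm.1, fun j => ?_, fun z => (Ext.pt h (hm.2.2 z)).1⟩, fun j q => ?_, Equiv.refl _,
    LIso.id _, fun r z => ∏ i, m'.y (P.s i) z ^ P.nn r i, 1, isUnit_one, fun _ _ => Iff.rfl,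
    fun _ => rfl, fun r => ⟨?_, fun z => prod_zpow_ne (n z) _, fun q => ?_⟩, (F'.actL_one _).symm,
    fun j _ z => congrFun (congrArg Prod.snd (Ext.pt h (hm.2.2 z)).2) j⟩
  · have := H0.mul_mem (hm.2.1 (P.φ j)) (H0.inv_mem (Ext.mon_mem h hm (F'.w (P.φ j)))
      fun z => prod_zpow_ne (n z) _)
    rwa [inv_div, mul_div_cancel, h.vM_φ] at this
  · simp only [fun j => ht j q]
  · have := Ext.mon_mem h hm (Pi.single r 1)
    rwa [bz_single, zpow_one, show P.vn (Pi.single r 1) = P.nn r from funext fun i => by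
      simp [vn, Pi.single_apply], show P.vM (Pi.single r 1) = P.M r from funext fun i => by
      simp [vM, Pi.single_apply]] at this
  · exact Finset.prod_congr rfl fun i _ => congrArg (· ^ _) (ht _ q)

theorem typ_dM {d' : R' → ℤ} (hm : m'.Sol F') (ht : m'.Typ g d') : ∃ d, d' = P.dM d :=
  h.lat_ker d' fun i => (ht.deg_bz _).symm.trans
    (deg_of_ne (hm.2.1 (P.s i)).1 fun z => h.ne_s (hm.2.2 z) i)

theorem jm_sec (hm : m.Sol F) : (P.jm m).Sec (P.W F F') := by
  rintro ((j | j) | o | b)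
  · have e : ∀ r, bz (P.jm m).L (P.c₁ r) = m.L r := fun r =>
      ((Fintype.prod_sum_type _).trans ((congrArg (· * _) (Finset.prod_eq_one fun _ _ =>
        one_zpow _)).trans (one_mul _))).trans (Ext.bz_c h r)
    exact ((Ext.bz_smul_sum _ _ _).trans (congrArg (bz · _) (funext e))).symm ▸ hm.2.1 j
  · have e : ∀ r, bz (P.jm m).L (c₂ r) = (m.ext P.M P.σ).L r := fun r =>
      (bz_single _ _ _).trans (zpow_one _)
    exact ((Ext.bz_smul_sum _ _ _).trans (congrArg (bz · _) (funext e))).symm ▸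
      (h.ext_sol hm).2.1 j
  · exact ((bz_single (P.jm m).L (.inl o) 1).trans (zpow_one _)).symm ▸ H0.one_mem
  · exact zero_mem _

theorem jm_vl (hm : m.Sol F) (z : m.X) : (P.jm m).vl z ∈ P.cone F F' := by
  have a : ∀ i, ((P.jm m).vl z).2 (y2 (P.s i)) = 1 := fun i =>
    (congrArg (evz (m.vl z)) (h.σ_s i)).trans (Ext.evz_one _)
  have b : ∀ o, ((P.jm m).vl z).2 (lk o) = 1 := fun _ => rfl
  refine ⟨hm.2.2 z, fun _ => one_ne_zero, fun i => (a i).trans_ne one_ne_zero, fun _ => rfl, ?_⟩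
  rw [show P.tor ((P.jm m).vl z).2 = 1 from funext fun r => by simp [tor, a, b]]
  exact (F'.actT_one _).symm

end Ok

end PD

end Vale.Agent.P269
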