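import Vale.Agent.P269.Map.JL
import Vale.Agent.P269.Map.Ext
import Vale.Agent.P269.Cv.Emb2
import Vale.Agent.P269.Cv.Joint

set_option linter.unusedSectionVars false

/-!
# Points of the joint chart
-/

namespace Vale.Agent.P269

open P291Z Set Function Topology Filter Base Holo MvPolynomial Pc Ch Cv

namespace Emb3

variable {X : Type} [TopologicalSpace X] [T2Space X] [CompactSpace X] {Q : RS X}
  {N : Finset (X × X)} {ι ι' : Type} [Fintype ι] [Fintype ι']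

theorem normal_on {M : ι → ℕ} {A : ι → LB Q} {π : X → V M} (h : Full N A π) (T : Set ι)
    (h2 : ∀ a : ι → ℕ, ∀ k ∈ T, a k ≠ 0 → ∀ i ∈ T,
      H0 N ((bz A fun i => a i) * A i) ≤ H0 N (bz A fun i => a i) * H0 N (A i)) :
    ∀ a : ι → ℕ, a ≠ 0 → (∀ i, a i ≠ 0 → i ∈ T) → H0 N (bz A fun i => a i) ≤ PP π a := by
  classical
  have e : ∀ i, (fun j => ((Pi.single i 1 : ι → ℕ) j : ℤ)) = Pi.single i 1 := fun i =>
    funext fun j => by by_cases b : j = i <;> simp [b]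
  refine nat_ind (fun i _ => ?_) fun a ha i ih b => ?_
  · rw [e, bz_single, zpow_one]; exact h.le_PP i
  · have : (bz A fun j => ((a + Pi.single i 1 : ι → ℕ) j : ℤ)) = (bz A fun i => a i) * A i := by
      rw [← zpow_one (A i), ← bz_single, ← bz_add, ← e]
      congr 1
    have c : ∀ i, a i ≠ 0 → i ∈ T := fun j d => b j fun f => d (Nat.add_eq_zero_iff.1 f).1
    obtain ⟨k, hk⟩ := ne_iff.1 ha
    rw [this]
    exact (h2 a k (c k hk) hk i (b i (by simp))).trans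
      ((mul_le_mul' (ih c) (h.le_PP i)).trans (PP_mul _ _))

theorem bz_elim (A : ι ⊕ ι' → LB Q) (a : ι → ℤ) (b : ι' → ℤ) : bz A (Sum.elim a b) =
    bz (fun i => A (.inl i)) a * bz (fun i => A (.inr i)) b := Fintype.prod_sum_type _

theorem bz_neg (A : ι → LB Q) (a : ι → ℤ) : bz A (-a) = (bz A a)⁻¹ := by
  rw [← zero_sub, bz_sub, bz_zero, one_div]

theorem bz_comb (A : ι → LB Q) (ℓ : ι' → ι → ℤ) (w : ι' → ℤ) :
    bz A (∑ r, w r • ℓ r) = bz (fun r => bz A (ℓ r)) w := by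
  rw [bz_bz]
  exact congrArg _ (funext fun i => by simp)

theorem bz_χ [DecidableEq ι] (A : Option ι → LB Q) (k : ℕ) (θ : ι → ℤ) :
    bz A (Pi.single none 1 - k • Tgt.hat θ) = A none / bz (fun r => bz A (ℓs r)) θ ^ k := by
  rw [bz_sub, bz_single, zpow_one, ← natCast_zsmul, bz_smul, zpow_natCast, bz_bz,
    funext (Fam.sum_ℓs θ)]

theorem eqv_one {L L' : LB Q} (h : Eqv L L') : Eqv (L * L'⁻¹) 1 := by
  rwa [Eqv, div_one, ← div_eq_mul_inv]

end Emb3

open Emb3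

/-- **EMB** for two groups of bundles, the second group being small compared with the first one -/
theorem Cv.Full.isCurve_two {X : Type} [TopologicalSpace X] [T2Space X] [CompactSpace X] {Q : RS X}
    {N : Finset (X × X)} {ι ι' : Type} [Fintype ι] [Fintype ι'] {M : ι ⊕ ι' → ℕ} {o : ι ⊕ ι'}
    {A : ι ⊕ ι' → LB Q} {π : X → V M} (h : Full N A π) (hN : Nd N)
    (ho : Ge (A o / omega Q N ∅) 3) (h1 : ∀ i, Ge (A i / omega Q N ∅) 1)
    (hs : ∀ i i', Small N (A i) (A (.inl i'))) (hs' : ∀ i i', Small N (A (.inr i)) (A (.inr i'))) :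
    Par o (cone π) N A π ∧ IsCurve o (gen Q N) (fun i => deg (A i)) (cone π) := by
  have b : ∀ i, Bpf N (A i) := fun i => i.rec (fun i => (hs _ i).bpf) fun i => (hs' i i).bpf
  have f := fun (a : ι ⊕ ι' → ℕ) k (hk : a k ≠ 0) => ge_bz_div (fun i => (b i).ge) hk
  have p := h.par hN ho b
  refine ⟨p, p.isCurve (fun a ha => ?_) fun a ha => h1_eq_zero hN fun U d e => ?_⟩
  · by_cases e : ∃ i, a (.inl i) ≠ 0
    · obtain ⟨i, e⟩ := e
      exact h.normal_of_ne _ (fun a ha j => ((hs j i).mono (f a _ ha)).H0_le hN) a e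
    · refine normal_on h (range .inr) ?_ a ha fun i => i.rec (fun i d => (e ⟨i, d⟩).elim)
        fun i _ => ⟨i, rfl⟩
      rintro a _ ⟨k, rfl⟩ hk _ ⟨i, rfl⟩
      exact ((hs' i k).mono (f a _ hk)).H0_le hN
  · obtain ⟨k, hk⟩ := ne_iff.1 ha
    have := f a k hk U d e
    have := h1 k U d e
    simp only [degOn_div] at *
    omega

variable {S Λ R R' J J' K K' I ν κ : Type} [Fintype S] [Fintype Λ] [Fintype R] [Fintype R']
  [Fintype J] [Fintype J'] [Fintype K] [Fintype K'] [Fintype I] [Fintype ν] [Fintype κ]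
  [DecidableEq R] [DecidableEq R'] [DecidableEq I] {F : Fam S Λ R J K} {F' : Fam S Λ R' J' K'}
  {P : PD Λ R R' J J' I} {c : Pc J J' R R'} {k D D' : ℕ} {g : ℤ} {d : R → ℤ}

namespace Emb3

theorem bz_c (hP : P.Ok F F') (m : AM Λ R J ν κ) (r : R) :
    bz (R := m.R) (m.ext P.M P.σ).L (P.c r) = m.L r :=
  (PD.bz_ext _).trans (by rw [hP.cM, bz_single, zpow_one])

/-- the bundles of a standard chart -/
theorem grp (hk : F.Big k) (hD : F.BigD k D) (C : AC ν κ) (L : R → LB C.R) {l y}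
    (hs : (⟨C, L, l, y⟩ : AM Λ R J ν κ).Sol F) (hb : (⟨C, L, l, y⟩ : AM Λ R J ν κ).Stable F.θ)
    (hg : (⟨C, L, l, y⟩ : AM Λ R J ν κ).Typ g d) :
    ∃ (A : Option R → LB C.R) (B : LB C.R) (n : ℕ), 10 * n + 20 ≤ k ∧ Ge B 1 ∧
      Ge (B / omega C.R C.N ∅) 0 ∧ (∀ o, Near (A o) B k n) ∧
      deg B = 2 * g - 2 + Fintype.card (Ch.Mk ν κ) + ∑ r, F.θ r * d r ∧
      Eqv (bz A (F.sch ν κ k D g d).χ) (C.ω ^ k) ∧ (∀ o, deg (A o) = (F.sch ν κ k D g d).m o) ∧
      ∀ r, Eqv (bz A (ℓs r)) (L r) :=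
  let ⟨_, _, _, r⟩ := Fam.exists_repD hk hD hs hb hg (s := 1) fun _ _ => one_ne_zero
  let ⟨_, n, ha, hk⟩ := hk
  let ⟨a, b⟩ := near_of_ample ha hs.2.1 hs.2.2 C.degOn_ω hb k
  ⟨_, _, n, hk, hb, a, b, hg.deg_ω _, r.crep.eqv, r.cr.deg_eq, r.L⟩

variable {X : Type} [TopologicalSpace X] [T2Space X] [CompactSpace X] {Q : RS X} (B : OP R R' → LB Q)

theorem bz_inr (r : R') : bz B (c.ℓ (.inr r)) = bz (fun i => B (.inr i)) (ℓs r) :=
  (bz_elim B 0 _).trans (by rw [bz_zero, one_mul])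

theorem bz_some (h : c.Ok P F F') (r : R) : bz B (c.ch.wd (lk (some r))) =
    bz (fun i => B (.inl i)) (ℓs r) *
      (bz (fun r' => bz (fun i => B (.inr i)) (ℓs r')) (P.c r))⁻¹ := by
  rw [h.wd, bz_elim, bz_neg, Option.elim_some, Option.elim_some, bz_comb]

theorem bz_none (h : c.Ok P F F') : bz B (c.ch.wd (lk none)) =
    bz (fun i => B (.inl i)) c.D₁.ch.χ * (bz (fun i => B (.inr i)) c.D₂.ch.χ ^ c.t)⁻¹ := by
  rw [h.wd, bz_elim, bz_neg, Option.elim_none, Option.elim_none, bz_smul, zpow_natCast]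

theorem bz_ch (h : c.Ok P F F') : bz B c.ch.χ = bz (fun i => B (.inr i)) c.D₂.ch.χ := by
  rw [h.χ, bz_elim, bz_zero, one_mul]

theorem bz_y1 (h : c.Ok P F F') (j : J) : bz B (c.ch.wd (y1 j)) =
    bz (fun r => bz (fun i => B (.inl i)) (ℓs r)) (F.w j) := by
  rw [wd_y1, bz_elim, bz_zero, mul_one, bz_bz, ← funext (h.lat₁.wd j)]

theorem bz_y2 (h : c.Ok P F F') (j : J') : bz B (c.ch.wd (y2 j)) =
    bz (fun r => bz (fun i => B (.inr i)) (ℓs r)) (F'.w j) := by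
  rw [wd_y2, bz_elim, bz_zero, one_mul, bz_bz, ← funext (h.lat₂.wd j)]

end Emb3

namespace Pc

section

variable {m : AM Λ R J ν κ} {A : Set (JP J J' R)} {x : c.ch.WF ν κ Λ} {B : OP R R' → LB m.R}
  {π : m.X → V c.ch.M} {u : m.X → ∀ l, c.ch.E l →L[ℂ] ℂ} {s : ν ⊕ κ → OP R R' → ℂ}

theorem eqv₂ (a : RepD c.ℓ A x (P.jm m) B π u s) (r : R') :
    Eqv (bz (fun i => B (.inr i)) (ℓs r)) ((m.ext P.M P.σ).L r) :=
  bz_inr (c := c) B r ▸ a.L (.inr r)

theorem Ok.eqv₁ (h : c.Ok P F F') (hP : P.Ok F F') (a : RepD c.ℓ A x (P.jm m) B π u s) (r : R) :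
    Eqv (bz (fun i => B (.inl i)) (ℓs r)) (m.L r) := by
  have b : Eqv (bz B (c.ch.wd (lk (some r)))) 1 := a.L (.inl (some r))
  have e := b.mul (Eqv.bz (eqv₂ a) (P.c r))
  rwa [bz_some B h, inv_mul_cancel_right, one_mul, bz_c hP] at e

end

/-- **the first group of factors embeds the curves** -/
theorem St.nod₁ (h : c.St ν κ P F F' k D D' g d) (hP : P.Ok F F') (hF : F.Good)
    {x : c.ch.WF ν κ Λ} (hx : x ∈ c.ch.solF ν κ (P.u1 F F')) : Nod (.inl none) (crv x.2) := by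
  obtain ⟨n, a⟩ := h.toOk.lat.exists_rep_sol hx
  obtain ⟨B, π, u, s, a⟩ := a.exists_data hx.1.2.1
  have S := (a.mem_solF (hP.up₁.inv_up hP.inv_e1) h.toOk.wt).1 hx
  have C := fun z => hP.mem_u1 (S.2.2 z)
  have Y := fun j => a.cr.ind_mem (a.ind j trivial)
  have Z := fun j (e : ∀ z, n.y j z ≠ 0) U =>
    degOn_of_ne (U := U) (fun z _ => (Y j).1 z) fun z _ => e z
  let m : AM Λ R J ν κ :=
    ⟨n.toAC, fun r => bz (fun i => B (.inl i)) (ℓs r), n.l, fun j => n.y (y1 j)⟩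
  have T : m.Sol F := ⟨S.1, fun j => bz_y1 B h.toOk j ▸ Y (y1 j), fun z => (C z).1⟩
  have k0 : c.ch.k = k := congrArg Ch.k h.e₂
  have d₂ := fun U => (bz_ch B h.toOk ▸ a.crep.eqv).degOn U
  have d₁ := Z (lk none) fun z => (C z).2.1 _
  simp only [bz_none B h.toOk, degOn_mul, degOn_inv, degOn_pow, d₂] at d₁
  simp only [congrArg Ch.χ h.e₁, congrArg Ch.χ h.e₂, chart_χ _ _ _ h.bigD₁, chart_χ _ _ _ h.bigD₂,
    bz_χ, degOn_div, degOn_pow, k0] at d₁ d₂
  have hb : m.Stable F.θ := (T.stable_iff hF).2 fun y e => by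
    have b := (exists_comp (R := n.R) y).1
    have f := (h.o ▸ a.cr.par).ge_one _ b ⟨y, mem_connectedComponent⟩
    have e1 := fun r => Z (lk (some r)) (fun z => (C z).2.1 _) (connectedComponent y)
    have e2 := fun i => Z (y2 (P.s i)) (fun z => (C z).2.2 _) (connectedComponent y)
    simp only [bz_some B h.toOk, degOn_mul, degOn_inv, show ∀ r, degOn (bz _ (ℓs r)) _ = 0 from e,
      zero_add, neg_eq_zero] at e1
    simp only [bz_y2 B h.toOk] at e2
    have e3 := d₂ (connectedComponent y)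
    rw [hP.dec F'.θ, bz_add, bz_comb, bz_comb, degOn_mul, degOn_bz, degOn_bz] at e3
    simp only [e1, e2, mul_zero, Finset.sum_const_zero, add_zero, sub_zero] at e3
    exact by_contra fun o => by
      have : degOn n.ω (connectedComponent y) ≤ 0 := not_lt.1 o
      nlinarith
  obtain ⟨θ₀, N, ha, hk⟩ := h.big₁
  have p := a.cr.full.par (o := .inl none) n.nd (ge_omega_of (m := 3) (fun U b e => ?_) hb
    (near_of_ample ha T.2.1 T.2.2 n.degOn_ω hb 0).1) a.cr.par.bpf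
  · rw [show crv x.2 = cone π from Set.ext fun _ => a.mem_crv]
    exact (p.isCurve_iff.2 (a.cr.par.isCurve_iff.1 a.cr.cur)).nod
  · have := hb U b e
    have := d₁ U
    have : (20 : ℤ) ≤ c.t * k := by exact_mod_cast le_of_add_le_right hk
    simp only [degOn_div, degOn_pow, degOn_mul] at *
    push_cast at *
    nlinarith

variable (ν κ) in
/-- **stable maps lift to the joint chart** -/
theorem lift (hP : P.Ok F F') (hF : F.Good) (hF' : F'.Good) (k : ℕ) (g : ℤ) (d : R → ℤ) :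
    ∀ᶠ t in atTop, ∀ (c : Pc J J' R R') D D', c.t = t → c.St ν κ P F F' k D D' g d →
      ∀ m : AM Λ R J ν κ, m.Sol F → m.Stable F.θ → m.Typ g d →
        ∃ (x : c.ch.WF ν κ Λ) (B π u s : _), RepD c.ℓ univ x (P.jm m) B π u s := by
  obtain ⟨δ, hδ⟩ : ∃ δ : ℕ, 2 * g - 2 + Fintype.card (Ch.Mk ν κ) + ∑ r, F'.θ r * P.dM d r ≤ δ :=
    ⟨_, Int.self_le_toNat _⟩
  filter_upwards [eventually_ge_atTop (2 * δ)]
  rintro _ ht c D D' rfl h m hs h0 hg
  obtain ⟨A₁, B₁, N₁, hk₁, hb, a₁, b₁, -, w₁, m₁, l₁⟩ := grp h.big₁ h.bigD₁ m.toAC m.L hs h0 hg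
  obtain ⟨A₂, B₂, N₂, hk₂, hb', a₂, b₂, hd, w₂, m₂, l₂⟩ := grp h.big₂ h.bigD₂ m.toAC
    (m.ext P.M P.σ).L (hP.ext_sol hs) ((hP.ext_stable hF hF' hs).2 h0) (PD.ext_typ hg)
  obtain rfl : c.ch.k = k := congrArg Ch.k h.e₂
  rw [← h.e₁] at w₁ m₁
  rw [← h.e₂] at w₂ m₂
  let B : OP R R' → LB m.R := Sum.elim A₁ A₂
  have g3 : ∀ i, Ge (B i / omega m.R m.N ∅) 3 := fun i => i.rec
    (fun i => ge_omega_of (m := 3) ((b₁ i).ge hb (by omega)) hb a₁)
    fun i => ge_omega_of (m := 3) ((b₂ i).ge hb' (by omega)) hb' a₂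
  have g1 := fun i => (g3 i).mono (n' := 1) (by norm_num)
  have dg : (fun i => deg (B i)) = c.ch.m := funext fun i => i.rec m₁ m₂
  have gg : gen m.R m.N = c.ch.g := hg.1.trans (congrArg Ch.g h.e₁).symm
  obtain ⟨π, f, -⟩ := exists_full (N := m.N) (A := B) (M := c.ch.M) fun i => by
    rw [h.num.M_eq, ← gg, ← congrFun dg i, ← finrank_H0 (h1_eq_zero m.nd (g1 i)), Int.toNat_natCast]
  obtain ⟨p, C⟩ := f.isCurve_two (o := c.ch.o) m.nd (g3 _) g1
    (fun i i' => i.rec (fun i => small_of_ge m.nd hb a₁ (by omega) (b₁ i).1 (b₁ i).2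
      ((b₁ i').ge hb (by omega))) fun i => small_of_ge m.nd hb' a₂ (by omega) (b₂ i).1 (b₂ i).2
        fun U b e => by
          have e1 := (b₁ i').ge hb (m := c.ch.k * δ) (by nlinarith) U b e
          have e2 := ((hb'.mono zero_le_one).le_deg b).trans (hd.trans_le hδ)
          have := le_mul_of_one_le_right (a := (c.ch.k * δ : ℤ)) (by positivity) (hb U b e)
          have := mul_le_mul (show (2 * N₂ + 7 : ℤ) ≤ c.ch.k by omega) e2
            (zero_le_one.trans (hb' U b e)) (by positivity)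
          change 0 ≤ degOn (A₁ i' / _) U
          simp only [degOn_div, degOn_pow] at e1 ⊢
          push_cast at e1 ⊢
          linarith)
    fun i i' => small_of_ge m.nd hb' a₂ (by omega) (b₂ i).1 (b₂ i).2 ((b₂ i').ge hb' (by omega))
  rw [dg, gg] at C
  have L : ∀ r, Eqv (R := m.R) (bz B (c.ℓ r)) ((P.jm m).L r) := by
    rintro ((_ | r) | r)
    · change Eqv (bz B (c.ch.wd (lk none))) 1
      rw [bz_none B h.toOk]
      have := (w₂.zpow c.t).symm
      rw [zpow_natCast, zpow_natCast, ← pow_mul, mul_comm] at this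
      exact eqv_one (w₁.trans this)
    · change Eqv (bz B (c.ch.wd (lk (some r)))) 1
      rw [bz_some B h.toOk]
      exact eqv_one ((l₁ r).trans (bz_c hP m r ▸ (Eqv.bz l₂ (P.c r)).symm))
    · rw [bz_inr]
      exact l₂ r
  have hω : Eqv (bz B c.ch.χ) (m.ω ^ c.ch.k) := by
    rw [bz_ch B h.toOk]
    exact w₂
  obtain ⟨x, u, -, a⟩ := Ch.exists_repD (m := P.jm m) (A := univ) (s := 1) ⟨h.num.a_ne, h.num.cut⟩
    (fun l => by rw [h.h, ← p.finrank C (h.num.a_ne l), Int.toNat_natCast]) p C hω L (fun j _ => by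
      change _ ∈ H0 m.N (bz B _)
      rw [funext (h.toOk.wt j), ← bz_bz]
      exact (Eqv.bz L _).H0.2 (hP.jm_sec hs j)) fun _ _ => one_ne_zero
  exact ⟨x, B, π, u, 1, a⟩

end Pc

end Vale.Agent.P269
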