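import Vale.Agent.P269.Map.Cr

/-!
# The fibres of the restriction map
-/

set_option linter.unusedSectionVars false

namespace Vale.Agent.P269.Ch.Res.Lnk

open Set Function Topology Filter Base Cv

variable {S Λ R R' K ι ι' J J' ν κ : Type} [Fintype S] [Fintype Λ] [Fintype R] [Fintype R']
  [Fintype K] [Fintype ι] [Fintype ι'] [Fintype J] [Fintype J'] [DecidableEq ι] [DecidableEq ι']
  [Fintype ν] [Fintype κ] {ch' : Ch ι' J'} {D : ch'.Res ι J} {L : D.Lnk} {F' : Fam S Λ R' J' K}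
  {u : ν → J' → ℕ} {x y : ch'.WF ν κ Λ} {F : Wt S Λ R J}

namespace FibP

section

variable {G : Type} [CommGroup G]

/-- monomials as an additive homomorphism of the exponents -/
def mon (c : ι → G) (w : J' → G) (ρ : G) : (ι → ℤ) × (J' → ℤ) × ℤ →+ Additive G :=
  .mk' (fun v => .ofMul ((∏ k, c k ^ v.1 k) * (∏ j, w j ^ v.2.1 j) * ρ ^ v.2.2)) fun a b => by
    simp only [Prod.fst_add, Prod.snd_add, Pi.add_apply, zpow_add, Finset.prod_mul_distrib,
      ← ofMul_mul]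
    congr 1
    ac_rfl

variable (D) in
/-- `cmb` as an additive homomorphism -/
def cm : (ι → ℤ) × (J' → ℤ) × ℤ →+ (ι' → ℤ) :=
  .mk' (fun v => D.cmb v.1 v.2.1 v.2.2) fun a b => by
    simp only [cmb, Prod.fst_add, Prod.snd_add, Pi.add_apply, psh_add, add_smul,
      Finset.sum_add_distrib]
    abel

theorem prod_cmbG (t : ι' → G) (a : ι → ℤ) (b : J' → ℤ) (c : ℤ) : ∏ i, t i ^ D.cmb a b c i =
    (∏ k, t (D.σ k) ^ a k) * (∏ j, (∏ k, t k ^ ch'.wd j k) ^ b j) * (∏ k, t k ^ ch'.χ k) ^ c := by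
  let h : (ι' → ℤ) →+ Additive G := .mk' (fun v => .ofMul (∏ i, t i ^ v i)) fun a b => by
    simp only [Pi.add_apply, zpow_add, Finset.prod_mul_distrib, ofMul_mul]
  have e : h (D.cmb a b c) = h (psh D.σ a) + ∑ j, b j • h (ch'.wd j) + c • h ch'.χ := by
    simp only [cmb, map_add, map_sum, map_zsmul]
  refine (congrArg Additive.toMul e).trans ?_
  rw [toMul_add, toMul_add, toMul_sum]
  congr 2
  exact (Fintype.prod_of_injective D.σ D.σ_inj _ _
    (fun i h => by rw [psh_of_notMem _ h, zpow_zero]) fun i => by rw [psh_apply D.σ_inj]).symm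

theorem prod_mon {α : ι' → ι → ℤ} {β : ι' → J' → ℤ} {γ : ι' → ℤ} (h1 : ∀ i, ∀ j ∉ L.I, β i j = 0)
    (h2 : ∀ i, D.cmb (α i) (β i) (γ i) = Pi.single i 1) {c : ι → G} {w : J' → G} {ρ : G}
    (h : (∏ k, c k ^ (-D.ch.χ) k) * (∏ j, w j ^ L.n j) * ρ ^ (L.r : ℤ) = 1) {a : ι → ℤ}
    {b : J' → ℤ} {e : ℤ} (hb : ∀ j ∉ L.I, b j = 0) :
    ∏ i, ((∏ k, c k ^ α i k) * (∏ j, w j ^ β i j) * ρ ^ γ i) ^ D.cmb a b e i =
      (∏ k, c k ^ a k) * (∏ j, w j ^ b j) * ρ ^ e := by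
  set v : (ι → ℤ) × (J' → ℤ) × ℤ := ∑ i, D.cmb a b e i • (α i, β i, γ i) - (a, b, e) with hv
  obtain ⟨z, z1, z2, z3⟩ := L.ker v.1 v.2.1 v.2.2 (fun j hj => by
    simp [hv, Prod.fst_sum, Prod.snd_sum, h1 _ j hj, hb j hj]) (by
      change cm D v = 0
      rw [hv, map_sub, map_sum, sub_eq_zero]
      simp only [map_zsmul]
      exact (Finset.sum_congr rfl fun i _ => congrArg _ (h2 i)).trans (pi_eq_sum_univ' _).symm)
  have k : mon c w ρ v = 0 := by
    rw [show v = z • (-D.ch.χ, L.n, (L.r : ℤ)) from Prod.ext z1 (Prod.ext z2 z3), map_zsmul]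
    exact (congrArg (z • Additive.ofMul ·) h).trans (smul_zero z)
  rw [hv, map_sub, map_sum, sub_eq_zero] at k
  simp only [map_zsmul] at k
  exact (toMul_sum _ _).symm.trans (congrArg Additive.toMul k)

end

theorem prod_cmb' {t : ι' → ℂ} (ht : ∀ i, t i ≠ 0) (a : ι → ℤ) (b : J' → ℤ) (c : ℤ) :
    ∏ i, t i ^ D.cmb a b c i =
    (∏ k, t (D.σ k) ^ a k) * (∏ j, (∏ k, t k ^ ch'.wd j k) ^ b j) * (∏ k, t k ^ ch'.χ k) ^ c := by
  simpa using congrArg Units.val (prod_cmbG (D := D) (fun i => Units.mk0 _ (ht i)) a b c)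

theorem prod_mon' {α : ι' → ι → ℤ} {β : ι' → J' → ℤ} {γ : ι' → ℤ} (h1 : ∀ i, ∀ j ∉ L.I, β i j = 0)
    (h2 : ∀ i, D.cmb (α i) (β i) (γ i) = Pi.single i 1) {c : ι → ℂ} {w : J' → ℂ} {ρ : ℂ}
    (hc : ∀ i, c i ≠ 0) (hw : ∀ j, w j ≠ 0) (hρ : ρ ≠ 0)
    (h : (∏ k, c k ^ (-D.ch.χ) k) * (∏ j, w j ^ L.n j) * ρ ^ (L.r : ℤ) = 1) {a : ι → ℤ}
    {b : J' → ℤ} {e : ℤ} (hb : ∀ j ∉ L.I, b j = 0) :
    ∏ i, ((∏ k, c k ^ α i k) * (∏ j, w j ^ β i j) * ρ ^ γ i) ^ D.cmb a b e i =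
      (∏ k, c k ^ a k) * (∏ j, w j ^ b j) * ρ ^ e := by
  simpa using congrArg Units.val (prod_mon h1 h2 (c := fun i => Units.mk0 _ (hc i))
    (w := fun j => Units.mk0 _ (hw j)) (ρ := Units.mk0 _ hρ) (Units.ext (by simpa using h))
    (a := a) (e := e) hb)

theorem prod_single {G α : Type} [DivisionCommMonoid G] [Fintype α] [DecidableEq α] (t : α → G)
    (i : α) : ∏ k, t k ^ (Pi.single i 1 : α → ℤ) k = t i := by
  rw [Finset.prod_eq_single i (fun j _ h => by simp [h]) (by simp), Pi.single_eq_same, zpow_one]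

section

variable {X : Type} [TopologicalSpace X] [T2Space X] [CompactSpace X] {Q : RS X}
  {N : Finset (X × X)} {A B : LB Q} {s s' : X → ℂ}

theorem eq_of_ev (h : s ∈ A.Γ) (h' : s' ∈ A.Γ) (e : ∀ y, ∀ᶠ z in 𝓝[≠] y, s z = s' z) : s = s' :=
  funext fun y => sub_eq_zero.1 (eq_zero_of_gen (s := s - s') (sub_mem h h') fun a => by
    have := Q.neBot y
    obtain ⟨z, b, c⟩ := ((mem_gen.1 a).and (e y)).exists
    exact b (sub_eq_zero.2 c))

/-- two sections with the same divisor differ by an isomorphism of the bundles -/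
theorem exists_quot (h : s ∈ H0 N A) (h' : s' ∈ H0 N B) {k : X → ℕ} (o : ∀ y, A.ord s y = k y)
    (o' : ∀ y, B.ord s' y = k y) (hN : ∀ n ∈ N, k n.1 = 0) :
    ∃ w ∈ H0 N (B / A), (∀ y, w y ≠ 0) ∧ ∀ y, s' y = w y * s y := by
  choose g g1 g2 g3 using fun y => (h.1 y).analyticOrderAt_eq_natCast.1 (o y)
  choose g' g1' g2' g3' using fun y => (h'.1 y).analyticOrderAt_eq_natCast.1 (o' y)
  have e : ∀ y, s' y = g' y 0 / g y 0 * s y := fun y => by
    have a := (g3 y).self_of_nhds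
    have b := (g3' y).self_of_nhds
    rw [LB.loc_zero] at a b
    rw [a, b, smul_eq_mul, smul_eq_mul]
    field_simp [g2 y]
  refine ⟨fun y => g' y 0 / g y 0, ⟨fun y => ((g1' y).div (g1 y) (g2 y)).congr ?_, fun n hn => ?_⟩,
    fun y => div_ne_zero (g2' y) (g2 y), e⟩
  · filter_upwards [g3 y, g3' y, (g1 y).continuousAt.eventually_ne (g2 y)] with t a b c
    by_cases d : t = 0
    · rw [d, LB.loc_zero, Pi.div_apply]
    · have f : (t - 0) ^ k y ≠ 0 := pow_ne_zero _ (sub_ne_zero.2 d)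
      have l : A.loc s y t ≠ 0 := a ▸ smul_ne_zero f c
      rw [Pi.div_apply, ← mul_div_mul_left _ _ f, ← smul_eq_mul, ← smul_eq_mul, ← a, ← b]
      simp only [LB.loc, LB.div_φ] at l ⊢
      rw [e]
      field_simp [(div_ne_zero_iff.1 l).1, A.ne, B.ne]
  · have a : s n.1 ≠ 0 := (LB.ord_eq_zero (h.1 _)).1 (by rw [o, hN n hn, Nat.cast_zero])
    exact mul_right_cancel₀ a (by rw [← e, h.2 n hn, ← e, h'.2 n hn])

variable {ν' : Type} [Fintype ν'] {ch : Ch ι J} {A : ι → LB Q} {z : ch.W ν'} {π : X → V ch.M}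
  {v v' : X → ∀ l, ch.E l →L[ℂ] ℂ} {p : ν' → X} {ξ ξ' : X → ℂ}

theorem xi_unique (h : Cr N A z π v p ξ) (h' : Cr N A z π v' p ξ') : ξ = ξ' := by
  classical
  refine eq_of_ev h.xi.1 h'.xi.1 fun y =>
    (Xi.ev_sm N (Finset.univ.image p) y).mono fun w hw => ?_
  obtain ⟨μ, a⟩ := Ch.exists_wedge_ne (h.par.ne w) (h.par.imm w)
  have b := h.Xi w μ
  rw [gr_unique (h.gr w) (h'.gr w) (h.mem.1 none), h'.Xi, wsec, if_pos hw, one_pow, one_mul] at b
  exact (mul_right_cancel₀ a b).symm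

theorem ind_fld (h : Cr N A z π v p ξ) {j : J} (a : ∀ c ∈ crv z, ∃ y, Val z j c y) :
    Ind z π v j fun y => fld z (π y) j := fun y => (h.val_iff' y).1 (val_fld (a _ (h.par.mem y)))

end

section

variable {X : Type} [TopologicalSpace X] [T2Space X] [CompactSpace X] {Q : RS X}
  {N : Finset (X × X)} {A B : ι' → LB Q} {π π₂ : X → V ch'.M}
  {v v₂ : X → ∀ l, ch'.E l →L[ℂ] ℂ} {p : Mk ν κ → X} {ξ ξ₂ : X → ℂ} {j : J'}

open Classical in
theorem ord_fld (hx : x ∈ ch'.main κ F' u) (h : Cr N A x.2 π v p ξ) (h1 : j ∉ F'.mov)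
    (h2 : j ∉ F'.zer) (y : X) : (bz A (ch'.wd j)).ord (fun y => fld x.2 (π y) j) y =
      (∑ n, if y = p (.inl n) then u n j else 0 : ℕ) := by
  rw [← h.order_br (ind_fld h (hx.1.2.1 j h1)), hx.2 j h1 h2 _ (h.par.isBranch y), br_zero]
  simp only [h.orb_mark]

theorem fld_ne (hx : x ∈ ch'.main κ F' u) (h : Cr N A x.2 π v p ξ) (h1 : j ∉ F'.mov)
    (h2 : j ∉ F'.zer) {y : X} (hy : ∀ n, y = p (.inl n) → u n j = 0) : fld x.2 (π y) j ≠ 0 := by
  classical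
  refine (LB.ord_eq_zero ((h.ind_mem (ind_fld h (hx.1.2.1 j h1))).1 y)).1 ?_
  rw [ord_fld hx h h1 h2, Finset.sum_eq_zero fun n _ => ite_eq_right_iff.2 (hy n), Nat.cast_zero]

end

end FibP

open FibP

/-- a torus element is determined by its kept components and its values on the links and on `χ` -/
theorem exists_mon (L : D.Lnk) : ∃ (α : ι' → ι → ℤ) (β : ι' → J' → ℤ) (γ : ι' → ℤ),
    (∀ i, ∀ j ∉ L.I, β i j = 0) ∧ (∀ i, D.cmb (α i) (β i) (γ i) = Pi.single i 1) ∧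
    ∀ t : ι' → ℂ, (∀ i, t i ≠ 0) → ∀ i, t i = (∏ k, t (D.σ k) ^ α i k) *
      (∏ j, (∏ k, t k ^ ch'.wd j k) ^ β i j) * (∏ k, t k ^ ch'.χ k) ^ γ i := by
  choose α β γ a b using fun i => L.surj (Pi.single i 1)
  exact ⟨α, β, γ, a, b, fun t ht i => by rw [← prod_cmb' ht, b, prod_single]⟩

variable (hA : L.Amb F' u)
include hA

theorem Amb.not_mov {j : J'} (hj : j ∈ L.I) : j ∉ F'.mov :=
  hA.mov ▸ fun ⟨i, e⟩ => L.disj i (e ▸ hj)

theorem Amb.dom (hx : x ∈ T κ D F' u) : L.Dom x.2 := by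
  obtain ⟨X, _, _, _, Q, N, A, π, v, p, ξ, h⟩ := exists_cr hx.1.1.1.2.1
  have k : ∀ j ∈ L.I, ∀ c ∈ crv x.2, (∀ n (s : ι' → ℂ), c = s • x.2.p (.inl n) → u n j = 0) →
      fld x.2 c j ≠ 0 := fun j hj c hc a => by
    obtain ⟨y, t, b, rfl⟩ := (h.par.img c).1 hc
    rw [h.fld_smul (ind_fld h (hx.1.1.2.1 j (hA.not_mov hj))) y b]
    refine mul_ne_zero (prod_zpow_ne b _) (fld_ne hx.1 h (hA.not_mov hj) (hA.nz j hj) fun n e => ?_)
    obtain ⟨s, d⟩ := h.orb_mark.2 e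
    exact a n (t * s) (by rw [d, mul_smul])
  exact ⟨h.mem, hx.2, fun j hj => hx.1.1.2.1 j (hA.not_mov hj),
    fun j hj c hc a => k j hj c hc fun n s e => (a _ s e).elim,
    fun j hj c hc => k j (by_contra fun a => hj (L.n_sup j a)) c hc fun n _ _ => hA.ord j hj n⟩

theorem Amb.actF_mem {s : ch'.AF ν κ S} (hs : IsUnit s) (hx : x ∈ T κ D F' u) :
    actF F'.toWt s x ∈ T κ D F' u := by
  refine ⟨actF_mem_main hA.inv hs hx.1, ?_⟩
  obtain ⟨v, hv⟩ := isUnit_dupF hs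
  rw [actF_snd, ← hv, crv_actU]
  exact hx.2.map

variable (hc : D.ch.Cuts)
include hc

theorem Amb.maps (hx : x ∈ T κ D F' u) : L.fF x ∈ D.ch.baseF ν κ F'.B := by
  have d := hA.dom hx
  refine ⟨hx.1.1.1.1, d.mem_base hc, fun q => ?_⟩
  obtain ⟨X, _, _, _, Q, N, A, π, v, p, ξ, h⟩ := exists_cr d.mem
  have k : ∀ n (t : ι' → ℂ), (∀ i, t i ≠ 0) → x.2.p n = t • π (p n) →
      (∏ i, t (D.σ i) ^ D.ch.χ i) * (ξ (p n) ^ L.r * ∏ j, fld x.2 (π (p n)) j ^ L.n j) =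
      ((∏ i, t i ^ ch'.χ i) * ξ (p n)) ^ L.r * ∏ j, fld x.2 (x.2.p n) j ^ L.n j := fun n t a e => by
    have b := prod_cmb' (D := D) a (-D.ch.χ) L.n L.r
    simp only [L.rel, Pi.zero_apply, zpow_zero, Finset.prod_const_one, Pi.neg_apply, zpow_neg,
      Finset.prod_inv_distrib, mul_assoc, zpow_natCast] at b
    rw [eq_inv_mul_iff_mul_eq₀ (prod_zpow_ne (fun i => a _) _), mul_one] at b
    have f : ∀ j, fld x.2 (x.2.p n) j ^ L.n j =
        (∏ i, t i ^ ch'.wd j i) ^ L.n j * fld x.2 (π (p n)) j ^ L.n j := fun j => by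
      by_cases g : j ∈ L.I
      · rw [e, h.fld_smul (d.ind h g) _ a, mul_zpow]
      · simp [L.n_sup j g]
    simp only [b, f, Finset.prod_mul_distrib, mul_pow]
    ring
  obtain ⟨t, a, e⟩ := h.mark (.inr (q, false))
  obtain ⟨t', a', e'⟩ := h.mark (.inr (q, true))
  refine ((d.cr hc h).lead_iff (congrArg (rV D.σ) e) (congrArg (rV D.σ) e') _).2 ?_
  rw [k _ _ a e, k _ _ a' e', (h.lead_iff e e' _).1 (hx.1.1.1.2.2 q), mul_pow, ← pow_mul, mul_assoc,
    show D.ch.k = ch'.k * L.r from L.k_eq.trans (mul_comm _ _)]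
  congr 2
  refine Finset.prod_congr rfl fun j _ => ?_
  by_cases g : j ∈ L.I
  · rw [hx.1.1.2.2.2.2 j (hA.not_mov g)]
  · simp [L.n_sup j g]

theorem Amb.eqv (hw : ∀ j, F.wt j = F'.wt (D.φ j)) (hl : F.wl = F'.wl) {s : ch'.AF ν κ S}
    (hs : IsUnit s) (hx : x ∈ T κ D F' u) :
    L.fF (actF F'.toWt s x) = actF F (D.θF s) (L.fF x) := by
  have a := fun j => prod_zpow_ne (ne_S hs) (F'.wt j)
  refine Prod.ext (funext fun l => by simp only [fF, actF_fst, Wt.actL, hl, θF_apply]) ?_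
  simp only [fF, actF_snd, θF_apply, hw]
  rw [((hA.dom hx).scl a).f_act hc (isUnit_dupF hs), (hA.dom hx).f_scl hc a, θ_dup]
  simp only [← Finset.prod_zpow, ← zpow_mul]
  rw [Finset.prod_comm]
  exact Finset.prod_eq_one fun i _ => by
    rw [← zpow_sum_ne (ne_S hs i), Finset.sum_congr rfl fun j _ => mul_comm _ _, hA.wt, zpow_zero]

/-- two points of a fibre have the same curve and the same bundles -/
theorem Amb.exists_same (hx : x ∈ T κ D F' u) (hy : y ∈ T κ D F' u) (e : L.f x.2 = L.f y.2) :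
    ∃ (X : Type) (_ : TopologicalSpace X) (_ : T2Space X) (_ : CompactSpace X) (Q : RS X)
      (N : Finset (X × X)) (B : ι' → LB Q) (π π₂ : X → V ch'.M) (v v₂ : _) (p : _) (ξ : _),
      Cr N B x.2 π v p ξ ∧ Cr N B y.2 π₂ v₂ p ξ ∧ (∀ z, rV D.σ (π₂ z) = rV D.σ (π z)) ∧
        ∀ j ∈ L.I, ∀ z, fld x.2 (π z) j = fld y.2 (π₂ z) j := by
  classical
  have dx := hA.dom hx
  have dy := hA.dom hy
  obtain ⟨X, _, _, _, Q, N, A, π, v, p, ξ, h⟩ := exists_cr dx.mem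
  obtain ⟨B, π₂, v₂, ξ₂, h₂, c, c1, c2, c3⟩ : ∃ B π₂ v₂ ξ₂, Cr (R := Q) N B y.2 π₂ v₂ p ξ₂ ∧
      ∃ c : X → ι → ℂ, (∀ z, rV D.σ (π₂ z) = c z • rV D.σ (π z)) ∧ (∀ z i, c z i ≠ 0) ∧
        ∀ i, (fun z => c z i) ∈ H0 N (B (D.σ i) / A (D.σ i)) := by
    obtain ⟨X', _, _, _, Q', N', A', π', v', p', ξ', h'⟩ := exists_cr dy.mem
    have a := dx.cr hc h
    have a' := e ▸ dy.cr hc h'
    obtain ⟨f, c, hf, b1, b2, b3, b4⟩ := a.par.exists_iso a'.par
    have hp : ∀ n, f (p n) = p' n := fun n => by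
      obtain ⟨t, d⟩ := a.orb_mark.2 (rfl : p n = p n)
      exact a'.orb_mark.1 ⟨c (p n) * t, by rw [b2, d, mul_smul]⟩
    obtain ⟨w, w1, w2, w3, -⟩ := hf.exists_omega f.injective h.par.nd h'.par.nd h.sm_image
      h'.sm_image (fun x y => (b1 x y).1) fun z => and_congr (by
        simp only [sm_iff, b1]
        exact (f.surjective.forall (p := fun w => ¬Jn N' (f z) w)).symm) (by simp [← hp])
    exact ⟨_, _, _, _, h'.comp hf h.par.nd b1 hp (A := fun i => hf.pb (A' i)) (c := 1)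
      (fun i => div_self' (hf.pb (A' i)) ▸ H0.one_mem) (fun _ _ => one_ne_zero) w1 w2 w3, c,
      fun z => (congrArg _ (one_smul _ _)).trans (b2 z), b3, b4⟩
  have q : ∀ j, ∃ w : X → ℂ, (∀ z, w z ≠ 0) ∧ (j ∈ L.I →
      w ∈ H0 N (bz (fun i => B i / A i) (ch'.wd j)) ∧
        ∀ z, fld y.2 (π₂ z) j = w z * fld x.2 (π z) j) := fun j => by
    by_cases g : j ∈ L.I
    · obtain ⟨w, a, b, d⟩ := exists_quot (h.ind_mem (dx.ind h g)) (h₂.ind_mem (dy.ind h₂ g))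
        (ord_fld hx.1 h (hA.not_mov g) (hA.nz j g)) (ord_fld hy.1 h₂ (hA.not_mov g) (hA.nz j g))
        fun n hn => Finset.sum_eq_zero fun m _ => if_neg ((h.sm _ n hn).1)
      exact ⟨w, b, fun _ => ⟨bz_div B A _ ▸ a, d⟩⟩
    · exact ⟨1, fun _ => one_ne_zero, fun a => (g a).elim⟩
  choose w w1 w2 using q
  have r0 : ∀ z, ξ₂ z / ξ z ≠ 0 := fun z => div_ne_zero (h₂.ne z) (h.ne z)
  have rel : ∀ z, (∏ k, c z k ^ (-D.ch.χ) k) * (∏ j, w j z ^ L.n j) *
      (ξ₂ z / ξ z) ^ (L.r : ℤ) = 1 := fun z => by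
    have a := (dx.cr hc h).of_iso c3 c2
    rw [e, ← funext c1] at a
    have b := congrFun (xi_unique a (dy.cr hc h₂)) z
    have d := ((dx.cr hc h).ne z)
    have f : ∀ j, fld y.2 (π₂ z) j ^ L.n j = w j z ^ L.n j * fld x.2 (π z) j ^ L.n j := fun j => by
      by_cases g : j ∈ L.I
      · rw [(w2 j g).2, mul_zpow]
      · simp [L.n_sup j g]
    have g := prod_zpow_ne (c2 z) D.ch.χ
    simp only [f, Finset.prod_mul_distrib] at b
    simp only [Pi.neg_apply, zpow_neg, Finset.prod_inv_distrib, zpow_natCast, div_pow]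
    field_simp [left_ne_zero_of_mul d, h.ne z]
    refine mul_right_cancel₀ (right_ne_zero_of_mul d) ?_
    linear_combination -b
  obtain ⟨α, β, γ, m1, m2, -⟩ := L.exists_mon
  have m := fun z a b e hb => prod_mon' m1 m2 (c2 z) (w1 · z) (r0 z) (rel z) (a := a) (b := b)
    (e := e) hb
  have d0 := fun z i => mul_ne_zero (mul_ne_zero (prod_zpow_ne (c2 z) (α i))
    (prod_zpow_ne (w1 · z) (β i))) (zpow_ne_zero (γ i) (r0 z))
  have hd : ∀ i, (fun z => (∏ k, c z k ^ α i k) * (∏ j, w j z ^ β i j) * (ξ₂ z / ξ z) ^ γ i) ∈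
      H0 N (B i / A i) := fun i => by
    have a := H0.mul_mem h₂.xi (H0.inv_mem h.xi h.ne)
    rw [← div_eq_mul_inv, mul_div_mul_left_eq_div, ← bz_div, ← div_eq_mul_inv] at a
    have b := H0.mul_mem (H0.mul_mem (bz_mem c3 c2 (α i)) (H0.prod_mem (T := Finset.univ)
      (A := fun j => bz (fun i => B i / A i) (ch'.wd j) ^ β i j) (u := fun j => w j ^ β i j)
        fun j _ => ?_)) (H0.zpow_mem a r0 (γ i))
    · have f := prod_cmbG (D := D) (fun i => B i / A i) (α i) (β i) (γ i)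
      rw [m2, prod_single] at f
      rw [f]
      exact mem_of_eq_of_mem (funext fun z => by simp) b
    · by_cases g : j ∈ L.I
      · exact H0.zpow_mem (w2 j g).1 (w1 j) _
      · rw [m1 i j g, zpow_zero, zpow_zero]
        exact H0.one_mem
  have k := h.of_iso hd d0
  have kχ : ∀ z, ξ z * ∏ i, ((∏ k, c z k ^ α i k) * (∏ j, w j z ^ β i j) *
      (ξ₂ z / ξ z) ^ γ i) ^ ch'.χ i = ξ₂ z := fun z => by
    have := m z 0 0 1 fun _ _ => rfl
    rw [show D.cmb 0 0 1 = ch'.χ by simp [cmb, psh]] at this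
    rw [this]
    simp [mul_div_cancel₀ _ (h.ne z)]
  rw [funext kχ] at k
  refine ⟨X, _, ‹_›, ‹_›, Q, N, B, _, π₂, _, v₂, p, ξ₂, k, h₂, fun z => ?_, fun j g z => ?_⟩
  · rw [c1, rV_smul]
    refine congrArg (· • _) (funext fun i => ?_)
    have := m z (Pi.single i 1) 0 0 fun _ _ => rfl
    rw [show D.cmb (Pi.single i 1) 0 0 = Pi.single (D.σ i) 1 by simp [cmb, psh_single],
      prod_single, prod_single] at this
    rw [this]
    simp
  · have := m z 0 (Pi.single j 1) 0 fun i hi => Pi.single_eq_of_ne (ne_of_mem_of_not_mem g hi).symm _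
    rw [show D.cmb 0 (Pi.single j 1) 0 = ch'.wd j by simp [cmb, psh, Pi.single_apply],
      prod_single] at this
    rw [h.fld_smul (dx.ind h g) z (d0 z), this, (w2 j g).2]
    simp

/-- **the fibres are orbits of the kernel** -/
theorem Amb.fib (hc' : ch'.Cuts) (hM : ch'.Tight) (hx : x ∈ T κ D F' u) (hy : y ∈ T κ D F' u)
    (e : L.fF x = L.fF y) : ∃ a, IsUnit a ∧ D.θF a = 1 ∧ actF F'.toWt a x = y := by
  have e1 : x.1 = y.1 := (congrArg Prod.fst e :)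
  have e2 : L.f x.2 = L.f y.2 := congrArg Prod.snd e
  obtain ⟨X, _, _, _, Q, N, B, π, π₂, v, v₂, p, ξ, h, h₂, a, b⟩ := hA.exists_same hc hx hy e2
  obtain ⟨s, hs, s1, s2, s3, s4, s5⟩ := h.exists_unit h₂ hc'.ne (hM.eq h.mem)
  have t0 := (isUnit_iff.1 hs).2.2
  have k1 : ∀ i, s.1 (D.σ i) = 1 := fun i => ContinuousLinearMap.ext fun w => funext fun j =>
    sub_eq_zero.1 (congrArg (· w) (h.full.eq_zero (i := D.σ i)
      (by exact_mod_cast (h.par.finrank_one h.cur _).trans (hM.eq h.mem _).symm)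
      (l := .proj j ∘L s.1 (D.σ i) - .proj j) fun z =>
        (sub_eq_zero.2 (congrFun ((s1 z _).trans (congrFun (a z) i)) j) :)))
  have k2 : ∀ l, s.2.1 (D.τ l) = 1 := fun l => ContinuousLinearMap.ext fun w => h₂.u_ext fun z =>
    (s2 z _ w).trans (congrArg (· w) (gr_unique (((hA.dom hx).cr hc h).gr z)
      (e2 ▸ a z ▸ ((hA.dom hy).cr hc h₂).gr z) (((hA.dom hx).mem_base hc).1 l)))
  have k3 : ∀ n i, s.2.2 n (D.σ i) = 1 := fun n i => by
    have d : y.2.p n (D.σ i) = x.2.p n (D.σ i) := congrArg (fun z => z.p n i) e2.symm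
    rw [s4, act_p, Dict.smul_ap, k1] at d
    exact smul_left_injective ℂ (crv_ne (h.mem.2.2.2.1 n).1 _) (d.trans (one_smul _ _).symm)
  have k4 : ∀ q, s.2.2 (.inr (q, false)) = s.2.2 (.inr (q, true)) := fun q => by
    obtain ⟨α, β, γ, m1, -, m2⟩ := L.exists_mon
    choose t t1 t2 using h.mark
    have t3 : ∀ n, y.2.p n = (s.2.2 n * t n) • π₂ (p n) := fun n => by
      rw [s4, act_p, t2, mul_smul]
      exact congrArg _ (funext fun i => by rw [Dict.smul_ap, map_smul, s1, Dict.smul_ap])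
    have c : ∀ {A A' T T' w w' ε : ℂ}, A * w = ε * (A' * w') → T * A * w = ε * (T' * A' * w') →
        A * w ≠ 0 → T = T' := fun {_ _ _ T' _ _ _} c d f =>
      mul_right_cancel₀ f (by linear_combination d - T' * c)
    have c1 := (h₂.lead_iff (t3 _) (t3 _) _).1 (hy.1.1.1.2.2 q)
    rw [prod_zpow_mul, prod_zpow_mul] at c1
    funext i
    rw [m2 _ (t0 _) i, m2 _ (t0 (.inr (q, true))) i, c ((h.lead_iff (t2 _) (t2 _) _).1
      (hx.1.1.1.2.2 q)) c1 (mul_ne_zero (prod_zpow_ne (t1 _) _) (h.ne _))]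
    simp only [k3]
    congr 2
    refine Finset.prod_congr rfl fun j _ => ?_
    by_cases g : j ∈ L.I
    · have c2 := hx.1.1.2.2.2.2 j (hA.not_mov g) q
      have c3 := hy.1.1.2.2.2.2 j (hA.not_mov g) q
      have t4 : ∀ n i, (s.2.2 n * t n) i ≠ 0 := fun n i => mul_ne_zero (t0 n i) (t1 n i)
      rw [t2, t2, h.fld_smul ((hA.dom hx).ind h g) _ (t1 _),
        h.fld_smul ((hA.dom hx).ind h g) _ (t1 _)] at c2
      rw [t3, t3, h₂.fld_smul ((hA.dom hy).ind h₂ g) _ (t4 _), prod_zpow_mul,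
        h₂.fld_smul ((hA.dom hy).ind h₂ g) _ (t4 _), prod_zpow_mul, ← b j g, ← b j g] at c3
      rw [c (c2.trans (one_mul _).symm) (c3.trans (one_mul _).symm) (mul_ne_zero
        (prod_zpow_ne (t1 _) _) (fld_ne hx.1 h (hA.not_mov g) (hA.nz j g) fun n e =>
          (Sum.inr_ne_inl (h.inj e)).elim))]
    · rw [m1 i j g, zpow_zero, zpow_zero]
  have kθ : D.θ s = 1 := Prod.ext (funext k1) (Prod.ext (funext k2) (funext₂ k3))
  have kd : dup (s.1, s.2.1, fun n => s.2.2 (n.map id fun q => (q, false))) = s :=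
    Prod.ext rfl (Prod.ext rfl (funext fun n => by
      rcases n with n | ⟨q, _ | _⟩
      exacts [rfl, rfl, k4 q]))
  refine ⟨(1, s.1, s.2.1, fun n => s.2.2 (n.map id fun q => (q, false))), isUnitF_iff.2
    ⟨fun _ => one_ne_zero, isUnit_iff.2 ⟨(isUnit_iff.1 hs).1, (isUnit_iff.1 hs).2.1,
      fun _ => t0 _⟩⟩, Prod.ext rfl (Prod.ext (funext k1) (Prod.ext (funext k2)
        (funext₂ fun _ => k3 _))), Prod.ext ((Wt.actL_one _ _).trans e1) ?_⟩
  rw [actF_snd, kd, show (fun j => ∏ i, (1 : S → ℂ) i ^ F'.wt j i) = 1 from funext fun j => by simp,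
    scl_one]
  refine W.ext (fun l => (congrFun s3 l).symm) (fun n => (congrFun s4 n).symm) s5.symm fun j => ?_
  by_cases g : j ∈ F'.mov
  · obtain ⟨j, rfl⟩ := hA.mov ▸ g
    refine ContinuousLinearMap.ext ((D.rb j).surjective.forall.2 fun μ => ?_)
    rw [act_X, sub_rb, kθ, sub_one, k2 (some j), ← L.f_X, ← L.f_X, e2]
    rfl
  by_cases g' : j ∈ F'.zer
  · refine ContinuousLinearMap.ext fun μ => ?_
    simp [act_X, hx.1.1.2.2.2.1 j g', hy.1.1.2.2.2.1 j g']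
  have i1 := (ind_fld h (hx.1.1.2.1 j g)).act hs
  rw [show (fun z l => v z l ∘L Ring.inverse (s.2.1 l)) = v₂ from funext₂ fun z l =>
    ContinuousLinearMap.ext fun w => (s2 z l _).symm.trans
      (congrArg _ (ap_inv (isUnit_E hs l) w)), funext₂ s1, funext fun z => hA.det _ _ _
        (hx.1.1.2.2.1 _ (h.par.mem z)) (e1 ▸ hy.1.1.2.2.1 _ (h₂.par.mem z)) (b · · z) j g g'
        fun i a k => fld_ne hx.1 h (hA.not_mov a) (hA.nz i a) fun n _ => k n] at i1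
  exact (h₂.X_ext (ind_fld h₂ (hy.1.1.2.1 j g)) i1).symm

end Vale.Agent.P269.Ch.Res.Lnk
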