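import Vale.Agent.P269.Base.Match

/-!
# Velocities of arcs in submanifolds and in the matching locus
-/

set_option linter.unusedSectionVars false

namespace Vale.Agent.P269

open Set Function Topology Filter

namespace Holo

variable {T A B : Type*} [TopologicalSpace T] [NormedAddCommGroup A] [NormedSpace ℂ A]
  [NormedAddCommGroup B] [NormedSpace ℂ B] {ι : T → A} {t : T} {n m : ℕ} {v a : A} {S Z : Set A}
  {f : A → B} {c c' : ℂ → A}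

theorem deriv_comp_an' {Φ : A → B} (hΦ : AnalyticAt ℂ Φ a) (hc : AnalyticAt ℂ c 0) (h0 : c 0 = a) :
    deriv (fun ε => Φ (c ε)) 0 = fderiv ℂ Φ a (deriv c 0) :=
  (HasFDerivAt.comp_hasDerivAt_of_eq 0 hΦ.differentiableAt.hasFDerivAt
    hc.differentiableAt.hasDerivAt h0.symm).deriv

theorem deriv_clm (l : A →L[ℂ] B) (hc : AnalyticAt ℂ c 0) :
    deriv (fun ε => l (c ε)) 0 = l (deriv c 0) :=
  (l.hasFDerivAt.comp_hasDerivAt 0 hc.differentiableAt.hasDerivAt).deriv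

/-- Tangent vectors of manifolds are velocities. -/
theorem IsMfd.exists_arc (h : IsMfd ι n t) (hv : v ∈ tan ι t) : ∃ c : ℂ → T, c 0 = t ∧
    ContinuousAt c 0 ∧ AnalyticAt ℂ (fun ε => ι (c ε)) 0 ∧ deriv (fun ε => ι (c ε)) 0 = v := by
  obtain ⟨ψ, h, rfl⟩ := h
  obtain ⟨u, rfl⟩ := h.tan_eq.le hv
  have a : AnalyticAt ℂ (fun ε : ℂ => ε • u) 0 := analyticAt_id.smul analyticAt_const
  exact ⟨fun ε => ψ (ε • u), congrArg ψ (zero_smul _ _), h.lh.cont.comp_of_eq a.continuousAt (zero_smul _ _),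
    h.an.comp_of_eq a (zero_smul _ _), (deriv_comp_an' h.an a (zero_smul _ _)).trans
      (congrArg _ (((hasDerivAt_id' (0 : ℂ)).smul_const u).deriv.trans (one_smul _ _)))⟩

/-- Velocities in the zero set of a submersion. -/
theorem IsMfd.exists_arc_zero [FiniteDimensional ℂ B] (h : IsMfd ι m t) {Φ : A → B}
    (hΦ : AnalyticAt ℂ Φ (ι t)) (h0 : Φ (ι t) = 0)
    (hs : ∀ b, ∃ v ∈ tan ι t, fderiv ℂ Φ (ι t) v = b) (hv : v ∈ tan ι t)
    (h1 : fderiv ℂ Φ (ι t) v = 0) : ∃ c : ℂ → T, c 0 = t ∧ ContinuousAt c 0 ∧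
      AnalyticAt ℂ (fun ε => ι (c ε)) 0 ∧ deriv (fun ε => ι (c ε)) 0 = v ∧
      ∀ ε, Φ (ι (c ε)) = 0 := by
  have h4 : Module.finrank ℂ B ≤ m := by
    have : FiniteDimensional ℂ (tan ι t) := by
      obtain ⟨ψ, h6, rfl⟩ := h
      rw [h6.tan_eq]
      infer_instance
    rw [← h.finrank_tan, ← finrank_top, ← top_le_iff.1 (show ⊤ ≤ (tan ι t).map
      (fderiv ℂ Φ (ι t) : A →ₗ[ℂ] B) from fun b _ => hs b)]
    exact Submodule.finrank_map_le _ _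
  obtain ⟨h2, h3⟩ := IsMfd.sub (Z := {s // Φ (ι s) = 0}) (j := Subtype.val) .subtypeVal
    (z := ⟨t, h0⟩) h hΦ hs (.of_forall fun s => ⟨fun ⟨z, e⟩ => e ▸ z.2, fun e => ⟨⟨s, e⟩, rfl⟩⟩)
    (Nat.sub_add_cancel h4)
  obtain ⟨c, a1, a2, a3, a4⟩ := h2.exists_arc (h3.ge ⟨hv, h1⟩)
  exact ⟨fun ε => c ε, congrArg _ a1, continuous_subtype_val.continuousAt.comp a2, a3, a4,
    fun ε => (c ε).2⟩

theorem MfdAt.exists_arc (h : MfdAt S n a) {ha : a ∈ S}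
    (hv : v ∈ tan (Subtype.val : S → A) ⟨a, ha⟩) : ∃ c, Arc S a c ∧ deriv c 0 = v :=
  let ⟨c, a1, _, a3, a4⟩ := h.2.exists_arc hv
  ⟨fun ε => c ε, ⟨a3, congrArg _ a1, .of_forall fun ε => (c ε).2⟩, a4⟩

theorem Arc.mono (hc : Arc S a c) (h : ∀ᶠ s in 𝓝 a, s ∈ S → s ∈ Z) : Arc Z a c :=
  ⟨hc.an, hc.zero, hc.ev h⟩

theorem Arc.deriv_eq (hc : Arc S a c) {Φ : A → B} (hΦ : AnalyticAt ℂ Φ a)
    (h : ∀ᶠ s in 𝓝 a, s ∈ S → f s = Φ s) :
    deriv (fun ε => f (c ε)) 0 = fderiv ℂ Φ a (deriv c 0) :=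
  (EventuallyEq.deriv_eq (hc.ev (p := fun s => f s = Φ s) h)).trans
    (deriv_comp_an' hΦ hc.an hc.zero)

/-- The derivative of a holomorphic function along an arc only depends on the velocity. -/
theorem HolOn.deriv_eq (h : HolOn S f a) (hc : Arc S a c) (hc' : Arc S a c')
    (e : deriv c 0 = deriv c' 0) : deriv (fun ε => f (c ε)) 0 = deriv (fun ε => f (c' ε)) 0 :=
  let ⟨_, h1, h2⟩ := h
  (hc.deriv_eq h1 h2).trans (e ▸ (hc'.deriv_eq h1 h2).symm)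

/-- Velocities in the zero set of a holomorphic map that is a submersion along arcs. -/
theorem MfdAt.arc_sub [FiniteDimensional ℂ B] (h : MfdAt S m a) (hf : HolOn S f a) (h0 : f a = 0)
    (hs : ⊤ ≤ Submodule.span ℂ {b | ∃ c, Arc S a c ∧ deriv (fun ε => f (c ε)) 0 = b})
    (hZ : ∀ᶠ s in 𝓝 a, s ∈ S → f s = 0 → s ∈ Z) (hc : Arc S a c)
    (h1 : deriv (fun ε => f (c ε)) 0 = 0) : ∃ c', Arc Z a c' ∧ deriv c' 0 = deriv c 0 := by
  obtain ⟨Φ, h2, h3⟩ := hf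
  obtain ⟨c', a1, -, a3, a4, a5⟩ := h.2.exists_arc_zero (Φ := Φ) h2
    ((h3.self_of_nhds h.1).symm.trans h0) (fun b => Submodule.span_le.2 (show _ ⊆
      (((tan (Subtype.val : S → A) ⟨a, h.1⟩).map (fderiv ℂ Φ a : A →ₗ[ℂ] B) : Submodule ℂ B) :
        Set B) from by
          rintro _ ⟨c, hc, e⟩
          exact ⟨_, hc.mem_tan h.1, (hc.deriv_eq h2 h3).symm.trans e⟩) (hs trivial))
    (hc.mem_tan h.1) ((hc.deriv_eq h2 h3).symm.trans h1)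
  have k : Arc S a fun ε => c' ε := ⟨a3, congrArg _ a1, .of_forall fun ε => (c' ε).2⟩
  refine ⟨_, ⟨k.an, k.zero, ?_⟩, a4⟩
  filter_upwards [k.ev (p := fun s => f s = Φ s) h3, k.ev hZ] with ε b1 b2
    using b2 (b1.trans (a5 ε))

end Holo

namespace Ch

open Holo Base

variable {J ι ν I E : Type} [Fintype J] [Fintype ι] [DecidableEq ι] [Fintype ν] [Fintype I]
  [Fintype E] {ch : Ch ι J} {l : Option J} {A : Type*} [NormedAddCommGroup A] [NormedSpace ℂ A]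
  {S Z : Set (A × ch.W ν)} {x : A × ch.W ν} {c c' : ℂ → A × ch.W ν}

theorem holOn_rsd' (hl : ∀ i, 4 ≤ ch.a l i) (hx : x ∈ S)
    (hb : ∀ᶠ s in 𝓝 x, s ∈ S → s.2 ∈ ch.base ν) (n : ν) : HolOn S (fun s => rsd s.2 n) x :=
  (holOn_rsd hl (hb.self_of_nhds hx) n).comp (F := Prod.snd) (.of_an analyticAt_snd) hx hb

theorem holOn_fld_p (hx : x ∈ S) {j : J}
    (hb : ∀ᶠ s in 𝓝 x, s ∈ S → s.2 ∈ ch.base ν ∧ ∀ c ∈ crv s.2, ∃ y, Val s.2 j c y) (n : ν) :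
    HolOn S (fun s => fld s.2 (s.2.p n) j) x :=
  holOn_fld hx (.of_an analyticAt_snd) (hb.self_of_nhds hx).1.1 (.of_an (W.an_p analyticAt_snd n))
    (hb.mono fun _ b c => ⟨((b c).1.2.2.2.1 n).1, (b c).2 _ ((b c).1.2.2.2.1 n).1⟩)

/-- **Velocities in the matching locus.** -/
theorem arc_match (hl : ∀ i, 4 ≤ ch.a l i) {m : ℕ} (h : MfdAt S m x)
    {φ : I → J} (hb : ∀ᶠ s in 𝓝 x, s ∈ S → s.2 ∈ ch.base ν ∧
      ∀ i, ∀ c ∈ crv s.2, ∃ y, Val s.2 (φ i) c y)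
    (harc : ∀ τ : ℂ → ν → ι → ℂ, AnalyticAt ℂ τ 0 → τ 0 = 1 →
      ∃ w : ℂ → A, Arc S x fun ε => (w ε, act (1, 1, τ ε) x.2))
    (hi : LinearIndependent ℤ fun o : Option I => o.elim ch.χ fun i => ch.wd (φ i))
    {n₀ n₁ : E → ν} (h1 : Injective n₁) (h2 : ∀ e e', n₀ e ≠ n₁ e')
    (hne : ∀ e i, fld x.2 (x.2.p (n₁ e)) (φ i) ≠ 0) {a : ℂ} (ha : a ≠ 0)
    (hZ : ∀ᶠ s in 𝓝 x, s ∈ S → (∀ e, rsd s.2 (n₀ e) = a * rsd s.2 (n₁ e) ∧
      ∀ i, fld s.2 (s.2.p (n₀ e)) (φ i) = fld s.2 (s.2.p (n₁ e)) (φ i)) → s ∈ Z)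
    (hx : ∀ e, rsd x.2 (n₀ e) = a * rsd x.2 (n₁ e) ∧
      ∀ i, fld x.2 (x.2.p (n₀ e)) (φ i) = fld x.2 (x.2.p (n₁ e)) (φ i)) (hc : Arc S x c)
    (h3 : ∀ e, deriv (fun ε => rsd (c ε).2 (n₀ e) - a * rsd (c ε).2 (n₁ e)) 0 = 0 ∧
      ∀ i, deriv (fun ε => fld (c ε).2 ((c ε).2.p (n₀ e)) (φ i) -
        fld (c ε).2 ((c ε).2.p (n₁ e)) (φ i)) 0 = 0) :
    ∃ c', Arc Z x c' ∧ deriv c' 0 = deriv c 0 := by
  classical
  let X : Option I → ι → ℤ := fun o => o.elim ch.χ fun i => ch.wd (φ i)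
  obtain ⟨v, hv⟩ := exists_dualC (X := X) hi
  let g : ch.W ν → ν → Option I → ℂ := fun s n o =>
    o.elim (rsd s n) fun i => fld s (s.p n) (φ i)
  let α : Option I → ℂ := fun o => o.elim a fun _ => 1
  let f : A × ch.W ν → E × Option I → ℂ := fun s e =>
    g s.2 (n₀ e.1) e.2 - α e.2 * g s.2 (n₁ e.1) e.2
  obtain ⟨hb0, hb1⟩ := hb.self_of_nhds h.1
  have hg : ∀ n o, HolOn S (fun s => g s.2 n o) x := by
    rintro n (_ | i)
    exacts [holOn_rsd' hl h.1 (hb.mono fun _ b c => (b c).1) n,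
      holOn_fld_p h.1 (hb.mono fun _ b c => ⟨(b c).1, (b c).2 i⟩) n]
  have hf : ∀ s, f s = 0 ↔ ∀ e, rsd s.2 (n₀ e) = a * rsd s.2 (n₁ e) ∧
      ∀ i, fld s.2 (s.2.p (n₀ e)) (φ i) = fld s.2 (s.2.p (n₁ e)) (φ i) := fun s => by
    simp [f, g, α, funext_iff, Option.forall, sub_eq_zero]
  have ht : ∀ τ : ν → ι → ℂ, (∀ n i, τ n i ≠ 0) → ∀ n o,
      g (act (1, 1, τ) x.2) n o = chz (X o) (τ n) * g x.2 n o := by
    rintro τ hτ n (_ | i)
    · exact rsd_act hb0 (isUnit_tor hτ) n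
    · exact fld_smul (hb0.2.2.2.1 n).1 (hb1 i _ (hb0.2.2.2.1 n).1) (hτ n)
  have h4 : ∀ e, HolOn S (fun s => f s e) x := fun e => ((hg (n₀ e.1) e.2).prod
    (hg (n₁ e.1) e.2)).comp_an (G := fun z : ℂ × ℂ => z.1 - α e.2 * z.2) h.1
      (analyticAt_fst.sub (analyticAt_const.mul analyticAt_snd))
  refine h.arc_sub (f := f) (.pi h4) ((hf x).2 hx) (span_of_det (D := Matrix.diagonal fun e =>
      -(α e.2 * g x.2 (n₁ e.1) e.2)) ?_ fun e => ?_) (by simpa only [hf] using hZ) hc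
    ((deriv_pi fun e => ((h4 e).arc hc).differentiableAt).trans (funext fun ⟨e, o⟩ => ?_))
  · rw [Matrix.det_diagonal]
    refine Finset.prod_ne_zero_iff.2 fun ⟨e, o⟩ _ => neg_ne_zero.2 (mul_ne_zero ?_ ?_) <;> cases o
    exacts [ha, one_ne_zero, rsd_ne hb0 _, hne _ _]
  · let τ : ℂ → ν → ι → ℂ := fun ε n i => Complex.exp ((if n = n₁ e.1 then v e.2 i else 0) * ε)
    obtain ⟨w, hw⟩ := harc τ (analyticAt_pi_iff.2 fun n => analyticAt_pi_iff.2 fun i => by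
      fun_prop) (funext₂ fun n i => by simp [τ])
    refine ⟨_, hw, HasDerivAt.deriv (hasDerivAt_pi.2 fun ⟨e', o⟩ => ?_)⟩
    have h6 : ∀ ε n, chz (X o) (τ ε n) =
        Complex.exp ((if n = n₁ e.1 ∧ e.2 = o then 1 else 0) * ε) := fun ε n => by
      simp only [τ, chz_exp, ← mul_assoc, ← Finset.sum_mul]
      by_cases b : n = n₁ e.1 <;> simp [b, hv]
    simp only [f, fun ε => ht (τ ε) fun _ _ => Complex.exp_ne_zero _, h6, h2, false_and, if_false,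
      h1.eq_iff, zero_mul]
    refine (((((hasDerivAt_id' (0 : ℂ)).const_mul _).cexp.mul_const _).const_mul _).const_sub
      _).congr_deriv ?_
    by_cases h7 : e = (e', o)
    · simp [h7]
    · rw [Matrix.diagonal_apply_ne _ h7, if_neg fun b => h7 (Prod.ext b.1.symm b.2)]
      simp
  · cases o
    exacts [(h3 e).1, by simpa only [f, g, α, Option.elim, one_mul, Pi.zero_apply] using (h3 e).2 _]

end Ch

end Vale.Agent.P269
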