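import Vale.Agent.P269.Map.DD
import Vale.Agent.P269.Map.Tr
import Vale.Agent.P269.Map.TrvM
import Vale.Agent.P269.Vir.Sd

set_option linter.unusedSectionVars false

/-!
# Nowhere vanishing movable fields: the routine part
-/

namespace Vale.Agent.P269

open P291Z Set Function Topology Filter Base Holo

variable {S Λ R J K ι ν κ I : Type} [Fintype S] [Fintype Λ] [Fintype R] [Fintype J] [Fintype K]
  [Fintype ι] [DecidableEq ι] [Fintype ν] [Fintype κ] [Fintype I] [DecidableEq I]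

namespace Ch

variable {ch : Ch ι J} {F : Fam S Λ R J K} {T : Set J} {φ : I → J} {n : J → I → ℤ}
  {ψ : J → (Λ → ℂ) → ℂ} {x : ch.WF ν κ Λ} {b : ℕ}

variable (ch ν) in
/-- The shape of the base fields after the movable fields `T` have become free base fields. -/
structure GrT (F : Fam S Λ R J K) (T : Set J) (φ : I → J) (n : J → I → ℤ) (ψ : J → (Λ → ℂ) → ℂ) :
    Prop where
  inv : F.Inv
  sub : T ⊆ F.mov
  gr : Gr ch (F.bas T) (0 : ν → J → ℕ) φ n ψ
  free : T ⊆ range φ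
  ind : ∀ j ∉ F.mov, j ∉ F.zer → ∀ i, φ i ∈ T → n j i = 0

/-- a section has order zero along all branches iff it has no zeros -/
theorem ord_zero_iff {ν' : Type} [Fintype ν'] {y : ch.W ν'} (hy : y ∈ ch.base ν') {j : J}
    (h : ∀ c ∈ crv y, ∃ v, Val y j c v) :
    (∀ γ, IsBranch ch.o (crv y) γ → analyticOrderAt (fun t => fld y (γ t) j) 0 = 0) ↔
      ∀ c ∈ crv y, fld y c j ≠ 0 := by
  refine ⟨fun a c hc => ?_, fun a γ hγ =>
    analyticOrderAt_eq_zero.2 (.inr (a _ hγ.mem.self_of_nhds))⟩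
  obtain ⟨γ, hγ⟩ := hy.2.2.1.nod.exists_loc hc
  obtain rfl := hγ.zero true
  exact (an_fld hy h (hγ.br true)).analyticOrderAt_eq_zero.1 (a _ (hγ.br true))

theorem mem_main_zero : x ∈ ch.main κ F 0 ↔
    x ∈ ch.adm ν κ F ∧ ∀ j ∉ F.mov, j ∉ F.zer → ∀ c ∈ crv x.2, fld x.2 c j ≠ 0 :=
  and_congr_right fun h => forall₃_congr fun j hj _ => by
    rw [← ord_zero_iff h.1.2.1 (h.2.1 j hj)]
    simp

theorem notMem_bas {j : J} : j ∉ (F.bas T).mov ↔ j ∉ F.mov ∨ j ∈ T :=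
  not_and_or.trans (or_congr_right not_not)

theorem triv_zero_iff {y : ch.W (Mk ν κ)} (hy : y ∈ ch.base _) {j : J}
    (h : ∀ c ∈ crv y, ∃ v, Val y j c v) : Triv ch.o (crv y) (ch.wd j) y.p
      (fun m => (Sum.elim (0 : ν → J → ℕ) 0 : Mk ν κ → J → ℕ) m j) (fun c => fld y c j) ↔
        ∀ c ∈ crv y, fld y c j ≠ 0 := by
  rw [triv_fld_iff hy h, ← ord_zero_iff hy h]
  simp

section tests

variable {O : Set (ch.WF ν κ Λ)}

theorem holOn_match (hx : x ∈ O) (hO : ∀ y ∈ O, y.2 ∈ ch.base _) {j : J}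
    (hj : ∀ y ∈ O, ∀ c ∈ crv y.2, ∃ v, Val y.2 j c v) (m m' : Mk ν κ) :
    HolOn O (fun y => fld y.2 (y.2.p m) j - fld y.2 (y.2.p m') j) x :=
  have a : ∀ m, HolOn O (fun y => fld y.2 (y.2.p m) j) x := fun m =>
    holOn_fld hx (.of_an analyticAt_snd) (hO x hx).1 (.of_an (W.an_p analyticAt_snd m))
      (.of_forall fun y b => ⟨((hO y b).2.2.2.1 m).1, hj y b _ ((hO y b).2.2.2.1 m).1⟩)
  ((a m).prod (a m')).comp_an (G := fun z : ℂ × ℂ => z.1 - z.2) hx
    (analyticAt_fst.sub analyticAt_snd)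

/-- the matching conditions are tests -/
theorem tst_kdT (q : κ) {j : J} (hj : j ∈ T) {Φ : ch.WF ν κ Λ → ℂ} (h1 : AnalyticAt ℂ Φ x)
    (h2 : ∀ᶠ y in 𝓝 x, y ∈ O →
      fld y.2 (y.2.p (.inr (q, false))) j - fld y.2 (y.2.p (.inr (q, true))) j = Φ y) :
    (ch.kdT ν κ F T).Tst O x (fun _ => .proj j ∘ₗ .proj q) Φ :=
  ⟨h1, fun _ _ => .of_forall fun _ => continuousWithinAt_const,
    .of_forall fun _ w (hw : w = 0) => hw ▸ map_zero _,
    (eventually_nhdsWithin_iff.2 h2).mono fun _ a => (zc_not _ (not_not.2 hj)).trans a⟩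

/-- The value of the Koszul component `j` at the point `z` and the forms `m`. -/
def evK (z : ch.Pt) (j : J) (m : ch.Th j × ch.Th j) : ch.P K →ₗ[ℂ] ℂ where
  toFun w := w.1 j z m
  map_add' _ _ := rfl
  map_smul' _ _ := rfl

/-- the Koszul relations at a moving point are tests -/
theorem tst_kdK (hx : ∀ l, Surjective (x.2.Q l)) {c : ch.WF ν κ Λ → V ch.M} (hc : AnalyticAt ℂ c x)
    (hm : ∀ᶠ y in 𝓝 x, y ∈ O → c y ∈ crv y.2) :
    ∃ u : ch.WF ν κ Λ → ∀ l, ch.E l →L[ℂ] ℂ, AnalyticAt ℂ u x ∧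
      (∀ᶠ y in 𝓝 x, ∀ w, (c y, w) ∈ gr y.2 → w = u y) ∧ ∀ j μ μ',
        (ch.kdK ν κ F T).Tst O x (fun y => evK (c y, u y) j (μ, μ')) fun y =>
          val μ' (c y) * u y (some j) ((zr Tᶜ y).2.X j μ) -
            val μ (c y) * u y (some j) ((zr Tᶜ y).2.X j μ') := by
  obtain ⟨U, h1, h2⟩ := exists_an_ev hx (c x)
  have h3 : AnalyticAt ℂ (fun y => (y.2, c y)) x := analyticAt_snd.prod hc
  have h4 : AnalyticAt ℂ (fun y => U (y.2, c y)) x := h1.comp_of_eq h3 rfl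
  have h5 := h3.continuousAt.eventually h2
  refine ⟨_, h4, h5, fun j μ μ' => ⟨?_, fun w hw => ?_, ?_, .of_forall fun _ => rfl⟩⟩
  · have k : AnalyticAt ℂ (fun y => (zr Tᶜ y : ch.WF ν κ Λ).2) x :=
      analyticAt_snd.comp ((zr Tᶜ : ch.WF ν κ Λ →L[ℂ] ch.WF ν κ Λ).analyticAt x)
    have a : ∀ μ μ' : ch.Th j, AnalyticAt ℂ
        (fun y => val μ' (c y) * U (y.2, c y) (some j) ((zr Tᶜ y).2.X j μ)) x := fun μ μ' =>
      ((analyticAt_val μ' _).comp hc).mul (an_apply (analyticAt_pi_iff.1 h4 _) (an_apply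
        (W.an_X k j) analyticAt_const))
    exact (a μ μ').sub (a μ' μ)
  · exact ((hc.prod h4).eventually_analyticAt.filter_mono nhdsWithin_le_nhds).mono fun y a =>
      ((cont_G1 ((mem_polS.1 hw).1 j)).continuousAt.comp
        (a.continuousAt.prodMk continuousAt_const)).continuousWithinAt
  · filter_upwards [eventually_nhdsWithin_iff.2 hm, h5.filter_mono nhdsWithin_le_nhds]
      with y a b w hw
    obtain ⟨v, hv⟩ := mem_crv.1 a
    exact congrFun (((mem_vanF.2 hw).2 _ (b v hv ▸ hv)).1 j) _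

theorem exists_mov_pt (hN : Num₀ ch) (hx : x.2 ∈ ch.base _) {c₀ : V ch.M} (h1 : c₀ ∈ crv x.2)
    (h2 : ¬IsNode ch.o (crv x.2) c₀) : ∃ c : ch.WF ν κ Λ → V ch.M, AnalyticAt ℂ c x ∧ c x = c₀ ∧
      ∀ᶠ y in 𝓝 x, y.2 ∈ ch.base _ → c y ∈ crv y.2 := by
  obtain ⟨l, hl⟩ := hN.cut
  obtain ⟨σ, h3, h4⟩ := (locFam_base hl ⟨x.2, hx⟩).smAt h1 h2
  exact ⟨fun y => σ (y.2, 0), h4.an.comp_of_eq (analyticAt_snd.prod analyticAt_const) rfl, h3,
    continuousAt_snd.eventually ((ev_sub hx (p := fun s => σ (s, 0) ∈ crv s)).1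
      (((tendsto_inl _ 0).eventually h4.mem).mono fun _ a => a trivial))⟩

theorem van_of_tst (hN : Num₀ ch) (hx : x.2 ∈ ch.base _) (hO : ∀ y ∈ O, y.2 ∈ ch.base _)
    {w : ch.P Empty} (hw : w ∈ ch.polF (F.kos T) Empty.elim)
    (H : ∀ m ψ, (ch.kdK ν κ F T).Tst O x m ψ → m x w = 0) : w ∈ (ch.kdK ν κ F T).van x := by
  refine mem_vanF.1 ⟨hw, fun z hz => ⟨fun j => funext fun m => ?_, fun k => k.elim⟩⟩
  have a : ∀ c u, (c, u) ∈ gr x.2 → ¬IsNode ch.o (crv x.2) c → w.1 j (c, u) m = 0 := by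
    intro c₀ u₀ h1 h2
    obtain ⟨c, h3, rfl, h4⟩ := exists_mov_pt hN hx (mem_crv.2 ⟨u₀, h1⟩) h2
    obtain ⟨u, -, h5, h6⟩ := tst_kdK (F := F) (T := T) (O := O) hx.1 h3
      (h4.mono fun y a b => a (hO y b))
    exact h5.self_of_nhds _ h1 ▸ H _ _ (h6 j m.1 m.2)
  obtain ⟨U, h1, h2⟩ := exists_an_ev hx.1 z.1
  have h3 : ContinuousAt (fun c => w.1 j (c, U (x.2, c)) m) z.1 :=
    (cont_G1 ((mem_polS.1 hw).1 j)).continuousAt.comp ((continuousAt_id.prodMk
      (h1.continuousAt.comp (tendsto_inr _ _))).prodMk continuousAt_const)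
  have h4 := isClosed_singleton.mem_of_frequently_of_tendsto (s := {0})
    (((hx.2.2.1.nod.frequently_not_node (β := Empty) Empty.elim (mem_crv.2 ⟨z.2, hz⟩)).and_eventually
      (Eventually.and self_mem_nhdsWithin (((tendsto_inr _ _).eventually h2).filter_mono
        nhdsWithin_le_nhds))).mono fun c ⟨k1, k2, k3⟩ =>
          let ⟨v, hv⟩ := mem_crv.1 k2
          a c _ (k3 v hv ▸ hv) k1.2) (h3.tendsto.mono_left nhdsWithin_le_nhds)
  exact (congrArg (fun u => w.1 j (z.1, u) m) (h2.self_of_nhds z.2 hz)).trans h4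

end tests

namespace GrT

variable (h : ch.GrT ν F T φ n ψ)
include h

theorem notMem_zer {j : J} (hj : j ∈ T) : j ∉ F.zer :=
  h.inv.zer_base.notMem_of_mem_right (h.sub hj)

theorem inj : Injective φ := fun i i' e => by
  have a := congrFun ((h.gr.free i).2.2.1.symm.trans (e ▸ (h.gr.free i').2.2.1)) i
  by_contra k
  simp [k] at a

open Classical in
theorem unbas : Gr ch F (0 : ν → J → ℕ) (fun i : {i // φ i ∉ T} => φ i) (fun j i => n j i) ψ := by
  have hp : ∀ {A : Type} [CommMonoid A] (f : I → A), (∀ i, φ i ∈ T → f i = 1) →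
      ∏ i, f i = ∏ i : {i // φ i ∉ T}, f i := fun f hf => by
    rw [← Fintype.prod_subtype_mul_prod_subtype (φ · ∈ T) f,
      Finset.prod_eq_one fun i _ => hf i.1 i.2, one_mul]
  refine ⟨h.inv.zer_base, fun i => ⟨(notMem_bas.1 (h.gr.free i).1).resolve_right i.2,
    (h.gr.free i).2.1, funext fun i' => ?_, (h.gr.free i).2.2.2⟩, ?_, fun _ _ _ _ => rfl, h.gr.an,
    fun j a b => (h.gr.wd j (notMem_bas.2 (.inl a)) b).trans ?_, fun _ _ _ _ => by simp,
    fun l hl y hy hn => ?_⟩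
  · simp only [(h.gr.free i).2.2.1, Pi.single_apply, Subtype.ext_iff]
  · have := h.gr.li.comp (Option.map Subtype.val : Option {i // φ i ∉ T} → _)
      (Option.map_injective Subtype.val_injective)
    rwa [show (fun o : Option I => o.elim ch.χ fun i => ch.wd (φ i)) ∘ Option.map Subtype.val =
      fun o : Option {i // φ i ∉ T} => o.elim ch.χ fun i => ch.wd (φ i) from
        funext fun o => by cases o <;> rfl] at this
  · exact hp (A := Multiplicative (ι → ℤ)) _ fun i hi => by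
      rw [h.ind j a b i hi, zero_smul]; rfl
  · let y' : J → ℂ := fun j => if j ∈ T then 1 else y j
    have e : ∀ j ∉ F.mov, y j = y' j := fun j a => (if_neg fun k => a (h.sub k)).symm
    have e' : ∀ j, ∏ i, y' (φ i) ^ n j i = ∏ i : {i // φ i ∉ T}, y (φ i) ^ n j i := fun j =>
      (hp _ fun i hi => by simp [y', hi]).trans
        (Finset.prod_congr rfl fun i _ => congrArg (· ^ _) (if_neg i.2))
    refine (Iff.intro (h.inv.baseE l y y' e) (h.inv.baseE l y' y fun j a => (e j a).symm)).trans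
      ((h.gr.E l hl y' (fun j a => (if_neg fun k => h.notMem_zer k a).trans (hy j a))
        fun j i a => ?_).trans ⟨fun k j a c => ?_, fun k j a c => ?_⟩)
    · by_cases k : φ i ∈ T
      · simp [y', k]
      · exact (if_neg k).trans_ne (hn j ⟨i, k⟩ a)
    · rw [e j a, k j (notMem_bas.2 (.inl a)) c, e']
    · rcases notMem_bas.1 a with a | a
      · rw [← e j a, k j a c, e']
      · obtain ⟨i, rfl⟩ := h.free a
        rw [(h.gr.free i).2.2.1, (h.gr.free i).2.2.2,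
          Fintype.prod_eq_single i fun i' k => by simp [k]]
        simp

open Classical in
theorem card : Fintype.card {i // φ i ∉ T} + T.ncard = Fintype.card I := by
  have a : T = φ '' {i | φ i ∈ T} := (image_preimage_eq_of_subset h.free).symm
  have b : T.ncard = Fintype.card {i // φ i ∈ T} := by
    rw [a, ncard_image_of_injective _ h.inj, ← a, ← Nat.card_coe_set_eq, Nat.card_eq_fintype_card]
    rfl
  rw [b, Fintype.card_subtype_compl, Nat.sub_add_cancel (Fintype.card_subtype_le _)]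

theorem mem_main : x ∈ ch.main κ (F.bas T) 0 ↔ x ∈ ch.secT ν κ F T ∧ ∀ q, ∀ j ∈ T,
    fld x.2 (x.2.p (.inr (q, false))) j = fld x.2 (x.2.p (.inr (q, true))) j := by
  rw [mem_main_zero]
  refine ⟨fun ⟨⟨a, b, c, d, e⟩, f⟩ => ⟨⟨mem_main_zero.2
    ⟨⟨a, fun j k => b j (notMem_bas.2 (.inl k)), c, d, fun j k => e j (notMem_bas.2 (.inl k))⟩,
      fun j k => f j (notMem_bas.2 (.inl k))⟩, fun j k c hc => ⟨b j (notMem_bas.2 (.inr k)) c hc,
        f j (notMem_bas.2 (.inr k)) (h.notMem_zer k) c hc⟩⟩,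
      fun q j k => e j (notMem_bas.2 (.inr k)) q⟩, fun ⟨⟨a, b⟩, c⟩ => ?_⟩
  obtain ⟨⟨a1, a2, a3, a4, a5⟩, a6⟩ := mem_main_zero.1 a
  exact ⟨⟨a1, fun j k => (notMem_bas.1 k).elim (a2 j) fun k c hc => (b j k c hc).1, a3, a4,
    fun j k => (notMem_bas.1 k).elim (a5 j) fun k q => c q j k⟩,
    fun j k k' => (notMem_bas.1 k).elim (a6 j · k') fun k c hc => (b j k c hc).2⟩

theorem ivt : Ivt (actF F.toWt) (ch.secT ν κ F T) := fun s hs x hx =>
  ⟨actF_mem_main h.inv hs hx.1, fun j hj c hc => by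
    obtain ⟨c, a, rfl⟩ := (mem_crv_actF hs).1 hc
    refine ⟨⟨_, (val_fld (hx.2 j hj c a).1).actF hs⟩, ?_⟩
    rw [fld_actF hs a (hx.2 j hj c a).1]
    exact mul_ne_zero (prod_zpow_ne (ne_S hs) _) (hx.2 j hj c a).2⟩

theorem mem_secT : x ∈ ch.secT ν κ F T ↔
    x ∈ ch.main₀ (F.bas T) (Sum.elim (0 : ν → J → ℕ) 0 : Mk ν κ → J → ℕ) ∧
      ∀ q, rsd x.2 (.inr (q, false)) = (-1) ^ ch.k * rsd x.2 (.inr (q, true)) ∧
        ∀ i : {i // φ i ∉ T},
          fld x.2 (x.2.p (.inr (q, false))) (φ i) = fld x.2 (x.2.p (.inr (q, true))) (φ i) := by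
  classical
  refine (and_congr_left' (mem_main_iff₀ h.unbas)).trans (and_right_comm.trans (and_congr_left'
    ⟨fun ⟨⟨a, b⟩, c⟩ => ⟨⟨a.par, a.base, fun j k => (notMem_bas.1 k).elim (a.val j)
      fun k d e => (c j k d e).1, a.zer, fun j k k' => (notMem_bas.1 k).elim (a.triv j · k')
        fun k => (triv_zero_iff a.base fun d e => (c j k d e).1).2 fun d e => (c j k d e).2⟩, b⟩,
    fun ⟨a, b⟩ => ⟨⟨⟨a.par, a.base, fun j k => a.val j (notMem_bas.2 (.inl k)), a.zer,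
      fun j k => a.triv j (notMem_bas.2 (.inl k))⟩, b⟩, fun j k c d =>
        have e := notMem_bas (F := F).2 (.inr k)
        ⟨a.val j e c d, (triv_zero_iff a.base (a.val j e)).1 (a.triv j e (h.notMem_zer k)) c d⟩⟩⟩))

theorem ne_free (hx : x ∈ ch.main₀ (F.bas T) (Sum.elim (0 : ν → J → ℕ) 0 : Mk ν κ → J → ℕ)) (i : I) :
    ∀ c ∈ crv x.2, fld x.2 c (φ i) ≠ 0 :=
  (triv_zero_iff hx.1.base (hx.1.val _ (h.gr.free i).1)).1
    (hx.1.triv _ (h.gr.free i).1 (h.gr.free i).2.1)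

variable (hN : Num₀ ch) (hB : F.Sm b)
include hN hB

theorem mfd_secT (hx : x ∈ ch.secT ν κ F T) : ∃ d : ℕ,
    (d : ℤ) = ch.dimM ν κ (F.bas T) b (Fintype.card I) + Fintype.card κ * T.ncard ∧
      MfdAt (ch.secT ν κ F T) d x := by
  classical
  obtain ⟨l, hl⟩ := hN.cut
  have h0 := (h.mem_secT.1 hx).1
  obtain ⟨N, a, c⟩ := hN.mfdAt h0.1.base
  obtain ⟨d, h1, h2⟩ := mfd_main₀ hl hN.a_ne h.gr.ext h0 ⟨h0.1.par, hB ⟨_, h0.1.par⟩⟩ c
  obtain ⟨d', h3, h4⟩ := mfd_match (Z := ch.secT ν κ F T) (n₀ := fun q => .inr (q, false))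
    (n₁ := fun q => .inr (q, true)) (φ := fun i : {i // φ i ∉ T} => φ i) hl h2
    (.of_forall fun _ a => ⟨a.1.base, fun i => a.1.val _ (h.gr.free i).1⟩)
    (fun τ a b => ⟨fun _ => x.1, analyticAt_const.prod (an_tor a _),
      Prod.ext rfl (arc_tor h0.1.base a b).zero, (ev_tor a b).mono fun _ c => main₀_tor h0 c⟩)
    h.unbas.li (fun _ _ e => by simpa using e) (by simp)
    (fun q i => h.ne_free h0 i _ (h0.1.base.2.2.2.1 _).1)
    (pow_ne_zero ch.k (neg_ne_zero.2 one_ne_zero)) (.of_forall fun _ => h.mem_secT) hx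
  refine ⟨d', ?_, h4⟩
  have h5 := congrArg (Nat.cast : ℕ → ℤ) h.card
  have h6 := congrArg (Nat.cast : ℕ → ℤ) h3
  push_cast at h5 h6
  rw [dimM, ← a]
  linear_combination h1 + h6 - Fintype.card κ * h5

theorem sep_kdK (hx : x ∈ ch.secT ν κ F T) : (ch.kdK ν κ F T).Sep (ch.main κ F 0) x :=
  fun _ hw => van_of_tst hN hx.1.1.1.2.1 (fun _ a => a.1.1.2.1) hw.1

/-- the matching conditions are transverse -/
theorem trv_kdT (hx : x ∈ ch.main κ (F.bas T) 0) :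
    (ch.kdT ν κ F T).Trv (ch.main κ (F.bas T) 0) (ch.secT ν κ F T) x := by
  rintro v ⟨hs, hv⟩ H
  obtain ⟨d, -, hd⟩ := h.mfd_secT hN hB hs
  obtain ⟨c, hc, rfl⟩ := hd.exists_arc hv
  obtain ⟨l, hl⟩ := hN.cut
  obtain ⟨h0, h3⟩ := (mem_main_iff₀ h.gr).1 hx
  obtain ⟨N, -, k⟩ := hN.mfdAt h0.1.base
  obtain ⟨d, -, h2⟩ := mfd_main₀ hl hN.a_ne h.gr.ext h0 ⟨h0.1.par, hB ⟨_, h0.1.par⟩⟩ k
  have e := hc.mem.mono fun _ a => (h.mem_secT.1 a).2
  have z : ∀ {f : ℂ → ℂ}, (∀ᶠ ε in 𝓝 0, f ε = 0) → deriv f 0 = 0 := fun a =>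
    (EventuallyEq.deriv_eq a).trans (deriv_const _ _)
  obtain ⟨c', h4, h5⟩ := arc_match (Z := ch.main κ (F.bas T) 0) (n₀ := fun q => .inr (q, false))
    (n₁ := fun q => .inr (q, true)) hl h2
    (.of_forall fun _ a => ⟨a.1.base, fun i => a.1.val _ (h.gr.free i).1⟩)
    (fun τ a b => ⟨fun _ => x.1, analyticAt_const.prod (an_tor a _),
      Prod.ext rfl (arc_tor h0.1.base a b).zero, (ev_tor a b).mono fun _ c => main₀_tor h0 c⟩)
    h.gr.li (fun _ _ e => by simpa using e) (by simp)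
    (fun q i => h.ne_free h0 i _ (h0.1.base.2.2.2.1 _).1)
    (pow_ne_zero ch.k (neg_ne_zero.2 one_ne_zero))
    (.of_forall fun _ a b => (mem_main_iff₀ h.gr).2 ⟨a, b⟩) h3
    (hc.mono (.of_forall fun _ a => (h.mem_secT.1 a).1))
    fun q => ⟨z (e.mono fun _ a => sub_eq_zero.2 (a q).1), fun i => by
      by_cases hj : φ i ∈ T
      · obtain ⟨Φ, h1, h2⟩ := holOn_match hs (fun _ a => a.1.1.1.2.1)
          (fun _ a c d => (a.2 _ hj c d).1) (.inr (q, false)) (.inr (q, true))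
        exact (hc.deriv_eq h1 h2).trans (H _ _ (tst_kdT q hj h1 h2))
      · exact z (e.mono fun _ a => sub_eq_zero.2 ((a q).2 ⟨i, hj⟩))⟩
  exact ⟨hx, h5 ▸ h4.mem_tan hx⟩

theorem sep_kdT (hx : x ∈ ch.main κ (F.bas T) 0) :
    (ch.kdT ν κ F T).Sep (ch.secT ν κ F T) x := fun w hw H => funext₂ fun q j => by
  by_cases hj : j ∈ T
  · obtain ⟨Φ, h1, h2⟩ := holOn_match (h.mem_main.1 hx).1 (fun _ a => a.1.1.1.2.1)
      (fun _ a c d => (a.2 j hj c d).1) (.inr (q, false)) (.inr (q, true))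
    exact H _ _ (tst_kdT q hj h1 h2)
  · exact hw q trivial j hj

end GrT

end Ch

end Vale.Agent.P269
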