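import Vale.Agent.P269.Map.UpD
import Vale.Agent.P269.Map.TrvA
import Vale.Agent.P269.Fg.Jc
import Vale.Agent.P269.Pt.Sel
import Vale.Agent.P269.Loc.Lam

set_option linter.unusedSectionVars false

/-!
# Two presentations in one chart: definitions
-/

namespace Vale.Agent.P269

open P291Z Set Function Topology Filter Base Holo MvPolynomial

variable {S Λ R R' J J' K K' I ν κ : Type} [Fintype S] [Fintype Λ] [Fintype R] [Fintype R']
  [Fintype J] [Fintype J'] [Fintype K] [Fintype K'] [Fintype I] [Fintype ν] [Fintype κ]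
  [DecidableEq R] [DecidableEq R'] [DecidableEq I]

/-- The factors of the joint chart. -/
abbrev OP (R R' : Type) : Type := Option R ⊕ Option R'

/-- The fields of the joint chart. -/
abbrev JP (J J' R : Type) : Type := (J ⊕ J') ⊕ (Option R ⊕ Bool)

/-- The torus of the joint chart. -/
abbrev RP (R R' : Type) : Type := Option R ⊕ R'

namespace Pc

/-- the fields of the first chart -/
abbrev y1 (j : J) : JP J J' R := .inl (.inl j)

/-- the fields of the second chart -/
abbrev y2 (j : J') : JP J J' R := .inl (.inr j)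

/-- the links -/
abbrev lk (o : Option R) : JP J J' R := .inr (.inl o)

/-- the vanishing fields that provide the frames for the tensors `Ξ` -/
abbrev zf (b : Bool) : JP J J' R := .inr (.inr b)

end Pc

open Pc

/-- The data of a presentation together with a splitting of the lattices. -/
structure PD (Λ R R' J J' I : Type) where
  /-- the kept fields -/
  φ : J → J'
  /-- the links -/
  s : I → J'
  /-- the inclusion of the lattices -/
  M : R' → R → ℤ
  /-- the fields on the slice -/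
  σ : J' → MvPolynomial J (MvPolynomial Λ ℂ)
  /-- a left inverse of `M` -/
  c : R → R' → ℤ
  /-- the coefficients of the weights of the links -/
  nn : R' → I → ℤ

namespace PD

variable (P : PD Λ R R' J J' I) (F : Fam S Λ R J K) (F' : Fam S Λ R' J' K')

/-- The restriction of a character. -/
def vM (v : R' → ℤ) : R → ℤ := fun r => ∑ r', v r' * P.M r' r

/-- The coefficients of the weights of the links in a character. -/
def vn (v : R' → ℤ) : I → ℤ := fun i => ∑ r', v r' * P.nn r' i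

/-- The degrees for the larger presentation. -/
def dM (d : R → ℤ) : R' → ℤ := fun r' => ∑ r, P.M r' r * d r

/-- A presentation in normal form. -/
structure Ok : Prop extends F.Pres F' P.φ P.s P.M P.σ where
  abs : F.movᶜ ⊆ F.zer
  lnk : F'.Lnk P.s
  nz : ∀ i, P.s i ∉ F'.zer
  cM : ∀ r, P.vM (P.c r) = Pi.single r 1
  dec : ∀ v, v = ∑ r, P.vM v r • P.c r + ∑ i, P.vn v i • F'.w (P.s i)
  inv : F.Inv
  inv' : F'.Inv

/-- The movable links. -/
def T : Set J' := range P.s ∩ F'.mov

open Classical in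
/-- The coefficients of the base fields. -/
noncomputable def ψ (j : J') (l : Λ → ℂ) : ℂ :=
  if j ∉ F'.mov ∧ j ∉ F'.zer then evz (l, 0) (P.σ j) else 1

/-- The base fields are monomials in the links. -/
def E : Set ((Λ → ℂ) × (J' → ℂ)) :=
  {z | ∀ j ∉ F'.mov, j ∉ F'.zer → z.2 j * ∏ i, z.2 (P.s i) ^ (-P.vn (F'.w j) i).toNat =
    evz (z.1, 0) (P.σ j) * ∏ i, z.2 (P.s i) ^ (P.vn (F'.w j) i).toNat}

/-- The links do not vanish. -/
def U : Set ((Λ → ℂ) × (J' → ℂ)) := {z | z ∈ F'.U ∧ ∀ i, z.2 (P.s i) ≠ 0}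

/-- The larger family with normalised closed conditions. -/
@[reducible] def e2 : Fam S Λ R' J' K' := F'.reE (P.E F') (P.U F')

/-- The larger family, all links being base fields. -/
@[reducible] def f2 : Fam S Λ R' J' K' := (P.e2 F').bas (P.T F')

/-- The characters of the first torus. -/
def c₁ (r : R) : RP R R' → ℤ := Sum.elim (Pi.single (some r) 1) (P.c r)

/-- The characters of the second torus. -/
def _root_.Vale.Agent.P269.Pc.c₂ (r : R') : RP R R' → ℤ := Pi.single (.inr r) 1

/-- The weights of the joint families. -/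
def W : Wt S Λ (RP R R') (JP J J' R) where
  w := Sum.elim (Sum.elim (fun j => ∑ r, F.w j r • P.c₁ r) fun j => ∑ r, F'.w j r • c₂ r)
    (Sum.elim (fun o => Pi.single (.inl o) 1) 0)
  wt := Sum.elim (Sum.elim F.wt F'.wt) 0
  wl := F.wl

/-- The closed conditions on the fields of the second chart. -/
def E₁ : Set ((Λ → ℂ) × (JP J J' R → ℂ)) := {z | (z.1, z.2 ∘ y2) ∈ P.E F'}

/-- The additional vanishing fields for the first chart. -/
def Z₁ : Set (JP J J' R) := y2 '' ((P.f2 F').mov ∪ F'.zer) ∪ range zf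

/-- The additional vanishing fields for the second chart. -/
def _root_.Vale.Agent.P269.Pc.Z₂ : Set (JP J J' R) := range y1 ∪ range zf

/-- The first family on the joint chart. -/
@[reducible] noncomputable def u1 : Fam S Λ (RP R R') (JP J J' R) K :=
  (F.reE univ F.U).up (P.W F F') y1 P.c₁ (P.E₁ F') (P.Z₁ F')

/-- The second family on the joint chart. -/
@[reducible] noncomputable def u2 : Fam S Λ (RP R R') (JP J J' R) K' :=
  (P.f2 F').up (P.W F F') y2 c₂ univ Z₂

/-- The positive part of the monomial in the links that converts `L'^v` to `L^(v M)`. -/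
noncomputable def mon (v : R' → ℤ) : MvPolynomial (JP J J' R) (MvPolynomial Λ ℂ) :=
  (∏ r, X (lk (some r)) ^ (P.vM v r).toNat) * ∏ i, X (y2 (P.s i)) ^ (-P.vn v i).toNat

/-- Its weight. -/
def wm (v : R' → ℤ) : RP R R' → ℤ :=
  ∑ r, ((P.vM v r).toNat : ℤ) • (P.W F F').w (lk (some r)) +
    ∑ i, ((-P.vn v i).toNat : ℤ) • (P.W F F').w (y2 (P.s i))

/-- The character attached to a field. -/
def v₀ : JP J J' R → R' → ℤ := Sum.elim (Sum.elim (fun j => -F'.w (P.φ j)) F'.w) 0

/-- The coefficients of the determined fields. -/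
noncomputable def a (j : JP J J' R) : MvPolynomial (JP J J' R) (MvPolynomial Λ ℂ) :=
  P.mon (P.v₀ F' j)

/-- The right hand sides of the equations for the determined fields. -/
noncomputable def h (j : JP J J' R) : MvPolynomial (JP J J' R) (MvPolynomial Λ ℂ) :=
  Sum.elim (Sum.elim (fun j => X (y2 (P.φ j))) fun j => rename y1 (P.σ j)) 0 j *
    P.mon (-P.v₀ F' j)

/-- The weights of these equations. -/
def χ (j : JP J J' R) : RP R R' → ℤ := (P.W F F').w j + P.wm F F' (P.v₀ F' j)

/-- The determined fields for the first family. -/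
def T₁ : Set (JP J J' R) := y2 '' (P.f2 F').mov

/-- The determined fields for the second family. -/
def _root_.Vale.Agent.P269.Pc.T₂ : Set (JP J J' R) := y1 '' F.mov

/-- The first family with the fields of the second one. -/
@[reducible] noncomputable def g1 : Fam S Λ (RP R R') (JP J J' R) (K ⊕ P.T₁ (J := J) F') :=
  (P.u1 F F').add (P.T₁ F') (P.a F') (P.h F') (P.χ F F') (P.W F F').wt

/-- The second family with the fields of the first one. -/
@[reducible] noncomputable def g2 : Fam S Λ (RP R R') (JP J J' R) (K' ⊕ T₂ (J' := J') F) :=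
  (P.u2 F F').add (T₂ F) (P.a F') (P.h F') (P.χ F F') (P.W F F').wt

/-- The element of the second torus given by the links. -/
noncomputable def tor (y : JP J J' R → ℂ) : R' → ℂ := fun r' =>
  (∏ r, y (lk (some r)) ^ (-P.M r' r)) * ∏ i, y (y2 (P.s i)) ^ P.nn r' i

/-- The common cone. -/
def cone : Set ((Λ → ℂ) × (JP J J' R → ℂ)) :=
  {z | (z.1, z.2 ∘ y1) ∈ F.cone ∧ (∀ o, z.2 (lk o) ≠ 0) ∧ (∀ i, z.2 (y2 (P.s i)) ≠ 0) ∧
    (∀ b, z.2 (zf b) = 0) ∧ (z.1, z.2 ∘ y2) = F'.actT (1, P.tor z.2) (evσ P.σ (z.1, z.2 ∘ y1))}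

/-- The normalised abstract map for the joint chart. -/
noncomputable def jm (m : AM Λ R J ν κ) : AM Λ (RP R R') (JP J J' R) ν κ :=
  ⟨m.toAC, Sum.elim 1 (m.ext P.M P.σ).L, m.l,
    Sum.elim (Sum.elim m.y (m.ext P.M P.σ).y) (Sum.elim 1 0)⟩

end PD

/-- A joint chart. -/
structure Pc (J J' R R' : Type) where
  /-- the chart -/
  ch : Ch (OP R R') (JP J J' R)
  /-- the ratio of the powers -/
  t : ℕ
  /-- the test degree of the first chart -/
  bω₁ : Option R → ℕ
  /-- the test degree of the second chart -/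
  bω₂ : Option R' → ℕ
  a1 : ∀ j i, ch.a (some (y1 j)) (.inr i) = 0
  b1 : ∀ j i, ch.b (y1 j) (.inr i) = 0
  a2 : ∀ j i, ch.a (some (y2 j)) (.inl i) = 0
  b2 : ∀ j i, ch.b (y2 j) (.inl i) = 0
  z1 : ∀ i, ch.a (some (zf false)) (.inr i) = 0
  z2 : ∀ i, ch.a (some (zf true)) (.inl i) = 0

namespace Pc

variable (c : Pc J J' R R') (P : PD Λ R R' J J' I) (F : Fam S Λ R J K) (F' : Fam S Λ R' J' K')

/-- The restriction to the first chart. -/
@[reducible] def D₁ : c.ch.Res (Option R) J where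
  σ := .inl
  φ := y1
  l₀ := some (zf false)
  o := none
  k := c.t * c.ch.k
  bω := c.bω₁
  σ_inj := Sum.inl_injective
  φ_inj := Sum.inl_injective.comp Sum.inl_injective
  l₀_ne _ := by simp
  sup₀ := sup_inl c.z1
  sup_a j := sup_inl (c.a1 j)
  sup_b j := sup_inl (c.b1 j)

/-- The restriction to the second chart. -/
@[reducible] def D₂ : c.ch.Res (Option R') J' where
  σ := .inr
  φ := y2
  l₀ := some (zf true)
  o := none
  k := c.ch.k
  bω := c.bω₂
  σ_inj := Sum.inr_injective
  φ_inj := Sum.inl_injective.comp Sum.inr_injective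
  l₀_ne _ := by simp
  sup₀ := sup_inr c.z2
  sup_a j := sup_inr (c.a2 j)
  sup_b j := sup_inr (c.b2 j)

/-- The degrees of the line bundles of the torus. -/
noncomputable def ℓ : RP R R' → OP R R' → ℤ :=
  Sum.elim (fun o => c.ch.wd (lk o)) fun r => Sum.elim 0 (ℓs r)

open Ch in
/-- The numerical hypotheses. -/
structure Ok : Prop where
  o : c.ch.o = .inr none
  num : Num₀ c.ch
  num₁ : Num₀ c.D₁.ch
  num₂ : Num₀ c.D₂.ch
  lat₁ : c.D₁.ch.Lat F.toWt ℓs
  lat₂ : c.D₂.ch.Lat F'.toWt ℓs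
  χ : c.ch.χ = Sum.elim (0 : Option R → ℤ) c.D₂.ch.χ
  wd : ∀ o, c.ch.wd (lk o) = Sum.elim (o.elim c.D₁.ch.χ ℓs)
    (-o.elim ((c.t : ℤ) • c.D₂.ch.χ) fun r => ∑ r', P.c r r' • ℓs r')
  wz : ∀ b, c.ch.wd (zf b) = 0
  m₁ : ∀ r, ∑ i, c.ch.wd (lk (some r)) i * c.ch.m i = 0
  m₂ : ∀ a, ∑ i, c.ch.wd (y2 (P.s a)) i * c.ch.m i = 0

/-- The tests of the equations of the first chart. -/
@[reducible] def e₁ (e : K → Option R → ℕ) : K → OP R R' → ℕ := fun k => Sum.elim (e k) 0

/-- The tests of the equations of the second chart. -/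
@[reducible] def e₂ (e : K' → Option R' → ℕ) : K' → OP R R' → ℕ := fun k => Sum.elim 0 (e k)

variable (ν κ) in
/-- The joint chart of two standard charts. -/
structure St (k D D' : ℕ) (g : ℤ) (d : R → ℤ) : Prop extends c.Ok P F F' where
  e₁ : c.D₁.ch = F.sch ν κ (c.t * k) D g d
  e₂ : c.D₂.ch = F'.sch ν κ k D' g (P.dM d)
  h : ∀ l, c.ch.h l = (∑ i, c.ch.a l i * c.ch.m i + 1 - c.ch.g).toNat
  big₁ : F.Big (c.t * k)
  big₂ : F'.Big k
  bigD₁ : F.BigD (c.t * k) D
  bigD₂ : F'.BigD k D'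

end Pc

/-- The trivial presentation. -/
noncomputable def PD.triv : PD Λ R R J J Empty :=
  ⟨id, Empty.elim, fun r => Pi.single r 1, X, fun r => Pi.single r 1, fun _ => Empty.elim⟩

/-- Corresponding factors. -/
inductive PD.FR (P : PD Λ R R' J J' I) (F : Fam S Λ R J K) (F' : Fam S Λ R' J' K') :
    Fac F.toWt ν κ → Fac F'.toWt ν κ → Prop
  | psi (n) : FR P F F' (.psi n) (.psi n)
  | ev (n A c) : F'.cone ⊆ A → FR P F F' (.ev n F.cone (F.pb F'.toWt (evσ P.σ) F.cone c)) (.ev n A c)
  | par : FR P F F' (.par univ 1) (.par univ 1)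
  | dg (q) : FR P F F' (.dg q) (.dg q)
  | tw (Θ) : FR P F F' (.tw Θ) (.tw (rename (Prod.map P.φ id) Θ))

/-- The number `z` is the integral of the factors over the selected matched solutions. -/
def Ch.ValD {ι : Type} [Fintype ι] [DecidableEq ι] (ch : Ch ι J) (F : Fam S Λ R J K)
    (ℓ : R → ι → ℤ) (Q : AM Λ R J ν κ → Prop) (fs : List (Fac F.toWt ν κ)) (z : ℂ) : Prop :=
  ∃ w : BM (Quo (Ch.actF F.toWt) (ch.zD ν κ F)), Ch.IsD F (F.tdeg ch) (Ch.actF F.toWt) _ w ∧
    CompactSpace (Quo (Ch.actF F.toWt) (ch.zD ν κ F)) ∧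
    IsClopen (Ch.selQ F.toWt ℓ (ch.zD ν κ F) Q) ∧
    z = Loc.intg w (hcls (ind (Ch.selQ F.toWt ℓ (ch.zD ν κ F) Q)) * (fs.map (F.cn _)).prod)

end Vale.Agent.P269
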