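import Vale.Agent.P269.Map.JD
import Vale.Agent.P269.Map.Up

set_option linter.unusedSectionVars false

/-!
# The normal form of a presentation
-/

namespace Vale.Agent.P269

open P291Z Set Function Topology Filter Base Holo Pc
open MvPolynomial hiding funext

variable {S Λ R R' J J' K K' I ι ν κ : Type} [Fintype S] [Fintype Λ] [Fintype R] [Fintype R']
  [Fintype J] [Fintype J'] [Fintype K] [Fintype K'] [Fintype I] [Fintype ν] [Fintype κ]
  [DecidableEq R] [DecidableEq R'] [DecidableEq I] [Fintype ι] [DecidableEq ι]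
  {F : Fam S Λ R J K} {F' : Fam S Λ R' J' K'}

namespace PN

theorem zero_mem {A : Type} [CommRing A] [Nontrivial A] :
    (0 : J →₀ ℕ) ∈ (1 : MvPolynomial J A).support := by simp

theorem w_s {φ : J → J'} {s : I → J'} {M : R' → R → ℤ}
    {σ : J' → MvPolynomial J (MvPolynomial Λ ℂ)} (h : F.Pres F' φ s M σ) (i : I) (r : R) :
    ∑ r', F'.w (s i) r' * M r' r = 0 := by
  simpa using (h.hom (s i) 0 (h.σ_s i ▸ zero_mem) r).symm

theorem prod_prod {α β : Type} [Fintype α] [Fintype β] {t : β → ℂ} (ht : ∀ i, t i ≠ 0)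
    (m : α → β → ℤ) (v : α → ℤ) : ∏ a, (∏ b, t b ^ m a b) ^ v a = ∏ b, t b ^ ∑ a, v a * m a b := by
  simp only [← Finset.prod_zpow, ← zpow_mul, zpow_sum_ne (ht _), mul_comm]
  exact Finset.prod_comm

theorem split {x : I → ℂ} {n : I → ℤ} (h : ∀ i, n i < 0 → x i ≠ 0) :
    ∏ i, x i ^ (-n i).toNat ≠ 0 ∧ (∏ i, x i ^ n i) * ∏ i, x i ^ (-n i).toNat = ∏ i, x i ^ (n i).toNat := by
  rw [← Finset.prod_mul_distrib]
  refine ⟨Finset.prod_ne_zero_iff.2 fun i _ => ?_, Finset.prod_congr rfl fun i _ => ?_⟩ <;>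
    rcases lt_or_ge (n i) 0 with a | a
  · exact pow_ne_zero _ (h i a)
  · rw [Int.toNat_of_nonpos (neg_nonpos.2 a), pow_zero]
    exact one_ne_zero
  · rw [← zpow_natCast, ← zpow_add₀ (h i a), Int.toNat_of_nonneg (neg_nonneg.2 a.le), add_neg_cancel,
      Int.toNat_of_nonpos a.le, pow_zero, zpow_zero]
  · rw [Int.toNat_of_nonpos (neg_nonpos.2 a), pow_zero, mul_one, ← zpow_natCast, Int.toNat_of_nonneg a]

/-- the Euler identity -/
theorem euler {f : MvPolynomial J ℂ} {c : J → ℂ} {χ : ℂ} (h : ∀ α ∈ f.support, ∑ j, α j * c j = χ)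
    (y : J → ℂ) : ∑ j, eval y (pderiv j f) * (c j * y j) = χ * eval y f := by
  have a : ∀ j, eval y (pderiv j f) * (c j * y j) =
      ∑ α ∈ f.support, α j * c j * eval y (monomial α (coeff α f)) := fun j => by
    rw [mul_left_comm, ← eval_X (f := y) j, ← map_mul, mul_comm (pderiv j f)]
    conv_lhs => rw [f.as_sum]
    simp only [map_sum, Finset.mul_sum, X_mul_pderiv_monomial, nsmul_eq_mul, map_mul, map_natCast,
      mul_left_comm, mul_assoc]
  rw [Finset.sum_congr rfl fun j _ => a j, Finset.sum_comm]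
  conv_rhs => rw [f.as_sum]
  rw [map_sum, Finset.mul_sum]
  exact Finset.sum_congr rfl fun α hα => by rw [← Finset.sum_mul, h α hα]

theorem evz_C (z : (Λ → ℂ) × (J → ℂ)) (a : MvPolynomial Λ ℂ) : evz z (C a) = eval z.1 a := by
  rw [evz, map_C, eval_C]

theorem evz_one (z : (Λ → ℂ) × (J → ℂ)) : evz z 1 = 1 := by rw [evz, map_one, map_one]

theorem actT_snd (W : Wt S Λ R J) (t : R → ℂ) (z : (Λ → ℂ) × (J → ℂ)) (j : J) :
    (W.actT (1, t) z).2 j = (∏ r, t r ^ W.w j r) * z.2 j := by simp [Wt.actT]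

theorem isUnit_one {t : R → ℂ} (ht : IsUnit t) : IsUnit ((1, t) : (S → ℂ) × (R → ℂ)) :=
  Prod.isUnit_iff.2 ⟨_root_.isUnit_one, ht⟩

end PN

open PN

/-- **the lattices split** -/
theorem Fam.Pres.exists_ok {φ : J → J'} {s : I → J'} {M : R' → R → ℤ}
    {σ : J' → MvPolynomial J (MvPolynomial Λ ℂ)} (h : F.Pres F' φ s M σ) (hA : F.movᶜ ⊆ F.zer)
    (hL : F'.Lnk s) (hz : ∀ i, s i ∉ F'.zer) (hF : F.Inv) (hF' : F'.Inv) :
    ∃ c nn, (⟨φ, s, M, σ, c, nn⟩ : PD Λ R R' J J' I).Ok F F' := by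
  choose d hd using fun i => h.lat_onto (Pi.single i 1)
  choose p hp using fun q => h.lat_ker (Pi.single q 1 - ∑ i, F'.w (s i) q • d i) fun i => by
    simp only [Pi.sub_apply, Finset.sum_apply, Pi.smul_apply, smul_eq_mul, mul_sub,
      Finset.sum_sub_distrib, Finset.mul_sum, mul_left_comm (F'.w (s i) _)]
    rw [Finset.sum_comm (f := fun x y => _ * (_ * d y x))]
    simp [← Finset.mul_sum, hd, Pi.single_apply]
  have a : ∀ q r', ∑ r, M r' r * p q r = (Pi.single q 1 : R' → ℤ) r' - ∑ i, F'.w (s i) q * d i r' :=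
    fun q r' => by simpa using (congrFun (hp q) r').symm
  refine ⟨fun r q => p q r, fun r' i => d i r', h, hA, hL, hz, fun r => funext fun r₁ => ?_,
    fun v => funext fun q => ?_, hF, hF'⟩
  · refine sub_eq_zero.1 (congrFun (h.lat_inj
      (fun r => ∑ q, p q r * M q r₁ - (Pi.single r 1 : R → ℤ) r₁) fun r' => ?_) r)
    simp only [mul_sub, Finset.sum_sub_distrib, Finset.mul_sum, ← mul_assoc]
    rw [Finset.sum_comm]
    simp only [← Finset.sum_mul, a]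
    simp only [sub_mul, Finset.sum_sub_distrib, Finset.sum_mul, mul_right_comm _ (d _ _)]
    rw [Finset.sum_comm (f := fun x y => _ * _ * d y r')]
    simp [← Finset.sum_mul, w_s h, Pi.single_apply]
  · simp only [PD.vM, PD.vn, Pi.add_apply, Finset.sum_apply, Pi.smul_apply, smul_eq_mul,
      Finset.sum_mul, mul_assoc]
    rw [Finset.sum_comm, Finset.sum_comm (f := fun x y => _ * (d x y * _))]
    simp [← Finset.mul_sum, ← Finset.sum_add_distrib, ← mul_add, a, mul_comm (d _ _),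
      Pi.single_apply]

theorem evσ_X (z : (Λ → ℂ) × (J → ℂ)) : evσ X z = z :=
  Prod.ext rfl (funext fun j => by simp [evσ, evz])

namespace PD

theorem triv_ok (hF : F.Inv) (hA : F.movᶜ ⊆ F.zer)
    (hE : ∀ l ∈ F.B, ∀ y, (∀ j ∈ F.zer, y j = 0) → (l, y) ∈ F.E) :
    (triv : PD Λ R R J J Empty).Ok F F := by
  classical
  refine ⟨⟨injective_id, rfl, rfl, fun _ => rfl, fun i => i.elim, fun j α hα r => ?_,
    fun j α hα β hβ a => ?_, fun d hd => funext fun r => ?_, fun d _ => ⟨d, funext fun r => ?_⟩,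
    fun _ => ⟨0, fun i => i.elim⟩, fun z => ⟨fun a => ⟨1, _root_.isUnit_one, z, a, ?_⟩, ?_⟩,
    fun _ => Iff.rfl, fun _ => Iff.rfl, hE, fun j a => (a ⟨j, rfl⟩).elim, fun l hl y hy _ =>
      iff_of_true (hE l hl y hy) ⟨1, _root_.isUnit_one, fun j a => (a ⟨j, rfl⟩).elim⟩⟩, hA,
    .of_abs hA _, fun i => i.elim, fun r => funext fun r' => ?_, fun v => funext fun r => ?_, hF, hF⟩
  · simpa [triv, Pi.single_apply, Finsupp.single_apply] using
      (F.hom_monomial (.single j 1)).hom α hα r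
  · simpa [Finsupp.single_apply] using (F.hom_monomial (.single j 1)).homS α hα β hβ a
  · simpa [triv, Pi.single_apply] using hd r
  · simp [triv, Pi.single_apply]
  · exact ((F.actT_one _).trans (evσ_X z)).symm
  · rintro ⟨t, a, z, b, rfl⟩
    exact hF.cone_act (isUnit_one a) ((evσ_X z).symm ▸ b)
  · simp [triv, vM, Pi.single_apply]
  · simp [triv, vM, Pi.single_apply]

theorem triv_dM (d : R → ℤ) : (triv : PD Λ R R J J Empty).dM d = d :=
  funext fun r => by simp [triv, dM, Pi.single_apply]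

theorem triv_ext (m : AM Λ R J ν κ) :
    m.ext (triv : PD Λ R R J J Empty).M (triv : PD Λ R R J J Empty).σ = m :=
  congrArg₂ (AM.mk m.toAC · m.l ·) (funext fun r => (Cv.bz_single m.L r 1).trans (zpow_one _))
    (funext₂ fun j z => congrFun (congrArg Prod.snd (evσ_X (m.vl z))) j)

variable {P : PD Λ R R' J J' I} {l : Λ → ℂ} {y : J' → ℂ} {j : J'} {K₀ : Set K} {K₀' : Set K'}

theorem vM_neg (v : R' → ℤ) : P.vM (-v) = -P.vM v := funext fun _ => by simp [vM]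

theorem vn_neg (v : R' → ℤ) : P.vn (-v) = -P.vn v := funext fun _ => by simp [vn]

theorem vM_add (v v' : R' → ℤ) : P.vM (v + v') = P.vM v + P.vM v' :=
  funext fun _ => by simp [vM, add_mul, Finset.sum_add_distrib]

theorem vM_sum {α : Type} [Fintype α] (a : α → ℤ) (v : α → R' → ℤ) :
    P.vM (∑ x, a x • v x) = ∑ x, a x • P.vM (v x) := funext fun _ => by
  simp only [vM, Finset.sum_apply, Pi.smul_apply, smul_eq_mul, Finset.sum_mul, Finset.mul_sum,
    mul_assoc]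
  exact Finset.sum_comm

theorem vn_sum {α : Type} [Fintype α] (a : α → ℤ) (v : α → R' → ℤ) :
    P.vn (∑ x, a x • v x) = ∑ x, a x • P.vn (v x) := funext fun _ => by
  simp only [vn, Finset.sum_apply, Pi.smul_apply, smul_eq_mul, Finset.sum_mul, Finset.mul_sum,
    mul_assoc]
  exact Finset.sum_comm

theorem dot_dM (v : R' → ℤ) (d : R → ℤ) : ∑ r', v r' * P.dM d r' = ∑ r, P.vM v r * d r := by
  simp only [dM, vM, Finset.mul_sum, Finset.sum_mul, mul_assoc]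
  exact Finset.sum_comm

theorem tor_unit {y : JP J J' R → ℂ} (h1 : ∀ r, y (lk (some r)) ≠ 0)
    (h2 : ∀ i, y (y2 (P.s i)) ≠ 0) : IsUnit (P.tor y) :=
  isUnit_pi_iff.2 fun _ => mul_ne_zero (prod_zpow_ne h1 _) (prod_zpow_ne h2 _)

theorem tor_zpow {y : JP J J' R → ℂ} (h1 : ∀ r, y (lk (some r)) ≠ 0)
    (h2 : ∀ i, y (y2 (P.s i)) ≠ 0) (v : R' → ℤ) : ∏ r', P.tor y r' ^ v r' =
      (∏ r, y (lk (some r)) ^ (-P.vM v r)) * ∏ i, y (y2 (P.s i)) ^ P.vn v i := by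
  simp only [tor, mul_zpow, Finset.prod_mul_distrib, prod_prod h1, prod_prod h2, mul_neg,
    Finset.sum_neg_distrib, vM, vn]

namespace Ok

variable (h : P.Ok F F')
include h

theorem li : LinearIndependent ℤ fun i => F'.w (P.s i) :=
  Fintype.linearIndependent_iff.2 fun a ha i => by
    obtain ⟨d, hd⟩ := h.lat_onto (Pi.single i 1)
    have b := congrArg (fun v : R' → ℤ => ∑ r, v r * d r) ha
    simp only [Finset.sum_apply, Pi.smul_apply, smul_eq_mul, Finset.sum_mul, mul_assoc] at b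
    rw [Finset.sum_comm] at b
    simpa [← Finset.mul_sum, hd, Pi.single_apply] using b

theorem s_inj : Injective P.s := Injective.of_comp (f := F'.w) h.li.injective

theorem s_notMem (i : I) : P.s i ∉ range P.φ := fun ⟨j, e⟩ =>
  zero_ne_one ((constantCoeff_X _ j).symm.trans ((congrArg constantCoeff
    ((h.σ_φ j).symm.trans (e ▸ h.σ_s i))).trans (map_one _)))

theorem vM_s (i : I) : P.vM (F'.w (P.s i)) = 0 := funext (w_s h.toPres i)

theorem coef {v : R' → ℤ} {a : R → ℤ} {n : I → ℤ}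
    (e : v = ∑ r, a r • P.c r + ∑ i, n i • F'.w (P.s i)) : P.vM v = a ∧ P.vn v = n := by
  have b : P.vM v = a := funext fun r => by
    rw [e, vM_add, vM_sum, vM_sum]
    simp [h.cM, h.vM_s, Pi.single_apply]
  have c := h.dec v
  rw [b] at c
  exact ⟨b, funext (Fintype.linearIndependent_iffₛ.1 h.li _ _ (add_left_cancel (c.symm.trans e)))⟩

theorem wt_s (i : I) : F'.wt (P.s i) = 0 := funext fun a => by
  have b := h.homS (P.s i) 0
  rw [h.σ_s] at b
  simpa using (b zero_mem 0 (by simp) a).symm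

theorem vn_s (i : I) : P.vn (F'.w (P.s i)) = Pi.single i 1 :=
  (h.coef (a := 0) (by simp [Pi.single_apply])).2

theorem vn_c (r : R) : P.vn (P.c r) = 0 :=
  (h.coef (a := Pi.single r 1) (by simp [Pi.single_apply])).2

theorem card : Fintype.card R' = Fintype.card R + Fintype.card I := by
  have a : ∑ q : R', (1 : ℤ) = ∑ q, (∑ r, P.c r q * P.M q r + ∑ i, F'.w (P.s i) q * P.nn q i) :=
    Finset.sum_congr rfl fun q _ => by
      simpa [vM, vn, Pi.single_apply, mul_comm] using congrFun (h.dec (Pi.single q 1)) q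
  rw [Finset.sum_add_distrib, Finset.sum_comm, Finset.sum_comm (f := fun q i => _ * P.nn q i)] at a
  change _ = ∑ r, P.vM (P.c r) r + ∑ i, P.vn (F'.w (P.s i)) i at a
  exact_mod_cast (by simpa [h.cM, h.vn_s] using a :
    (Fintype.card R' : ℤ) = Fintype.card R + Fintype.card I)

theorem vM_φ (j : J) : P.vM (F'.w (P.φ j)) = F.w j := funext fun r => by
  classical
  simpa [Finsupp.single_apply, vM] using
    (h.hom (P.φ j) (.single j 1) (by simp [h.σ_φ, support_X]) r).symm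

theorem wt_φ (j : J) : F'.wt (P.φ j) = F.wt j := funext fun a => by
  classical
  simpa [Finsupp.single_apply] using (h.homS (P.φ j) (.single j 1) (by simp [h.σ_φ, support_X]) 0
    (by simp [h.σ_φ]) a).symm

theorem hom_σ (j : J') : F.toWt.Hom (P.σ j) (P.vM (F'.w j)) (F'.wt j) := ⟨h.hom j, h.homS j⟩

theorem c_dM (d : R → ℤ) (r : R) : ∑ r', P.c r r' * P.dM d r' = d r := by
  simp [dot_dM, h.cM, Pi.single_apply]

theorem s_dM (d : R → ℤ) (i : I) : ∑ r', F'.w (P.s i) r' * P.dM d r' = 0 := by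
  simp [dot_dM, h.vM_s]

/-- the base fields that do not vanish -/
theorem base (hj : j ∉ F'.mov) (hz : j ∉ F'.zer) : j ∉ range P.φ ∧ P.vM (F'.w j) = 0 ∧
    F'.w j = ∑ i, P.vn (F'.w j) i • F'.w (P.s i) ∧ (∀ i, P.s i ∈ F'.mov → P.vn (F'.w j) i = 0) ∧
    ∃ a, P.σ j = C a ∧ ∀ l ∈ F.B, eval l a ≠ 0 := by
  have a : j ∉ range P.φ := by
    rintro ⟨j, rfl⟩
    exact hz ((h.zer j).2 (h.abs fun b => hj ((h.mov j).2 b)))
  obtain ⟨n, b, c⟩ := h.lnk j hj hz
  obtain ⟨d, e⟩ := h.coef (a := 0) (n := n) (c.trans (by simp))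
  exact ⟨a, d, e.symm ▸ c, e.symm ▸ b, (h.drop j a hj).resolve_left hz⟩

theorem evσ_mem {z : (Λ → ℂ) × (J → ℂ)} (hz : z ∈ F.cone) : evσ P.σ z ∈ F'.cone :=
  (h.cone _).2 ⟨1, _root_.isUnit_one, z, hz, (F'.actT_one _).symm⟩

theorem ne_s {z : (Λ → ℂ) × (J' → ℂ)} (hz : z ∈ F'.cone) (i : I) : z.2 (P.s i) ≠ 0 := by
  obtain ⟨t, a, z, -, rfl⟩ := (h.cone z).1 hz
  rw [actT_snd]
  exact mul_ne_zero (prod_zpow_ne (isUnit_pi_iff.1 a) _)
    (((congrArg (evz z) (h.σ_s i)).trans (evz_one z)).trans_ne one_ne_zero)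

theorem ne_base {z : (Λ → ℂ) × (J' → ℂ)} (hz : z ∈ F'.cone) (hj : j ∉ F'.mov) (h0 : j ∉ F'.zer) :
    z.2 j ≠ 0 := by
  obtain ⟨t, a, z, b, rfl⟩ := (h.cone z).1 hz
  obtain ⟨-, -, -, -, c, d, e⟩ := h.base hj h0
  rw [actT_snd]
  exact mul_ne_zero (prod_zpow_ne (isUnit_pi_iff.1 a) _)
    (((congrArg (evz z) d).trans (evz_C z c)).trans_ne (e _ b.1))

theorem chr_dec {t : R' → ℂ} (ht : ∀ r, t r ≠ 0) (v : R' → ℤ) : ∏ r', t r' ^ v r' =
    (∏ r, (∏ r', t r' ^ P.c r r') ^ P.vM v r) * ∏ i, (∏ r', t r' ^ F'.w (P.s i) r') ^ P.vn v i := by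
  rw [prod_prod ht, prod_prod ht, ← Finset.prod_mul_distrib]
  refine Finset.prod_congr rfl fun r _ => ?_
  rw [← zpow_add₀ (ht r)]
  exact congrArg _ (by simpa using congrFun (h.dec v) r)

theorem chr_base {t : R' → ℂ} (ht : ∀ r, t r ≠ 0) (hj : j ∉ F'.mov) (hz : j ∉ F'.zer) :
    ∏ r', t r' ^ F'.w j r' = ∏ i, (∏ r', t r' ^ F'.w (P.s i) r') ^ P.vn (F'.w j) i := by
  simp [h.chr_dec ht (F'.w j), (h.base hj hz).2.1]

/-- an element of the second torus that fixes the links comes from the first torus -/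
theorem act_evσ {t : R' → ℂ} (ht : IsUnit t) (h1 : ∀ i, ∏ r', t r' ^ F'.w (P.s i) r' = 1)
    (z : (Λ → ℂ) × (J → ℂ)) : F'.actT (1, t) (evσ P.σ z) =
      evσ P.σ (F.actT (1, fun r => ∏ r', t r' ^ P.c r r') z) := by
  have a := isUnit_pi_iff.1 ht
  refine Prod.ext ((F'.actL_one _).trans (F.actL_one _).symm) (funext fun j => ?_)
  refine (actT_snd _ _ _ _).trans (Eq.trans ?_ ((h.hom_σ j).evz
    (isUnit_one (isUnit_pi_iff.2 fun _ => prod_zpow_ne a _)) z).symm)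
  simp [h.chr_dec a (F'.w j), h1, evσ]

omit h in
theorem mem_E₀ (hs : ∀ j ∉ F'.mov, j ∉ F'.zer → ∀ i, P.vn (F'.w j) i < 0 → y (P.s i) ≠ 0) :
    (l, y) ∈ P.E F' ↔ ∀ j ∉ F'.mov, j ∉ F'.zer →
      y j = evz (l, 0) (P.σ j) * ∏ i, y (P.s i) ^ P.vn (F'.w j) i :=
  forall₃_congr fun j a b => by
    obtain ⟨c, d⟩ := split (hs j a b)
    rw [← d, ← mul_assoc, mul_left_inj' c]

theorem pow_congr (g : ℂ → ℤ → ℂ) (hg : ∀ a b, g a 0 = g b 0) {u u' : ℂ} {i : I}
    (e : P.s i ∉ F'.mov → u = u') (hj : j ∉ F'.mov) (hz : j ∉ F'.zer) :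
    g u (P.vn (F'.w j) i) = g u' (P.vn (F'.w j) i) := by
  by_cases a : P.s i ∈ F'.mov
  · rw [(h.base hj hz).2.2.2.1 i a, hg]
  · rw [e a]

theorem mem_E (hl : l ∈ F.B) (hz : ∀ j ∈ F'.zer, y j = 0)
    (hs : ∀ i, P.s i ∉ F'.mov → y (P.s i) ≠ 0) : (l, y) ∈ P.E F' ↔ (l, y) ∈ F'.E := by
  classical
  rw [h.E' l hl y hz hs, mem_E₀ fun j a b i c => hs i fun d => c.ne ((h.base a b).2.2.2.1 i d)]
  simp only [actT_snd]
  refine ⟨fun a => ?_, fun ⟨t, a, b⟩ j c d => ?_⟩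
  · have b : ∀ i, (if P.s i ∈ F'.mov then 1 else y (P.s i)) ≠ 0 := fun i => by
      split_ifs with c
      exacts [one_ne_zero, hs i c]
    refine ⟨fun r => ∏ i, (if P.s i ∈ F'.mov then 1 else y (P.s i)) ^ P.nn r i,
      isUnit_pi_iff.2 fun _ => prod_zpow_ne b _, fun j _ c d => ?_⟩
    rw [prod_prod b, a j c d, mul_comm]
    exact congrArg (· * _) (Finset.prod_congr rfl fun i _ => h.pow_congr (· ^ ·)
      (fun _ _ => rfl) (fun e => (if_neg e).symm) c d)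
  · rw [b j (h.base c d).1 c d, h.chr_base (isUnit_pi_iff.1 a) c d, mul_comm]
    refine congrArg (_ * ·) (Finset.prod_congr rfl fun i _ => h.pow_congr (· ^ ·)
      (fun _ _ => rfl) (fun e => ?_) c d)
    rw [b _ (h.s_notMem i) e (h.nz i)]
    exact ((congrArg (_ * evz _ ·) (h.σ_s i)).trans ((congrArg _ (evz_one _)).trans (mul_one _))).symm

theorem ψ_s (i : I) : P.ψ F' (P.s i) = 1 := funext fun l => by
  rw [ψ, h.σ_s, evz_one, ite_self, Pi.one_apply]

theorem mem_E' (hs : ∀ j i, P.vn (F'.w j) i < 0 → y (P.s i) ≠ 0) : (l, y) ∈ P.E F' ↔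
    ∀ j ∉ (P.f2 F').mov, j ∉ F'.zer → y j = P.ψ F' j l * ∏ i, y (P.s i) ^ P.vn (F'.w j) i := by
  rw [mem_E₀ fun j _ _ => hs j]
  refine ⟨fun a j b c => ?_, fun a j b c => (a j (fun d => b d.1) c).trans
    (congrArg (· * _) (if_pos ⟨b, c⟩))⟩
  rcases Ch.notMem_bas.1 b with d | ⟨⟨i, rfl⟩, -⟩
  · exact (a j d c).trans (congrArg (· * _) (if_pos ⟨d, c⟩).symm)
  · simp [h.ψ_s, h.vn_s, Pi.single_apply]

theorem ψ_an (j : J') (hl : l ∈ F.B) : AnalyticAt ℂ (P.ψ F' j) l ∧ P.ψ F' j l ≠ 0 := by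
  by_cases a : j ∉ F'.mov ∧ j ∉ F'.zer
  · obtain ⟨-, -, -, -, c, d, e⟩ := h.base a.1 a.2
    rw [show P.ψ F' j = fun l => eval l c from funext fun l => by rw [ψ, if_pos a, d, evz_C]]
    exact ⟨AnalyticOnNhd.eval_mvPolynomial c l trivial, e l hl⟩
  · rw [show P.ψ F' j = fun _ => 1 from funext fun l => if_neg a]
    exact ⟨analyticAt_const, one_ne_zero⟩

theorem closed_E : IsClosed (P.E F') := by
  simp only [E, ofPred_forall]
  refine isClosed_iInter fun j => isClosed_iInter fun a => isClosed_iInter fun b => ?_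
  obtain ⟨-, -, -, -, c, d, -⟩ := h.base a b
  simp only [d, evz_C]
  exact isClosed_eq (by fun_prop) (((continuous_eval c).comp continuous_fst).mul (by fun_prop))

theorem inv_E {t : (S → ℂ) × (R' → ℂ)} (ht : IsUnit t) {z : (Λ → ℂ) × (J' → ℂ)}
    (hz : z ∈ P.E F') : F'.actT t z ∈ P.E F' := fun j a b => by
  have c := isUnit_pi_iff.1 (Prod.isUnit_iff.1 ht).2
  have d := (h.hom_σ j).evz (t := (t.1, 1))
    (Prod.isUnit_iff.2 ⟨(Prod.isUnit_iff.1 ht).1, _root_.isUnit_one⟩) (z.1, 0)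
  rw [show F.actT (t.1, 1) (z.1, 0) = ((F'.actT t z).1, 0) from Prod.ext
    (funext fun _ => by simp only [Wt.actT, Wt.actL, h.wl]) (funext fun _ => mul_zero _)] at d
  have e := (split (x := fun i => ∏ r', t.2 r' ^ F'.w (P.s i) r') (n := P.vn (F'.w j))
    fun _ _ => prod_zpow_ne c _).2
  rw [← h.chr_base c a b] at e
  rw [d]
  simp only [Wt.actT, h.wt_s, Pi.zero_apply, zpow_zero, Pi.one_apply, one_zpow,
    Finset.prod_const_one, one_mul, mul_one, mul_pow, Finset.prod_mul_distrib, ← e]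
  linear_combination ((∏ i, t.1 i ^ F'.wt j i) * (∏ r, t.2 r ^ F'.w j r) *
    ∏ i, (∏ r', t.2 r' ^ F'.w (P.s i) r') ^ (-P.vn (F'.w j) i).toNat) * hz j a b

theorem base_E {y' : J' → ℂ} (e : ∀ j ∉ F'.mov, j ∉ F'.zer → y j = y' j) (a : (l, y) ∈ P.E F') :
    (l, y') ∈ P.E F' := fun j b c => by
  have d := fun g hg i => h.pow_congr g hg (fun f => e _ f (h.nz i)) b c
  have f := a j b c
  simp only [e j b c, d (fun x n => x ^ (-n).toNat) fun _ _ => rfl,
    d (fun x n => x ^ n.toNat) fun _ _ => rfl] at f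
  exact f

theorem cone_e2 : (P.e2 F').cone = F'.cone := Set.ext fun _ =>
  ⟨fun a => ⟨a.1, ⟨a.2.1.1.1, (h.mem_E (h.B ▸ a.1) a.2.1.2.2 fun i _ => a.2.1.1.2 i).1 a.2.1.2.1,
      a.2.1.2.2⟩, a.2.2⟩, fun a => ⟨a.1, ⟨⟨a.2.1.1, h.ne_s a⟩,
      (h.mem_E (h.B ▸ a.1) a.2.1.2.2 fun i _ => h.ne_s a i).2 a.2.1.2.1, a.2.1.2.2⟩, a.2.2⟩⟩

omit h in
theorem isOpen_ne : IsOpen {z : (Λ → ℂ) × (J' → ℂ) | ∀ i, z.2 (P.s i) ≠ 0} := by
  simp only [ofPred_forall]
  exact isOpen_iInter_of_finite fun _ => isOpen_ne_fun (by fun_prop) continuous_const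

theorem inv_e2 : (P.e2 F').Inv :=
  h.inv'.reE h.closed_E (fun _ ht _ => h.inv_E ht) (fun _ _ _ e => h.base_E fun j a _ => e j a)
    (h.inv'.openU.inter isOpen_ne) fun t ht z hz => ⟨h.inv'.invU t ht z hz.1, fun i => mul_ne_zero
      (mul_ne_zero (prod_zpow_ne (isUnit_pi_iff.1 (Prod.isUnit_iff.1 ht).1) _)
        (prod_zpow_ne (isUnit_pi_iff.1 (Prod.isUnit_iff.1 ht).2) _)) (hz.2 i)⟩

theorem reg_e2 (hR : F'.Reg K₀') : (P.e2 F').Reg K₀' :=
  hR.reE h.cone_e2 fun _ hz => mem_of_superset (isOpen_ne.mem_nhds (h.ne_s hz)) fun _ a b =>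
    ⟨b.1, (h.mem_E (h.B ▸ b.1) b.2.2 fun i _ => a i).1 b.2.1, b.2.2⟩

theorem main_e2 {ch : Ch ι J'} :
    ch.main κ (P.e2 F') (0 : ν → J' → ℕ) = ch.main κ F' 0 :=
  Fam.main_reE fun _ a _ b c => h.mem_E (h.B ▸ a) b fun i d => c _ d (h.nz i)

theorem tor_e2 : (P.e2 F').Tor (P.T F') := by
  classical
  refine ⟨inter_subset_right, ?_, fun z hz a => ?_⟩
  · rintro z hz _ ⟨⟨i, rfl⟩, -⟩
    exact hz.2.1.1.2 i
  let b : I → ℂ := fun i => if P.s i ∈ F'.mov then a (P.s i) / z.2 (P.s i) else 0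
  refine ⟨fun j => (∑ i, P.vn (F'.w j) i * b i) * z.2 j, Fam.mem_vert.2 ⟨fun j c => ?_, fun k => ?_⟩,
    ?_⟩
  · by_cases d : j ∈ F'.zer
    · exact mul_eq_zero_of_right _ (hz.2.1.2.2 j d)
    · exact mul_eq_zero_of_left (Finset.sum_eq_zero fun i _ => (h.pow_congr
        (fun x n => n * x) (by simp) (fun e => if_neg e) c d).trans (mul_zero _)) _
  · refine (euler (χ := ∑ i, P.vn (F'.χ k) i * b i) (fun α hα => ?_) z.2).trans
      (mul_eq_zero_of_right _ (hz.2.2 k))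
    rw [show F'.χ k = ∑ j, (α j : ℤ) • F'.w j from funext fun r => by
      simpa using (h.inv'.hom k α (support_map_subset _ _ hα) r).symm, vn_sum]
    simp only [Finset.mul_sum, Finset.sum_apply, Pi.smul_apply, smul_eq_mul, Int.cast_sum,
      Int.cast_mul, Int.cast_natCast, Finset.sum_mul, mul_assoc]
    exact Finset.sum_comm
  · rintro _ ⟨⟨i, rfl⟩, c⟩
    have d : b i = _ := if_pos c
    simp [h.vn_s, Pi.single_apply, d, hz.2.1.1.2 i]

theorem grT {ch : Ch ι J'} {ℓ : R' → ι → ℤ} (hl : ch.Lat F'.toWt ℓ) :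
    ch.GrT ν (P.e2 F') (P.T F') P.s (fun j => P.vn (F'.w j)) (P.ψ F') := by
  refine ⟨h.inv_e2, inter_subset_right, ⟨h.inv'.zer_base.mono_right sdiff_subset,
    fun i => ⟨fun a => a.2 ⟨⟨i, rfl⟩, a.1⟩, h.nz i, h.vn_s i, h.ψ_s i⟩,
    by simpa only [← hl.wd] using hl.li h.li, fun _ _ _ _ => rfl,
    fun j l a => h.ψ_an j (h.B ▸ a), fun j a b => funext fun x => ?_, by simp,
    fun l _ y _ => h.mem_E'⟩, inter_subset_left, fun j a b i c => (h.base a b).2.2.2.1 i c.2⟩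
  have c : F'.w j = ∑ i, P.vn (F'.w j) i • F'.w (P.s i) := by
    rcases Ch.notMem_bas.1 a with d | ⟨⟨i, rfl⟩, -⟩
    exacts [(h.base d b).2.2.1, by simp [h.vn_s, Pi.single_apply]]
  generalize P.vn (F'.w j) = n at c ⊢
  simp only [hl.wd, c, Finset.sum_apply, Pi.smul_apply, smul_eq_mul, Finset.sum_mul,
    Finset.mul_sum, mul_assoc]
  exact Finset.sum_comm

theorem cone_e1 : (F.reE univ F.U).cone = F.cone := Set.ext fun _ =>
  ⟨fun a => ⟨a.1, ⟨a.2.1.1, h.E _ a.1 _ a.2.1.2.2, a.2.1.2.2⟩, a.2.2⟩,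
    fun a => ⟨a.1, ⟨a.2.1.1, trivial, a.2.1.2.2⟩, a.2.2⟩⟩

theorem inv_e1 : (F.reE univ F.U).Inv :=
  h.inv.reE isClosed_univ (fun _ _ _ _ => trivial) (fun _ _ _ _ _ => trivial) h.inv.openU h.inv.invU

theorem reg_e1 (hR : F.Reg K₀) : (F.reE univ F.U).Reg K₀ :=
  hR.reE h.cone_e1 fun _ _ => .of_forall fun _ b => ⟨b.1, h.E _ b.1 _ b.2.2, b.2.2⟩

theorem main_e1 {ch : Ch ι J} :
    ch.main κ (F.reE univ F.U) (0 : ν → J → ℕ) = ch.main κ F 0 :=
  Fam.main_reE fun l a y b _ => iff_of_true trivial (h.E l a y b)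

end Ok

end PD

end Vale.Agent.P269
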