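import Vale.Agent.P269.Map.TrvC

/-!
# Arcs tangent to the main stratum
-/

set_option linter.unusedSectionVars false

namespace Vale.Agent.P269.Ch

open Set Function Topology Filter Holo Base

variable {S Λ R J K ι ν I : Type} [Fintype S] [Fintype Λ] [Fintype R] [Fintype J] [Fintype K]
  [Fintype ι] [DecidableEq ι] [Fintype ν] [Fintype I] [DecidableEq I] {ch : Ch ι J}
  {l : Option J} {φ : I → J} {F : Fam S Λ R J K} {n : J → I → ℤ} {ψ : J → (Λ → ℂ) → ℂ}
  {x : (Λ → ℂ) × ch.W ν}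

/-- **Fields that are sections to first order.** An arc along which the free fields satisfy the
Koszul relations to first order is tangent to the main stratum. -/
theorem arc_kos (hl : ∀ i, 4 ≤ ch.a l i) (ha : ∀ l, ch.a l ≠ 0)
    {u : ν → J → ℕ} (hu : u = 0) (hG : Gr ch F u φ n ψ) (hx : x ∈ ch.main₀ F u) {N : ℕ}
    (hN : MfdAt (ch.base ν) N x.2) {c : ℂ → (Λ → ℂ) × ch.W ν} (hc : Arc (F.B ×ˢ ch.base ν) x c)
    (hK : ∀ i, Kz x.2 (deriv c 0).2 (φ i)) (hz : ∀ j ∈ F.zer, ∀ᶠ ε in 𝓝 0, (c ε).2.X j = 0)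
    (hE : ∀ j ∉ F.mov, j ∉ F.zer → j ∉ range φ → ∀ᶠ ε in 𝓝 0, ∀ z ∈ crv (c ε).2,
      (∀ i, n j i ≠ 0 → ∃ a, Val (c ε).2 (φ i) z a) ∧
        Val (c ε).2 j z (ψ j (c ε).1 * ∏ i, fld (c ε).2 z (φ i) ^ n j i)) :
    ∃ c', Arc (ch.main₀ F u) x c' ∧ deriv c' 0 = deriv c 0 := by
  subst hu
  have hb := hx.1.base
  have hT := fun i => hx.1.triv _ (hG.free i).1 (hG.free i).2.1
  have hV := fun i => hx.1.val _ (hG.free i).1
  obtain ⟨r, y, hy⟩ := exists_evB hl hb (fun i => ch.wd (φ i)) 0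
  have c1 : Arc F.B x.1 fun ε => (c ε).1 := hc.map (.of_an analyticAt_fst) (.of_forall fun _ a => a.1)
  have c2 : Arc (ch.base ν) x.2 fun ε => (c ε).2 :=
    hc.map (.of_an analyticAt_snd) (.of_forall fun _ a => a.2)
  have c3 : deriv (fun ε => (c ε).2) 0 = (deriv c 0).2 := deriv_clm (.snd ℂ _ _) hc.an
  obtain ⟨z, z1, z2, z3⟩ := arc_DR' hl ha hN hG.li hV hT hy c2 (c3 ▸ hK)
  obtain ⟨X, x1, x2, x3⟩ := arc_main₀ hl ha hG hx hy c1 z1
  have z0 : (z 0).2 = x.2 := congrArg Prod.snd z1.zero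
  have z4 : Arc (ch.base ν) x.2 fun ε => (z ε).2 := ⟨z2.an, z0, z1.mem.mono fun _ a => a.1⟩
  have aX : ∀ j, AnalyticAt ℂ (fun ε => X ε j) 0 := W.an_X (analyticAt_snd.comp x1.an)
  have X0 : ∀ j, X 0 j = x.2.X j := fun j => congrArg (fun s => s.2.X j) x1.zero
  have tX : ∀ j, Tga (fun ε => (z ε).2.X j) fun ε => (c ε).2.X j := fun j =>
    z2.comp (W.an_X analyticAt_id j)
  have aZ := fun j => (tX j).an.sub (aX j)
  have Z0 : ∀ j, ((fun ε => (z ε).2.X j) - fun ε => X ε j) 0 = 0 := fun j =>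
    sub_eq_zero.2 ((congrArg (·.X j) z0).trans (X0 j).symm)
  have key : ∀ j, deriv ((fun ε => (z ε).2.X j) - fun ε => X ε j) 0 = 0 →
      Tga (fun ε => (z ε).2.X j) fun ε => X ε j := fun j e =>
    ⟨(tX j).an, aX j, sub_eq_zero.1 (Z0 j), sub_eq_zero.1
      ((deriv_sub (tX j).an.differentiableAt (aX j).differentiableAt).symm.trans e)⟩
  have aY : ∀ {Y U}, Mp x.2 Y U → ∀ {d} (μ : Tens ch.M d),
      AnalyticAt ℂ (fun ε => val μ (Y (z ε).2)) 0 := fun h _ μ =>
    an_val analyticAt_const (h.an.comp_of_eq z2.an z0)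
  have D := fun {Y U} (h : Mp x.2 Y U) j {G} hG' => hasDerivAt_ev (G := G)
    (analyticAt_pi_iff.1 (h.an'.comp_of_eq z2.an z0) (some j)) (aZ j) hG' (Z0 j)
  have hv : ∀ {Y U}, Mp x.2 Y U → ∀ᶠ ε in 𝓝 0, ∀ j ∉ F.mov, ∀ μ, U (z ε).2 (some j) (X ε j μ) =
      fld (setX (z ε).2 (X ε)) (Y (z ε).2) j * val μ (Y (z ε).2) := fun h => by
    filter_upwards [x1.mem, z4.ev h.mem] with ε a b j hj
    exact val_fld (a.1.val j hj _ ⟨_, b, rfl⟩) _ b
  have t1 : ∀ i, Tga (fun ε => (z ε).2.X (φ i)) fun ε => X ε (φ i) := fun i => by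
    refine key _ (eq_zero_of_kos hb (hy i) (fun p a b μ μ' => ?_) fun k w a μ b => ?_)
    · obtain ⟨Y, U, h, e1, e2⟩ := exists_mp' hl hb a b
      have := (((D h _ (aY h μ') μ).sub (D h _ (aY h μ) μ')).deriv.symm.trans
        (EventuallyEq.deriv_eq (f := fun ε => kz Y U (φ i) μ μ' (z ε).2) (by
          filter_upwards [hv h] with ε e
          simp only [kz, Pi.sub_apply, comp_apply, _root_.sub_apply, map_sub,
            e _ (hG.free i).1]
          ring))).trans ((deriv_comp_an' (h.an_kz _ μ μ') z2.an z0).trans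
            (z2.der.trans c3 ▸ hK i Y U h μ μ'))
      simpa only [comp_apply, z0, e1, e2] using this
    · obtain ⟨U, h⟩ := exists_mp hb ((hy i).an k) ((hy i).ev.mono fun s a b => ((a b).1 k).1)
      have e1 := (aY h μ).continuousAt.eventually_ne (z0.symm ▸ b)
      have e2 := analyticAt_pi_iff.1 (analyticAt_pi_iff.1 (analyticAt_fst.comp z1.an) i) k
      have e3 := z2.comp (z0.symm ▸ (h.an_ev _ μ).div (an_val analyticAt_const h.an) b)
      have := (D h _ ((aY h μ).inv e1.self_of_nhds) μ).deriv.symm.trans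
        ((EventuallyEq.deriv_eq (by
          filter_upwards [hv h, x3, e1] with ε e4 e5 e6
          simp only [Pi.sub_apply, Pi.inv_apply, Pi.div_apply, comp_apply,
            _root_.sub_apply, map_sub, e4 _ (hG.free i).1, e5]
          field_simp)).trans (Tga.sub ⟨e3.an, e2, ?_, e3.der.trans (z3 i k U μ h b)⟩))
      · rw [comp_apply, z0, gr_unique (h.mem.self_of_nhds hb) a (hb.1 _)] at this
        exact (mul_eq_zero.1 this).resolve_left (inv_ne_zero e1.self_of_nhds)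
      · simp only [z1.zero, Pi.div_apply, comp_apply]
        exact (div_eq_iff b).2 (val_fld (hV i _ ⟨_, h.mem.self_of_nhds hb, rfl⟩) _
          (h.mem.self_of_nhds hb) μ)
  have t2 : ∀ j, Tga (fun ε => (z ε).2.X j) fun ε => X ε j := fun j => by
    by_cases h1 : j ∈ F.mov
    · exact .of_eq (tX j).an (.of_forall fun ε => (x2 ε j h1).symm)
    by_cases h2 : j ∈ F.zer
    · refine (tX j).trans (.of_eq (tX j).an' ?_)
      filter_upwards [hz j h2, x1.mem] with ε a b using a.trans (b.1.zer j h2).symm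
    by_cases h3 : j ∈ range φ
    · exact h3.choose_spec ▸ t1 _
    refine key j (ContinuousLinearMap.ext fun μ => vec_zero_of_gen hb fun p a b => ?_)
    obtain ⟨Y, U, h, e1, e2⟩ := exists_mp' hl hb a b
    have hm := h.mem.self_of_nhds hb
    choose m hm1 using fun i => exists_val_one (a := ch.b (φ i)) hm.1
    let G : (Λ → ℂ) × ch.W ν × (∀ i, Tens ch.M (ch.b (φ i)) →L[ℂ] ch.E (some (φ i))) → ℂ :=
      fun q => ψ j q.1 * (∏ i, (U q.2.1 (some (φ i)) (q.2.2 i (m i)) / val (m i) (Y q.2.1)) ^ n j i) *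
        val μ (Y q.2.1)
    have e3 : ∀ {B : Type} [NormedAddCommGroup B] [NormedSpace ℂ B] {f : ch.W ν → B},
        AnalyticAt ℂ f x.2 → AnalyticAt ℂ (fun q : (Λ → ℂ) × ch.W ν ×
          (∀ i, Tens ch.M (ch.b (φ i)) →L[ℂ] ch.E (some (φ i))) => f q.2.1)
            (x.1, x.2, fun i => x.2.X (φ i)) := fun e =>
      e.comp_of_eq (analyticAt_fst.comp analyticAt_snd) rfl
    have aG : AnalyticAt ℂ G (x.1, x.2, fun i => x.2.X (φ i)) := by
      refine .mul (.mul ((hG.an j _ hx.1.par).1.comp_of_eq analyticAt_fst rfl)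
        (Finset.analyticAt_fun_prod _ fun i _ => .fun_zpow (.div (an_apply (e3
          (analyticAt_pi_iff.1 h.an' _)) (an_apply (analyticAt_pi_iff.1 (analyticAt_snd.comp
            analyticAt_snd) i) analyticAt_const)) (e3 (an_val analyticAt_const h.an))
              ((hm1 i).trans_ne one_ne_zero)) ?_)) (e3 (an_val analyticAt_const h.an))
      simpa only [val_fld (hV i _ ⟨_, hm, rfl⟩) _ hm _, hm1, mul_one, div_one] using
        fld_ne hb (hV i) (hT i) ⟨_, hm, rfl⟩ fun _ _ => rfl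
    have e4 := ((Tga.refl c1.an).prod (z2.symm.prod (Tga.pi fun i =>
      (tX (φ i)).symm.trans (t1 i)))).comp (G := G) (by simpa only [hc.zero] using aG)
    have e5 : ∀ᶠ s in 𝓝 x.2, ∀ i, val (m i) (Y s) ≠ 0 := eventually_all.2 fun i =>
      (an_val analyticAt_const h.an).continuousAt.eventually_ne ((hm1 i).trans_ne one_ne_zero)
    have e6 := z2.comp (z0.symm ▸ h.an_ev j μ)
    have e7 := e6.trans ((Tga.of_eq e6.an' (by
      filter_upwards [hE j h1 h2 h3, c2.ev h.mem, c2.an.continuousAt.eventually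
        (c2.zero.symm ▸ e5)] with ε b1 b2 b3
      obtain ⟨b4, b5⟩ := b1 _ ⟨_, b2, rfl⟩
      refine (b5 _ b2 μ).trans (congrArg (fun t => _ * t * _) (Finset.prod_congr rfl fun i _ => ?_))
      by_cases b6 : n j i = 0
      · simp only [b6, zpow_zero]
      · rw [val_fld (b4 i b6) _ b2, mul_div_cancel_right₀ _ (b3 i)])).trans e4)
    have := (D h j analyticAt_const (G := fun _ => 1) μ).deriv.symm.trans
      ((EventuallyEq.deriv_eq (by
        filter_upwards [hv h, x1.mem, z4.ev h.mem, z2.an.continuousAt.eventually (z0.symm ▸ e5)]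
          with ε b1 b2 b3 b4
        simp only [G, Pi.sub_apply, comp_apply, _root_.sub_apply, map_sub, one_mul,
          b1 j h1, fun i => b1 _ (hG.free i).1, mul_div_cancel_right₀ _ (b4 _),
          (b2.1.mem_E hG ⟨_, b3, rfl⟩).1 (b2.2 _ ⟨_, b3, rfl⟩) j h1 h2])).trans e7.sub)
    simpa only [comp_apply, z0, e2, one_mul] using this
  have t3 := ((Tga.refl z2.an).prod (Tga.pi t2)).comp (G := fun q => setX q.1 q.2) (an_setX₂ _)
  exact ⟨_, x1, ((Tga.refl c1.an).prod (t3.symm.trans z2)).der⟩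

end Vale.Agent.P269.Ch
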