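import Vale.Agent.P269.Base.Dr
import Vale.Agent.P269.Map.TrvM

/-!
# Double ramification loci to first order
-/

namespace Vale.Agent.P269.Base

open Set Function Topology Filter Holo Cbc

variable {ι : Type} [Fintype ι] {M : ι → ℕ} {β κ J : Type*} [Fintype β] [Fintype κ] [Fintype J]
  {o : ι} {g : ℤ} {m : ι → ℤ} {T P : Type*} [TopologicalSpace T] [NormedAddCommGroup P]
  [NormedSpace ℂ P] [FiniteDimensional ℂ P] {C : T → Set (V M)} {π : T → P} {t₀ : T}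
  {σ : β → P × ℂ → V M} {χ v : J → ι → ℤ} {u : J → β → ℤ} {f₀ : J → V M → ℂ}
  {y : J → κ → P → V M} {a b : J → ι → ℕ}

omit [Fintype J] in
/-- Transversality for given presentations. -/
theorem LocFam.dr' [Finite J] (h : LocFam o C π t₀) (h0 : IsCurve o g m (C t₀))
    (hσ : Pts o C π t₀ σ) (hv : ∀ j j', dgz (v j) (χ j') = 0 ↔ j ≠ j')
    (hw : ∀ j, HasTw o C π t₀ σ (v j))
    (hf : ∀ j, Triv o (C t₀) (χ j) (ctr σ (π t₀)) (u j) (f₀ j)) {s : J → ℕ}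
    {τ : ∀ j, Fin (s j) → P × ℂ → V M} {χ' : J → ι → ℤ} {n : ∀ j, β ⊕ Fin (s j) → ℤ}
    {e : J → T → V M → ℂ} {N : ∀ j, β ⊕ Fin (s j) → ℕ} (h1 : ∀ j, Pres o C π t₀ (χ j)
      (Sum.elim σ (τ j)) (Sum.elim (u j) 0) (χ' j) (n j) (e j) (a j) (N j))
    (h2 : ∀ j, Evp o C π t₀ (χ j) (Sum.elim σ (τ j)) (Sum.elim (u j) 0) (y j)) :
    ∃ (r : J → ℕ) (K : ∀ j, P → ((∀ k, Fin (N j k) → ℂ) × (κ → ℂ)) →L[ℂ] Fin (r j) → ℂ),
      (∀ j, AnalyticAt ℂ (K j) (π t₀)) ∧ (∀ᶠ t in 𝓝 t₀, ∀ j,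
        (∀ μ, K j (π t) (jv π (Sum.elim σ (τ j)) (e j) (a j) (N j) (y j) t μ) = 0) ∧
        ∀ w, K j (π t) (0, w) = 0 ↔ (t, w) ∈ Sol o C π (χ j) σ (u j) (y j)) ∧
      ∀ b : ∀ j, Fin (r j) → ℂ, ∃ p ∈ tan π t₀, ∃ w : J → κ → ℂ, ∀ j,
        fderiv ℂ (K j) (π t₀) p (0, fun k => f₀ j (y j k (π t₀))) + K j (π t₀) (0, w j) = b j := by
  classical
  have := Fintype.ofFinite J
  choose r K h3 h4 _ h6 using fun j => (h1 j).exists_coker h0 (h2 j)
  have hG := fun j => good (h1 j) h0 (h2 j).toMov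
  have hK := fun j => ((h6 j).and (hG j)).mono fun t ht ν => (ht.1.1 _ _).2 ⟨ν, ht.2.jv_eq.1 rfl⟩
  refine ⟨r, K, h3, ?_, fun b => ?_⟩
  · filter_upwards [eventually_all.2 h6, eventually_all.2 hG, eventually_all.2 hK] with t h7 h8 h9 j
    exact ⟨h9 j, fun w => ((h7 j).2 w).trans (sol_ext (h8 j).mov (h8 j).pres.pts (h8 j).pres.fam w)⟩
  have h7 : ∀ j, Triv o (C t₀) (χ j) (ctr (Sum.elim σ (τ j)) (π t₀)) (Sum.elim (u j) 0) (f₀ j) :=
    fun j => ctr_sum (σ := σ) (σ' := τ j) (π t₀) ▸ (hf j).ext (off_of_sum (h1 j).pts)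
  choose μ h8 h9 using fun j => (hG j).self_of_nhds.form (h7 j).toMer
  have h10 : ∀ j, Triv o (C t₀) (fun i => a j i) (ctr (Sum.elim σ (τ j)) (π t₀)) (fun k => N j k)
      (val (μ j)) := fun j => (((h7 j).mul (h1 j).triv).cast (funext fun i => ((h1 j).deg i).symm)
        (funext fun k => ((h1 j).ord k).symm)).congr h0.nod
          (fun s _ c _ => by rw [val_smul, chz_nat]) (h9 j)
  obtain ⟨b', l, n', γ, k1, k2, k3, k4, k5, k6⟩ := Dr.exists_lin h0.nod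
    (z := Sum.elim (ctr σ (π t₀)) fun q : Σ j, Fin (s j) => ctr (τ q.1) (π t₀) q.2) (by
      rintro (k | ⟨j, k⟩)
      exacts [h0.ne_zero _ ((hσ.spt h).mem k), h0.ne_zero _ (((h1 j).pts.spt h).mem (.inr k))])
  have k7 : ∀ j k, l (Sum.elim σ (τ j) k (π t₀, 0)) ≠ 0 := fun j =>
    Sum.rec (fun k => k6 (.inl k)) fun k => k6 (.inr ⟨j, k⟩)
  choose q hq using fun j => h4 j (b j)
  have key : ∀ j, ∃ p ∈ tan π t₀, ∀ j', ∃ w, fderiv ℂ (K j') (π t₀) p
      (0, fun k => f₀ j' (y j' k (π t₀))) +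
        K j' (π t₀) (if j = j' then -(q j').1 else 0, w) = 0 := fun j => by
    obtain ⟨c, S, m1, m2, m3⟩ := (h1 j).exists_vel h0 k2 k1 k3 k4 k5 (k7 j) (h10 j)
      (fun e => (hv j j).1 e rfl) (-(q j).1)
    obtain ⟨x, I, m4, m5, m6, m7, m8⟩ := hw j b' l n' γ c k2 k3 k4 k5 fun k => k6 (.inl k)
    refine ⟨deriv (fun ε => π (x ε)) 0, m4 ▸ fderiv_mem_tan m5 m6 1, fun j' => ?_⟩
    have m9 : ∃ μ' : Tens M (a j'), deriv (fun ε => jetL (a j') (Sum.elim σ (τ j')) (N j')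
        (π (x ε)) (μ j')) 0 + jetL (a j') (Sum.elim σ (τ j')) (N j') (π t₀) μ' =
          if j = j' then -(q j').1 else 0 := by
      have m10 := fun S => (h1 j').trans h0 k2 k3 k4 k5 (k7 j') m4 m5 m6 m7
        (Sum.rec (fun k => .inr (m8 k)) fun _ => .inl rfl) (congrArg Prod.fst (h8 j')) (S := S)
      split_ifs with e
      · subst e
        exact m3 ▸ m10 S m1 m2
      · obtain ⟨μ', m11⟩ := m10 0 (zero_mem _) fun k => by simp [(hv j j').2 e]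
        exact ⟨μ', m11.trans (funext fun k => by
          simpa using (dv_iff_jet analyticAt_const).1 Dv.const_zero)⟩
    obtain ⟨μ', m9⟩ := m9
    exact h8 j' ▸ Dr.arc (hG j').self_of_nhds (h3 j') (hK j') m4 m5 m6 m9
  choose p m1 w m2 using key
  refine ⟨∑ j, p j, Submodule.sum_mem _ fun j _ => m1 j, fun j' => (q j').2 + ∑ j, w j j',
    fun j' => ?_⟩
  have m4 := Finset.sum_eq_zero (s := Finset.univ) fun j _ => m2 j j'
  rw [Finset.sum_add_distrib, ← map_sum, ← sum_apply, ← map_sum,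
    ← prod_mk_sum, Finset.sum_ite_eq', if_pos (Finset.mem_univ _)] at m4
  rw [← hq j', eq_neg_of_add_eq_zero_left m4, ← map_neg, ← map_add]
  congr 1
  ext <;> simp

theorem deriv_mul_zero {f g : ℂ → ℂ} (hf : AnalyticAt ℂ f 0) (hg : AnalyticAt ℂ g 0) (h0 : f 0 = 0)
    (h1 : deriv f 0 = 0) : deriv (fun ε => f ε * g ε) 0 = 0 := by
  rw [deriv_fun_mul hf.differentiableAt hg.differentiableAt, h0, h1, zero_mul, zero_mul, add_zero]

omit [Fintype β] [Fintype κ] in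
/-- The presentation given by a generic form. -/
theorem LocFam.exists_pres_form [Finite β] [Finite κ] {χ : ι → ℤ} {y : κ → P → V M} {a b : ι → ℕ}
    (h : LocFam o C π t₀) (hσ : Pts o C π t₀ σ) (hy : Evp o C π t₀ χ σ 0 y) (ha : a ≠ 0)
    (hd : ∀ i, (a i : ℤ) = χ i + b i) : ∃ (μ : Tens M b) (s : ℕ) (τ : Fin s → P × ℂ → V M),
      Pres o C π t₀ χ (Sum.elim σ τ) (Sum.elim 0 0) (fun i => b i) (Sum.elim 0 1)
        (fun _ => val μ) a (Sum.elim 0 1) ∧ Evp o C π t₀ χ (Sum.elim σ τ) (Sum.elim 0 0) y ∧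
      ∀ᶠ t in 𝓝 t₀, ∀ k, val μ (τ k (π t, 0)) = 0 := by
  classical
  have hn := h.nod.ne_zero
  have h1 : ∀ c ∈ C t₀, ∃ μ ∈ (⊤ : Submodule ℂ (Tens M b)), val μ c ≠ 0 := fun c hc =>
    let ⟨μ, e⟩ := exists_pol_one (hn c hc) b
    ⟨μ, trivial, e ▸ one_ne_zero⟩
  obtain ⟨μ, -, h2, h3⟩ := h.nod.exists_simp ⊤ (fun c hc h2 =>
    let ⟨μ, e, e'⟩ := h1 c hc; (e' (h2 μ e)).elim)
    (y := Sum.elim (ctr σ (π t₀)) fun k => y k (π t₀)) (by
      rintro (k | k)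
      exacts [h1 _ (hσ.mem k), h1 _ (hy.mem k).self_of_nhds])
  have h4 : IsSec o (C t₀) b (val μ) := Pol.isSec (val_mem _)
  obtain ⟨s, z, hz⟩ := (nzd_of_simp h.nod h4 h2).exists_reps h.nod h4
  have h5 := fun k => h2 _ (hz.mem k) (hz.prop k)
  obtain ⟨τ, k1, k2, k3, k4⟩ := h.zeros' (lam := fun _ => μ) analyticAt_const hz h5
  have h6 : ∀ c, val μ c ≠ 0 → Off (ctr τ (π t₀)) c := fun c hc k e =>
    hc ((h4.hm.orb (hz.mem k) (k2 ▸ e)).2 (hz.prop k))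
  have h7 : ∀ k, Off (ctr σ (π t₀)) (ctr τ (π t₀) k) := fun k j e => h6 _ (h3 (.inl j)) k e.symm
  have h8 := hσ.sum k1 h7
  have h9 := FMer.of_val h h8 (HolAt.const μ)
  have h10 : FMer o C π t₀ (fun i => b i) (Sum.elim σ τ) (Sum.elim 0 1) fun _ => val μ :=
    ⟨h9.hom, h9.reg, Sum.rec (fun k => h9.ord (.inl k)) k3.ord⟩
  have h11 := (k2 ▸ (Triv.of_simp h.nod h4 hz h5).2 :
    Triv o (C t₀) (fun i => b i) (ctr τ (π t₀)) 1 (val μ)).ext fun k => h6 _ (h3 (.inl k))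
  exact ⟨μ, s, τ, ⟨h, h8, h10, ⟨h10.mer h h8, fun c hc ho => h11.ne c hc (Sum.rec
      (fun k => ho (.inr k)) fun k => ho (.inl k)), Sum.rec (fun k => h11.exact (.inr k))
        fun k => h11.exact (.inl k)⟩, ha, hd, Sum.rec (fun _ => rfl) fun _ => rfl⟩,
    evp_ext hy h8 h fun k => h6 _ (h3 (.inr k)), k4.mono fun t ht => ht.prop⟩

/-- **Sections to first order.** The forms `L j ε μ` represent `f j • μ` to first order along the
arc `x`; then there is an arc with the same velocity along which the sections extend. -/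
theorem LocFam.dr_arc (h : LocFam o C π t₀) (h0 : IsCurve o g m (C t₀)) (hσ : Pts o C π t₀ σ)
    (hv : ∀ j j', dgz (v j) (χ j') = 0 ↔ j ≠ j') (hw : ∀ j, HasTw o C π t₀ σ (v j))
    (hf : ∀ j, Triv o (C t₀) (χ j) (ctr σ (π t₀)) 0 (f₀ j))
    (hy : ∀ j, Evp o C π t₀ (χ j) σ 0 (y j)) {n : ℕ} (hT : IsMfd π n t₀) (ha : ∀ j, a j ≠ 0)
    (hd : ∀ j i, (a j i : ℤ) = χ j i + b j i) {x : ℂ → T} (hx0 : x 0 = t₀) (hx : ContinuousAt x 0)
    (hx' : AnalyticAt ℂ (fun ε => π (x ε)) 0) {L : ∀ j, ℂ → Tens M (b j) → Tens M (a j)}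
    (hL : ∀ j μ, AnalyticAt ℂ (fun ε => L j ε μ) 0)
    (h1 : ∀ j μ, ∀ c ∈ C t₀, val (L j 0 μ) c = f₀ j c * val μ c)
    (h2 : ∀ j μ μ', ∀ Y : P → V M, AnalyticAt ℂ Y (π t₀) → (∀ᶠ t in 𝓝 t₀, Y (π t) ∈ C t) →
      deriv (fun ε => val μ' (Y (π (x ε))) * val (L j ε μ) (Y (π (x ε))) -
        val μ (Y (π (x ε))) * val (L j ε μ') (Y (π (x ε)))) 0 = 0) :
    ∃ (x' : ℂ → T) (w : ℂ → J → κ → ℂ), x' 0 = t₀ ∧ ContinuousAt x' 0 ∧
      AnalyticAt ℂ (fun ε => π (x' ε)) 0 ∧ AnalyticAt ℂ w 0 ∧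
      (w 0 = fun j k => f₀ j (y j k (π t₀))) ∧
      deriv (fun ε => π (x' ε)) 0 = deriv (fun ε => π (x ε)) 0 ∧
      (∀ j k μ, val μ (y j k (π t₀)) ≠ 0 → deriv (fun ε => val (L j ε μ) (y j k (π (x ε))) /
        val μ (y j k (π (x ε)))) 0 = deriv w 0 j k) ∧
      ∀ᶠ ε in 𝓝 0, ∀ j, (x' ε, w ε j) ∈ Sol o C π (χ j) σ 0 (y j) := by
  classical
  subst hx0
  choose μ s τ k1 k2 k3 using fun j => h.exists_pres_form hσ (hy j) (ha j) (hd j)
  obtain ⟨r, K, k4, k5, k6⟩ := h.dr' (u := fun _ => 0) h0 hσ hv hw hf k1 k2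
  have hG := fun j => (good (k1 j) h0 (k2 j).toMov).self_of_nhds
  have aY : ∀ {Y : P → V M}, AnalyticAt ℂ Y (π (x 0)) → AnalyticAt ℂ (fun ε => Y (π (x ε))) 0 :=
    fun hY => hY.comp (f := fun ε => π (x ε)) hx'
  have aV : ∀ {Y : P → V M} {d : ι → ℕ} (ν : Tens M d), AnalyticAt ℂ Y (π (x 0)) →
      AnalyticAt ℂ (fun ε => val ν (Y (π (x ε)))) 0 := fun ν hY => an_val analyticAt_const (aY hY)
  -- the Koszul expression divided by one of the forms
  have hK : ∀ j ν ν', ∀ Y : P → V M, AnalyticAt ℂ Y (π (x 0)) → (∀ᶠ t in 𝓝 (x 0), Y (π t) ∈ C t) →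
      ∀ G : ℂ → ℂ, AnalyticAt ℂ G 0 → deriv (fun ε => (val ν' (Y (π (x ε))) *
        val (L j ε ν) (Y (π (x ε))) - val ν (Y (π (x ε))) * val (L j ε ν') (Y (π (x ε)))) *
          G ε) 0 = 0 := fun j ν ν' Y hY hm G hG' =>
    deriv_mul_zero (((aV _ hY).mul (an_val (hL j ν) (aY hY))).sub
      ((aV _ hY).mul (an_val (hL j ν') (aY hY)))) hG'
      (by simp only [h1 j _ _ hm.self_of_nhds]; ring) (h2 j ν ν' Y hY hm)
  let G := fun j ε => jv π (Sum.elim σ (τ j)) (fun _ => val (μ j)) (a j) (Sum.elim 0 1) (y j) (x ε)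
    (L j ε (μ j))
  have aG : ∀ j, AnalyticAt ℂ (G j) 0 := fun j => an_apply ((hG j).hol.an_comp hx hx') (hL j _)
  have e1 : ∀ j ε k i, (G j ε).1 (.inr k) i = val (L j ε (μ j)) (τ j k (π (x ε), 0)) :=
    fun j ε k i => by
      obtain rfl : i = (0 : Fin 1) := Subsingleton.elim (α := Fin 1) _ _
      rfl
  have G0 : ∀ j, G j 0 = (0, fun k => f₀ j (y j k (π (x 0)))) := fun j =>
    (hG j).jv_eq.2 ⟨funext (Sum.rec (fun _ => funext fun i => i.elim0) fun k => funext fun i =>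
      (e1 j 0 k i).trans ((h1 j _ _ ((k1 j).pts.mem (.inr k))).trans
        (mul_eq_zero_of_right _ ((k3 j).self_of_nhds k)))),
      fun k => h1 j _ _ ((hy j).mem k).self_of_nhds⟩
  have G1 : ∀ j, (deriv (G j) 0).1 = 0 := fun j => funext (Sum.rec
    (fun _ => funext fun i => i.elim0) fun k => funext fun i => by
      have c := (k1 j).pts.chart (.inr k)
      have c1 : AnalyticAt ℂ (fun p => τ j k (p, 0)) (π (x 0)) :=
        c.an.comp_of_eq (analyticAt_id.prod analyticAt_const) rfl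
      obtain ⟨ν, hν⟩ := exists_pol_one ((k1 j).pts.ne h (.inr k)) (b j)
      have c2 : val ν (τ j k (π (x 0), 0)) ≠ 0 := hν.trans_ne one_ne_zero
      let l : ((∀ k : β ⊕ Fin (s j), Fin (Sum.elim 0 1 k) → ℂ) × (κ → ℂ)) →L[ℂ] ℂ :=
        (ContinuousLinearMap.proj (φ := fun _ => ℂ) i).comp ((ContinuousLinearMap.proj
          (φ := fun k : β ⊕ Fin (s j) => Fin (Sum.elim 0 1 k) → ℂ) (Sum.inr k)).comp
            (ContinuousLinearMap.fst ℂ _ _))
      refine (deriv_clm l (aG j)).symm.trans ((EventuallyEq.deriv_eq ?_).trans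
          (hK j (μ j) ν _ c1 (((tendsto_inl (x 0) (0 : ℂ)).eventually c.mem).mono fun _ e =>
            e trivial) _ ((aV ν c1).inv c2)))
      filter_upwards [hx.eventually (k3 j), (aV ν c1).continuousAt.eventually_ne c2] with ε b1 b2
      refine (e1 j ε k i).trans ?_
      simp only [b1 k, Pi.inv_apply]
      field_simp
      ring)
  have h5 : ∀ j, AnalyticAt ℂ (fun q : P × (J → κ → ℂ) => K j q.1 (0, q.2 j))
      (π (x 0), fun j k => f₀ j (y j k (π (x 0)))) := fun j =>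
    an_apply ((k4 j).comp_of_eq analyticAt_fst rfl)
      (analyticAt_const.prod (analyticAt_pi_iff.1 analyticAt_snd j))
  have h6 : ∀ p w, fderiv ℂ (fun (q : P × (J → κ → ℂ)) j => K j q.1 (0, q.2 j))
      (π (x 0), fun j k => f₀ j (y j k (π (x 0)))) (p, w) = fun j =>
        fderiv ℂ (K j) (π (x 0)) p (0, fun k => f₀ j (y j k (π (x 0)))) + K j (π (x 0)) (0, w j) :=
    fun p w => funext fun j => by
      rw [fderiv_pi fun j => (h5 j).differentiableAt]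
      exact Dr.fderiv_pair (k4 j) ((ContinuousLinearMap.inr ℂ _ _).comp
        (ContinuousLinearMap.proj j : (J → κ → ℂ) →L[ℂ] _)) _ p w
  have h4 := IsMfd.self (A := J → κ → ℂ) fun j k => f₀ j (y j k (π (x 0)))
  obtain ⟨c, a1, a2, a3, a4, a5⟩ := (hT.prod h4).exists_arc_zero
    (v := (deriv (fun ε => π (x ε)) 0, fun j => (deriv (G j) 0).2))
    (Φ := fun q j => K j q.1 (0, q.2 j)) (AnalyticAt.pi h5)
    (funext fun j => ((k5.self_of_nhds j).2 _).2 ⟨_, (hf j).toMer, fun _ => rfl⟩)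
    (fun b => let ⟨p, b1, w, b2⟩ := k6 b
      ⟨(p, w), (hT.tan_prod h4).ge ⟨b1, (tan_id _).ge trivial⟩, (h6 p w).trans (funext b2)⟩)
    ((hT.tan_prod h4).ge ⟨fderiv_mem_tan hx hx' 1, (tan_id _).ge trivial⟩)
    ((h6 _ _).trans (funext fun j => by
      have := (((k4 j).differentiableAt.hasFDerivAt.comp_hasDerivAt (f := fun ε => π (x ε)) 0
        hx'.differentiableAt.hasDerivAt).clm_apply (aG j).differentiableAt.hasDerivAt).unique
          ((hasDerivAt_const (0 : ℂ) (0 : Fin (r j) → ℂ)).congr_of_eventuallyEq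
            ((hx.eventually k5).mono fun ε hε => (hε j).1 _))
      rwa [G0, ← Prod.mk.eta (p := deriv (G j) 0), G1] at this))
  have a6 : ContinuousAt (fun ε => (c ε).1) 0 := continuousAt_fst.comp a2
  have a7 : (c 0).1 = x 0 := congrArg Prod.fst a1
  refine ⟨fun ε => (c ε).1, fun ε => (c ε).2, a7, a6,
    analyticAt_fst.comp (f := fun ε => Prod.map π (fun z => z) (c ε)) a3,
    analyticAt_snd.comp (f := fun ε => Prod.map π (fun z => z) (c ε)) a3, congrArg Prod.snd a1,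
    (deriv_clm (.fst ℂ _ _) a3).trans (congrArg Prod.fst a4), fun j k ν hν => ?_,
    (a6.eventually (a7 ▸ k5)).mono fun ε e j => ((e j).2 _).1 (congrFun (a5 ε) j)⟩
  have c1 := (hy j).an k
  have c2 := (hG j).e_ne k
  have c3 : deriv (fun ε => (G j ε).2 k) 0 = deriv (fun ε => (c ε).2) 0 j k :=
    (deriv_clm ((ContinuousLinearMap.proj k).comp (ContinuousLinearMap.snd ℂ _ _)) (aG j)).trans
      (congrFun (congrFun ((deriv_clm (.snd ℂ _ _) a3).trans (congrArg Prod.snd a4)) j) k).symm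
  have c4 := (analyticAt_pi_iff.1 (analyticAt_snd.comp (aG j)) k).differentiableAt
  have c5 := ((an_val (hL j ν) (aY c1)).div (aV ν c1) hν).differentiableAt
  refine (sub_eq_zero.1 ((deriv_sub c5 c4).symm.trans ((EventuallyEq.deriv_eq ?_).trans
    (hK j ν (μ j) _ c1 ((hy j).mem k) _ (((aV ν c1).mul (aV _ c1)).inv (mul_ne_zero hν c2)))))).trans
      c3
  filter_upwards [(aV ν c1).continuousAt.eventually_ne hν, (aV _ c1).continuousAt.eventually_ne c2]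
    with ε b1 b2
  change _ / _ - _ * val (L j ε (μ j)) _ = _
  simp only [Pi.inv_apply, Pi.mul_apply]
  field_simp

end Vale.Agent.P269.Base
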