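import Vale.Agent.P269.Base.MainS
import Vale.Agent.P269.Map.TrvB

/-!
# Fields that are sections to first order
-/

set_option linter.unusedSectionVars false

namespace Vale.Agent.P269

open Set Function Topology Filter

namespace Holo

variable {A B : Type*} [NormedAddCommGroup A] [NormedSpace ℂ A] [NormedAddCommGroup B]
  [NormedSpace ℂ B] {a a' a'' : ℂ → A} {b b' : ℂ → B}

/-- Arcs with the same origin and the same velocity. -/
structure Tga (a a' : ℂ → A) : Prop where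
  an : AnalyticAt ℂ a 0
  an' : AnalyticAt ℂ a' 0
  zero : a 0 = a' 0
  der : deriv a 0 = deriv a' 0

namespace Tga

theorem refl (h : AnalyticAt ℂ a 0) : Tga a a := ⟨h, h, rfl, rfl⟩

theorem symm (h : Tga a a') : Tga a' a := ⟨h.an', h.an, h.zero.symm, h.der.symm⟩

theorem trans (h : Tga a a') (h' : Tga a' a'') : Tga a a'' :=
  ⟨h.an, h'.an', h.zero.trans h'.zero, h.der.trans h'.der⟩

theorem of_eq (h : AnalyticAt ℂ a 0) (e : a =ᶠ[𝓝 0] a') : Tga a a' :=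
  ⟨h, h.congr e, e.self_of_nhds, e.deriv_eq⟩

theorem comp (h : Tga a a') {G : A → B} (hG : AnalyticAt ℂ G (a 0)) :
    Tga (fun ε => G (a ε)) fun ε => G (a' ε) :=
  ⟨hG.comp h.an, hG.comp_of_eq h.an' h.zero.symm, congrArg G h.zero, by
    rw [deriv_comp_an' hG h.an rfl, deriv_comp_an' hG h.an' h.zero.symm, h.der]⟩

theorem prod (h : Tga a a') (h' : Tga b b') : Tga (fun ε => (a ε, b ε)) fun ε => (a' ε, b' ε) :=
  ⟨h.an.prod h'.an, h.an'.prod h'.an', Prod.ext h.zero h'.zero, by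
    rw [(h.an.differentiableAt.hasDerivAt.prodMk h'.an.differentiableAt.hasDerivAt).deriv,
      (h.an'.differentiableAt.hasDerivAt.prodMk h'.an'.differentiableAt.hasDerivAt).deriv, h.der,
      h'.der]⟩

theorem pi {σ : Type*} [Fintype σ] {C : σ → Type*} [∀ i, NormedAddCommGroup (C i)]
    [∀ i, NormedSpace ℂ (C i)] {f f' : ℂ → ∀ i, C i}
    (h : ∀ i, Tga (fun ε => f ε i) fun ε => f' ε i) : Tga f f' :=
  ⟨.pi fun i => (h i).an, .pi fun i => (h i).an', funext fun i => (h i).zero,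
    (deriv_pi fun i => (h i).an.differentiableAt).trans ((funext fun i => (h i).der).trans
      (deriv_pi fun i => (h i).an'.differentiableAt).symm)⟩

theorem sub (h : Tga a a') : deriv (fun ε => a ε - a' ε) 0 = 0 :=
  (deriv_fun_sub h.an.differentiableAt h.an'.differentiableAt).trans (sub_eq_zero.2 h.der)

end Tga

theorem hasDerivAt_ev {U : ℂ → B →L[ℂ] ℂ} {Z : ℂ → A →L[ℂ] B} {G : ℂ → ℂ}
    (hU : AnalyticAt ℂ U 0) (hZ : AnalyticAt ℂ Z 0) (hG : AnalyticAt ℂ G 0) (h0 : Z 0 = 0) (μ : A) :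
    HasDerivAt (fun ε => G ε * U ε (Z ε μ)) (G 0 * U 0 (deriv Z 0 μ)) 0 :=
  (hG.differentiableAt.hasDerivAt.mul (hU.differentiableAt.hasDerivAt.clm_apply
    (hZ.differentiableAt.hasDerivAt.clm_apply (hasDerivAt_const 0 μ)))).congr_deriv (by simp [h0])

theorem Arc.lift {S : Set A} {p : A} (h : Arc S p a) (hp : p ∈ S) : ∃ c : ℂ → S, c 0 = ⟨p, hp⟩ ∧
    ContinuousAt c 0 ∧ ∀ᶠ ε in 𝓝 (0 : ℂ), a ε = (c ε).1 := by
  classical
  let c : ℂ → S := fun ε => if h : a ε ∈ S then ⟨a ε, h⟩ else ⟨p, hp⟩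
  have h4 : ∀ᶠ ε in 𝓝 (0 : ℂ), a ε = (c ε).1 := h.mem.mono fun ε h => by simp only [c, dif_pos h]
  exact ⟨c, Subtype.ext (h4.self_of_nhds.symm.trans h.zero),
    IsInducing.subtypeVal.continuousAt_iff.2 (h.an.continuousAt.congr h4), h4⟩

end Holo

namespace Ch

open Holo Base

variable {S Λ R J K ι ν κ I : Type} [Fintype S] [Fintype Λ] [Fintype R] [Fintype J] [Fintype K]
  [Fintype ι] [DecidableEq ι] [Fintype ν] [Fintype κ] [Fintype I] [DecidableEq I] {ch : Ch ι J}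
  {l : Option J} {y : κ → ch.W ν → V ch.M} {φ : I → J}

section Mp

variable {x v : ch.W ν} {Y : ch.W ν → V ch.M} {U : ch.W ν → ∀ l, ch.E l →L[ℂ] ℂ} {j : J}
  {c : ℂ → ch.W ν}

/-- A moving point of the curves with its evaluation forms. -/
structure Mp (x : ch.W ν) (Y : ch.W ν → V ch.M) (U : ch.W ν → ∀ l, ch.E l →L[ℂ] ℂ) : Prop where
  an : AnalyticAt ℂ Y x
  an' : AnalyticAt ℂ U x
  mem : ∀ᶠ s in 𝓝 x, s ∈ ch.base ν → (Y s, U s) ∈ gr s

theorem exists_mp (hx : x ∈ ch.base ν) (hY : AnalyticAt ℂ Y x)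
    (hm : ∀ᶠ s in 𝓝 x, s ∈ ch.base ν → Y s ∈ crv s) : ∃ U, Mp x Y U := by
  obtain ⟨U, h1, h2⟩ := exists_an_ev hx.1 (Y x)
  have h3 := analyticAt_id.prod hY
  refine ⟨fun s => U (s, Y s), hY, h1.comp (f := fun s => (s, Y s)) h3, ?_⟩
  filter_upwards [h3.continuousAt.eventually h2, hm] with s b1 b2 hs
  obtain ⟨w, hw⟩ := mem_crv.1 (b2 hs)
  exact b1 w hw ▸ hw

theorem exists_mp' (hl : ∀ i, 4 ≤ ch.a l i) (hx : x ∈ ch.base ν) {z : ch.Pt} (hz : z ∈ gr x)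
    (hn : ¬IsNode ch.o (crv x) z.1) : ∃ Y U, Mp x Y U ∧ Y x = z.1 ∧ U x = z.2 := by
  obtain ⟨y, h1, h2⟩ := (locFam_base hl ⟨x, hx⟩).exists_mov (σ := (Empty.elim : Empty → _))
    (w := fun _ : Unit => z.1) fun _ => ⟨⟨z, hz, rfl⟩, hn, nofun⟩
  obtain ⟨U, h3⟩ := exists_mp hx (h1.an ()) ((ev_sub hx (p := fun s => y () s ∈ crv s)).1
    (h1.mem ()))
  exact ⟨_, U, h3, h2 (), funext fun l =>
    gr_unique (c := z.1) (h2 () ▸ h3.mem.self_of_nhds hx) hz (hx.1 l)⟩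

theorem Mp.an_ev (h : Mp x Y U) (j : J) (μ : Tens ch.M (ch.b j)) :
    AnalyticAt ℂ (fun s => U s (some j) (s.X j μ)) x :=
  an_apply (analyticAt_pi_iff.1 h.an' _) (an_apply (W.an_X analyticAt_id j) analyticAt_const)

/-- The Koszul relation at a moving point. -/
noncomputable def kz (Y : ch.W ν → V ch.M) (U : ch.W ν → ∀ l, ch.E l →L[ℂ] ℂ) (j : J)
    (μ μ' : Tens ch.M (ch.b j)) (s : ch.W ν) : ℂ :=
  val μ' (Y s) * U s (some j) (s.X j μ) - val μ (Y s) * U s (some j) (s.X j μ')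

theorem Mp.an_kz (h : Mp x Y U) (j : J) (μ μ' : Tens ch.M (ch.b j)) :
    AnalyticAt ℂ (kz Y U j μ μ') x :=
  ((an_val analyticAt_const h.an).mul (h.an_ev j μ)).sub
    ((an_val analyticAt_const h.an).mul (h.an_ev j μ'))

/-- The Koszul relations of the field `j` hold to first order in the direction `v`. -/
def Kz (x v : ch.W ν) (j : J) : Prop :=
  ∀ Y U, Mp x Y U → ∀ μ μ', fderiv ℂ (kz Y U j μ μ') x v = 0

theorem kz_of_val (hc : Arc (ch.base ν) x c)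
    (h : ∀ᶠ ε in 𝓝 0, ∀ z ∈ crv (c ε), ∃ a, Val (c ε) j z a) : Kz x (deriv c 0) j :=
  fun Y U hY μ μ' => (deriv_comp_an' (hY.an_kz j μ μ') hc.an hc.zero).symm.trans
    ((EventuallyEq.deriv_eq (by
      filter_upwards [h, hc.ev hY.mem] with ε b1 b2
      obtain ⟨a, e⟩ := b1 _ ⟨_, b2, rfl⟩
      simp only [kz, e _ b2]
      ring)).trans (deriv_const (0 : ℂ) (0 : ℂ)))

theorem fn_zero_of_gen (hx : x ∈ ch.base ν) {f : V ch.M → ℂ} (hf : Continuous f)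
    (h : ∀ z ∈ gr x, ¬IsNode ch.o (crv x) z.1 → f z.1 = 0) : ∀ c ∈ crv x, f c = 0 :=
  fun c hc => by_contra fun h1 => by
    obtain ⟨_, ⟨k1, z, k2, rfl⟩, k3⟩ := (((hx.2.2.1.nod.frequently_not_node x.p hc).and_eventually
      self_mem_nhdsWithin).and_eventually (mem_nhdsWithin_of_mem_nhds
        (hf.continuousAt.eventually_ne h1))).exists
    exact k3 (h z k2 k1.2)

theorem vec_zero_of_gen (hx : x ∈ ch.base ν) {e : ch.E l}
    (h : ∀ z ∈ gr x, ¬IsNode ch.o (crv x) z.1 → z.2 l e = 0) : e = 0 := by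
  obtain ⟨μ, rfl⟩ := hx.1 l e
  exact hx.2.1 l μ (fn_zero_of_gen hx (continuous_iff_continuousAt.2 fun c =>
    (analyticAt_val μ c).continuousAt) fun z a b => (a.2 l μ).symm.trans (h z a b))

/-- A thickened field that satisfies the Koszul relations and vanishes at evaluation points. -/
theorem eq_zero_of_kos (hx : x ∈ ch.base ν) {ξ : Tens ch.M (ch.b j) →L[ℂ] ch.E (some j)}
    (hy : EvB x (ch.wd j) 0 y) (h1 : ∀ z ∈ gr x, ¬IsNode ch.o (crv x) z.1 → ∀ μ μ',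
      val μ' z.1 * z.2 (some j) (ξ μ) - val μ z.1 * z.2 (some j) (ξ μ') = 0)
    (h2 : ∀ k w, (y k x, w) ∈ gr x → ∀ μ, val μ (y k x) ≠ 0 → w (some j) (ξ μ) = 0) : ξ = 0 := by
  classical
  let x₁ := setX x (update x.X j ξ)
  have e : x₁.X j = ξ := show update x.X j ξ j = ξ from update_self ..
  have cv := fun {a : ι → ℕ} (μ : Tens ch.M a) =>
    continuous_iff_continuousAt.2 fun c => (analyticAt_val μ c).continuousAt
  have h3 : ∀ c ∈ crv x₁, ∃ a, Val x₁ j c a := fun c hc => by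
    obtain ⟨μ', h4⟩ := exists_val_one (a := ch.b j) (crv_ne hc)
    obtain ⟨m', h5⟩ := hx.1 _ (ξ μ')
    refine ⟨val m' c, fun w hw μ => ?_⟩
    obtain ⟨m, h6⟩ := hx.1 _ (ξ μ)
    have := fn_zero_of_gen hx (((cv μ').mul (cv m)).sub ((cv μ).mul (cv m'))) (fun z a b => by
      simpa only [← h5, ← h6, a.2, Pi.sub_apply, Pi.mul_apply] using h1 z a b μ μ') c hc
    rw [e, ← h6, (show (c, w) ∈ gr x from hw).2]
    simp only [Pi.sub_apply, Pi.mul_apply, h4] at this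
    linear_combination this
  obtain ⟨h4, h5⟩ := hy.ev.self_of_nhds hx
  refine ContinuousLinearMap.ext fun μ => eq_zero_of_off (z := x.p) hx fun c w hw ho => ?_
  have h6 := h5 _ (mer_fld (x := x₁) hx h3) (fun k => by
    obtain ⟨μ', h6⟩ := exists_val_one (a := ch.b j) (crv_ne (h4 k).1)
    obtain ⟨w', h7⟩ := mem_crv.1 (h4 k).1
    have := val_fld (h3 _ (h4 k).1) w' h7 μ'
    rw [e, h2 k w' h7 μ' (h6.trans_ne one_ne_zero), h6, mul_one] at this
    exact this.symm) c ⟨_, hw, rfl⟩ ho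
  have := val_fld (h3 c ⟨_, hw, rfl⟩) w hw μ
  rwa [e, h6, zero_mul] at this

theorem exists_an_lift (hx : Surjective (x.Q l)) : ∃ L : ch.W ν → ch.E l →L[ℂ] Tens ch.M (ch.a l),
    AnalyticAt ℂ L x ∧ ∀ᶠ s in 𝓝 x, ∀ z ∈ gr s, ∀ e, val (L s e) z.1 = z.2 l e := by
  obtain ⟨S, hS⟩ := exists_rightInv hx
  have h1 : AnalyticAt ℂ (fun s : ch.W ν => s.Q l ∘L S) x :=
    an_comp (W.an_Q analyticAt_id l) analyticAt_const
  have h2 : Bijective (x.Q l ∘L S) := ⟨fun a b e => by simpa [hS] using e, fun y => ⟨y, hS y⟩⟩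
  refine ⟨fun s => S ∘L (s.Q l ∘L S).inverse, an_comp analyticAt_const
    (AnalyticAt.comp (g := ContinuousLinearMap.inverse) (analyticAt_clm_inverse h2) h1), ?_⟩
  filter_upwards [eventually_bijective h1.continuousAt h2] with s hs z hz e
  exact (hz.2 l _).symm.trans (congrArg (z.2 l)
    ((isInvertible_of_bijective hs).self_apply_inverse e))

/-- An arc in the double ramification locus with a given velocity. -/
theorem arc_DR' (hl : ∀ i, 4 ≤ ch.a l i) (ha : ∀ l, ch.a l ≠ 0) {N : ℕ}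
    (hN : MfdAt (ch.base ν) N x)
    (hi : LinearIndependent ℤ fun o : Option I => o.elim ch.χ fun i => ch.wd (φ i))
    (hv : ∀ i, ∀ c ∈ crv x, ∃ a, Val x (φ i) c a)
    (hf : ∀ i, Triv ch.o (crv x) (ch.wd (φ i)) x.p 0 fun c => fld x c (φ i))
    (hy : ∀ i, EvB x (ch.wd (φ i)) 0 y) (hc : Arc (ch.base ν) x c)
    (hK : ∀ i, Kz x (deriv c 0) (φ i)) :
    ∃ z, Arc (DR (fun i => ch.wd (φ i)) 0 y) (fun i k => fld x (y k x) (φ i), x) z ∧
      Tga (fun ε => (z ε).2) c ∧ ∀ i k U μ, Mp x (y k) U → val μ (y k x) ≠ 0 →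
        deriv (fun ε => U (c ε) (some (φ i)) ((c ε).X (φ i) μ) / val μ (y k (c ε))) 0 =
          deriv (fun ε => (z ε).1 i k) 0 := by
  obtain ⟨hb, hN⟩ := hN
  obtain ⟨σ, h1, h2⟩ := exists_pts_base hl ⟨x, hb⟩
  obtain ⟨v, hv'⟩ := exists_dual hi
  obtain ⟨c', a1, a2, a3⟩ := hc.lift hb
  choose L a4 a5 using fun i => exists_an_lift (hb.1 (some (φ i)))
  have a6 := hc.an.congr a3
  have a7 : (c' 0).1 = x := congrArg _ a1
  have a8 : ∀ i, ∀ᶠ ε in 𝓝 (0 : ℂ), ∀ z ∈ gr (c' ε).1, ∀ e, val (L i (c' ε).1 e) z.1 = z.2 _ e :=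
    fun i => a6.continuousAt.eventually (a7.symm ▸ a5 i)
  have a9 : Arc (ch.base ν) x fun ε => c' ε := ⟨a6, a7, .of_forall fun ε => (c' ε).2⟩
  obtain ⟨x', w, b1, b2, b3, b4, b5, b6, b7, b8⟩ := (locFam_base hl ⟨x, hb⟩).dr_arc
    (v := fun j => v (some j)) (χ := fun i => ch.wd (φ i)) (f₀ := fun i c => fld x c (φ i))
    (a := fun i => ch.a (some (φ i))) (b := fun i => ch.b (φ i)) hb.2.2.1 h1
    (fun j j' => by simpa using hv' (some j) (some j'))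
    (fun j => hasTw hl ha ⟨x, hb⟩ h2 ((hv' (some j) none).2 (by simp)))
    (h2.self_of_nhds ▸ hf) (fun i => EvB.evp (x := (Subtype.val : ch.base ν → _)) (t₀ := ⟨x, hb⟩)
      (Φ := id) (hy i) continuous_subtype_val.continuousAt analyticAt_id (.of_forall fun _ => rfl)
      (.of_forall fun t => t.2) h2.self_of_nhds) hN (fun _ => ha _)
    (fun _ _ => (sub_add_cancel _ _).symm) a1 a2 a6
    (L := fun i ε μ => L i (c' ε).1 ((c' ε).1.X (φ i) μ))
    (fun i μ => an_apply ((a4 i).comp_of_eq a6 a7) (an_apply (W.an_X a6 _) analyticAt_const))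
    (fun i μ z hz => by
      obtain ⟨u, hu⟩ := mem_crv.1 hz
      rw [a7]
      exact ((a5 i).self_of_nhds _ hu _).trans (val_fld (hv i z hz) u hu μ))
    fun i μ μ' Y e1 e2 => by
      obtain ⟨U, e3⟩ := exists_mp hb e1 ((ev_sub hb (p := fun s => Y s ∈ crv s)).1 e2)
      refine (EventuallyEq.deriv_eq ?_).trans ((deriv_comp_an' (e3.an_kz (φ i) μ μ') a6 a7).trans
        (EventuallyEq.deriv_eq a3 ▸ hK i Y U e3 μ μ'))
      filter_upwards [a8 i, a9.ev e3.mem] with ε e4 e5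
      simp only [kz, e4 _ e5]
  have b9 : (x' 0).1 = x := congrArg _ b1
  refine ⟨fun ε => (w ε, (x' ε).1), ⟨b4.prod b3, Prod.ext b5 b9, ?_⟩,
    ⟨b3, hc.an, b9.trans hc.zero.symm, b6.trans (EventuallyEq.deriv_eq a3).symm⟩,
    fun i k U μ e1 e2 => (EventuallyEq.deriv_eq ?_).trans ((b7 i k μ e2).trans (deriv_clm
      ((ContinuousLinearMap.proj k : (κ → ℂ) →L[ℂ] ℂ).comp
        (ContinuousLinearMap.proj i : (I → κ → ℂ) →L[ℂ] _)) b4).symm)⟩
  · filter_upwards [b8, b2.eventually (b1.symm ▸ h2)] with ε e1 e2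
    exact ⟨(x' ε).2, fun i => e2 ▸ e1 i⟩
  · filter_upwards [a8 i, a9.ev e1.mem, a3] with ε e3 e4 e5
    simp only [e5, id, e3 _ e4]

end Mp

variable {F : Fam S Λ R J K} {u : ν → J → ℕ} {n : J → I → ℤ} {ψ : J → (Λ → ℂ) → ℂ}
  {x : (Λ → ℂ) × ch.W ν}

theorem an_setX₂ (q : ch.W ν × ∀ j, Tens ch.M (ch.b j) →L[ℂ] ch.E (some j)) :
    AnalyticAt ℂ (fun q : ch.W ν × ∀ j, Tens ch.M (ch.b j) →L[ℂ] ch.E (some j) => setX q.1 q.2) q :=
  have h : AnalyticAt ℂ (fun q : ch.W ν × ∀ j, Tens ch.M (ch.b j) →L[ℂ] ch.E (some j) => q.1) q :=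
    analyticAt_fst
  W.an_iff.2 ⟨(W.an_Q h :), (W.an_p h :), (W.an_Ξ h :), analyticAt_pi_iff.1 analyticAt_snd⟩

open Classical in
/-- Arcs in the double ramification locus lift to the main stratum. -/
theorem arc_main₀ (hl : ∀ i, 4 ≤ ch.a l i) (ha : ∀ l, ch.a l ≠ 0) (hG : Gr ch F u φ n ψ)
    (hx : x ∈ ch.main₀ F u) (hy : ∀ i, EvB x.2 (ch.wd (φ i)) (fun m => u m (φ i)) y)
    {b : ℂ → Λ → ℂ} (hb : Arc F.B x.1 b) {z : ℂ → (I → κ → ℂ) × ch.W ν}
    (hz : Arc (DR (fun i => ch.wd (φ i)) (fun i m => u m (φ i)) y)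
      (fun i k => fld x.2 (y k x.2) (φ i), x.2) z) :
    ∃ X : ℂ → ∀ j, Tens ch.M (ch.b j) →L[ℂ] ch.E (some j),
      Arc (ch.main₀ F u) x (fun ε => (b ε, setX (z ε).2 (X ε))) ∧
      (∀ ε, ∀ j ∈ F.mov, X ε j = (z ε).2.X j) ∧
      ∀ᶠ ε in 𝓝 0, ∀ i k, fld (setX (z ε).2 (X ε)) (y k (z ε).2) (φ i) = (z ε).1 i k := by
  have hT := fun i => hx.1.triv _ (hG.free i).1 (hG.free i).2.1
  let f : ℂ → I → V ch.M → ℂ := fun ε i => epsilon fun f => Mer ch.o (crv (z ε).2) (ch.wd (φ i))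
    (z ε).2.p (fun m => u m (φ i)) f ∧ ∀ k, f (y k (z ε).2) = (z ε).1 i k
  have hf : ∀ᶠ ε in 𝓝 0, ∀ i, Mer ch.o (crv (z ε).2) (ch.wd (φ i)) (z ε).2.p (fun m => u m (φ i))
      (f ε i) ∧ ∀ k, f ε i (y k (z ε).2) = (z ε).1 i k :=
    hz.mem.mono fun ε e i => epsilon_spec (e.2 i)
  let g : ℂ → J → V ch.M → ℂ := fun ε j c =>
    if j ∈ F.zer then 0 else ψ j (b ε) * ∏ i, f ε i c ^ n j i
  let X : ℂ → ∀ j, Tens ch.M (ch.b j) →L[ℂ] ch.E (some j) := fun ε j =>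
    if j ∈ F.mov then (z ε).2.X j else epsilon fun X => IndOff (z ε).2 j X (z ε).2.p (g ε j)
  have z0 : (z 0).2 = x.2 := congrArg Prod.snd hz.zero
  have an : AnalyticAt ℂ (fun ε => (z ε).2) 0 := analyticAt_snd.comp hz.an
  have hn := hx.1.base.2.2.1.nod
  have k1 : ∀ c ∈ crv x.2, Off x.2.p c → ∀ i, f 0 i c = fld x.2 c (φ i) := fun c hc ho i =>
    (hy i).ev_eq.self_of_nhds hx.1.base _ _ (z0 ▸ (hf.self_of_nhds i).1) (hT i).toMer (fun k => by
      have := (hf.self_of_nhds i).2 k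
      rwa [hz.zero] at this) c hc ho
  have k2 : ∀ c ∈ crv x.2, Off x.2.p c → ∀ j ∉ F.mov, g 0 j c = fld x.2 c j :=
    fun c hc ho j hj => by
      simp only [g]
      split_ifs with h
      · exact (fld_of_zero hc (hx.1.zer j h)).symm
      · simp only [(hx.1.mem_E hG hc).1 (hx.2 c hc) j hj h, k1 c hc ho, hb.zero]
  have a0 := holAt_id_iff.2 an
  have a1 : ∀ᶠ ε in 𝓝 (0 : ℂ), (z ε).2 ∈ ch.base ν := hz.mem.mono fun _ e => e.1
  have a2 := locFam_of_hol (π := fun ε : ℂ => ε) hl (.of_forall fun _ => continuousAt_id) a0 a1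
  obtain ⟨σ, a3, a4⟩ := exists_pts a2 a0 a1
  have a5 := fun i => EvB.fmer (x := fun ε => (z ε).2) (z0.symm ▸ hy i) a2 a0 a1 a3 a4
    (f := fun ε => f ε i) (hf.mono fun _ e => (e i).1) fun k => holAt_id_iff.2
      ((analyticAt_pi_iff.1 (analyticAt_pi_iff.1 (analyticAt_fst.comp hz.an) i) k).congr
        (hf.mono fun _ e => ((e i).2 k).symm))
  have a6 : ∀ j ∉ F.mov, FMer ch.o (fun ε => crv (z ε).2) (fun ε => ε) 0 (ch.wd j) σ
      (fun m => u m j) fun ε => g ε j := fun j hj => by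
    by_cases h : j ∈ F.zer
    · simpa only [g, if_pos h] using FMer.zero
    simp only [g, if_neg h]
    refine ((FMer.prod Finset.univ fun i _ => (a5 i).zpow a2 a3 ?_ (n j i)).smul
      (holAt_id_iff.2 ((hG.an j _ hx.1.par).1.comp_of_eq hb.an hb.zero))).cast
      (hG.wd j hj h).symm (funext fun m => by simp [hG.ord j hj h m])
    exact a4.self_of_nhds ▸ z0.symm ▸ (hT i).congr hn (z0 ▸ (hf.self_of_nhds i).1.hom)
      fun c hc ho => k1 c hc ho i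
  have a7 : ∀ᶠ ε in 𝓝 (0 : ℂ), ∀ j ∉ F.mov,
      Mer ch.o (crv (z ε).2) (ch.wd j) (z ε).2.p (fun m => u m j) (g ε j) ∧
      IndOff (z ε).2 j (X ε j) (z ε).2.p (g ε j) ∧ (j ∉ F.zer →
        Triv ch.o (crv (z ε).2) (ch.wd j) (z ε).2.p (fun m => u m j) (g ε j)) := by
    refine eventually_all.2 fun j => eventually_imp_distrib_left.2 fun hj => ?_
    filter_upwards [(a6 j hj).eventually_mer a2 a3, a4, a1, eventually_imp_distrib_left.2
      fun h : j ∉ F.zer => (a6 j hj).eventually_triv a2 a3 (a4.self_of_nhds ▸ z0.symm ▸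
        (hx.1.triv j hj h).congr hn (z0 ▸ ((a6 j hj).mer a2 a3).hom)
          fun c hc ho => k2 c hc ho j hj)] with t b1 b2 b0 b3
    rw [b2] at b1 b3
    rw [show X t j = _ from if_neg hj]
    exact ⟨b1, epsilon_spec (exists_indOff b0 (ha _) (spt_p b0) b1 fun _ => Nat.cast_nonneg _), b3⟩
  have a8 : ∀ j, AnalyticAt ℂ (fun ε => X ε j) 0 := fun j => by
    by_cases hj : j ∈ F.mov
    · simpa only [X, if_pos hj] using W.an_X an j
    · exact holAt_id_iff.1 (holAt_X a2 a0 a1 (ha _) a3 (a6 j hj) (by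
        filter_upwards [a7, a4] with t b1 b2 using b2 ▸ (b1 j hj).2.1))
  have a9 : ∀ᶠ ε in 𝓝 (0 : ℂ), (b ε, setX (z ε).2 (X ε)) ∈ ch.main₀ F u ∧
      ∀ i k, fld (setX (z ε).2 (X ε)) (y k (z ε).2) (φ i) = (z ε).1 i k := by
    filter_upwards [a7, a1, hb.mem, hf, an.continuousAt.eventually
      (z0.symm ▸ eventually_all.2 fun i => (hy i).ev)] with ε b1 hb hs b3 b2
    have b5 := fun j hj => IndOff.val (x := setX (z ε).2 (X ε)) hb (b1 j hj).2.1 (spt_p hb)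
      (b1 j hj).1 fun _ => Nat.cast_nonneg _
    have b6 : ∀ c ∈ crv (z ε).2, Off (z ε).2.p c → ∀ i,
        fld (setX (z ε).2 (X ε)) c (φ i) = f ε i c := fun c hc ho i => by
      rw [(b5 _ (hG.free i).1).2 c hc ho]
      simp only [g, if_neg (hG.free i).2.1, (hG.free i).2.2, Pi.one_apply, one_mul]
      rw [Fintype.prod_eq_single i fun i' h => by simp [h]]
      simp
    refine ⟨Pre.main₀ ⟨hs, hb, fun j hj => (b5 j hj).1, fun j hj => (b1 j
      (hG.zer.notMem_of_mem_left hj)).2.1.unique hb fun c w _ _ μ => by simp [g, hj],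
        fun j hj h => ((b1 j hj).2.2 h).congr hb.2.2.1.nod
          (mer_fld (x := setX (z ε).2 (X ε)) (z := (z ε).2.p) hb (b5 j hj).1).hom (b5 j hj).2⟩ hG
          fun c hc ho j hj h => ?_, fun i k =>
      (b6 _ ((b2 i hb).1 k).1 ((b2 i hb).1 k).2 i).trans ((b3 i).2 k)⟩
    simp only [(b5 j hj).2 c hc ho, b6 c hc ho, g, if_neg h]
  refine ⟨X, ⟨hb.an.prod (W.an_iff.2 ⟨(W.an_Q an :), (W.an_p an :), (W.an_Ξ an :), a8⟩), Prod.ext hb.zero
    (z0 ▸ W.ext (fun _ => rfl) (fun _ => rfl) rfl fun j => ?_), a9.mono fun _ e => e.1⟩,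
    fun ε j hj => if_pos hj, a9.mono fun _ e => e.2⟩
  by_cases hj : j ∈ F.mov
  · exact if_pos hj
  · refine (a7.self_of_nhds j hj).2.1.unique a1.self_of_nhds ?_
    rw [z0]
    exact fun c w hw ho μ => (k2 c ⟨_, hw, rfl⟩ ho j hj).symm ▸
      indOff_fld (hx.1.val j hj) c w hw ho μ

end Ch

end Vale.Agent.P269
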