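import Vale.Agent.P269.Map.Bun
import Vale.Agent.P269.Map.Pol
import Vale.Agent.P269.Map.E5
import Vale.Agent.P269.Map.CutA
import Vale.Agent.P269.Bas.Defs

set_option linter.unusedSectionVars false

/-!
# Additional base fields, additional determined fields, projections of charts: definitions
-/

namespace Vale.Agent.P269

open P291Z Set Function Topology Filter Base Holo MvPolynomial

variable {S Λ R R' J J' K ι ι' ν κ : Type} [Fintype S] [Fintype Λ] [Fintype R] [Fintype R']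
  [Fintype J] [Fintype J'] [Fintype K] [Fintype ι] [DecidableEq ι] [Fintype ι'] [DecidableEq ι']
  [Fintype ν] [Fintype κ]

/-- Other line bundles, fewer fields. -/
def AM.res (m : AM Λ R' J' ν κ) (L : R → Cv.LB m.R) (φ : J → J') : AM Λ R J ν κ :=
  ⟨m.toAC, L, m.l, fun j => m.y (φ j)⟩

/-- The polynomial is homogeneous for both tori. -/
structure Wt.Hom (W : Wt S Λ R J) (p : MvPolynomial J (MvPolynomial Λ ℂ)) (χ : R → ℤ)
    (ψ : S → ℤ) : Prop where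
  hom : ∀ α ∈ p.support, ∀ i, ∑ j, α j * W.w j i = χ i
  homS : ∀ α ∈ p.support, ∀ β ∈ (coeff α p).support, ∀ i,
    ∑ j, α j * W.wt j i + ∑ a, β a * W.wl a i = ψ i

namespace Fam

section up

variable (F : Fam S Λ R J K) (W : Wt S Λ R' J') (φ : J → J') (c : R → R' → ℤ)
  (E₀ : Set ((Λ → ℂ) × (J' → ℂ))) (Z₀ : Set J')

/-- The family `F` with additional base fields: those in `Z₀` vanish, the other ones do not vanish
and satisfy `E₀`. -/
@[reducible] noncomputable def up : Fam S Λ R' J' K where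
  toWt := W
  θ := 0
  χ k := ∑ r, F.χ k r • c r
  wk := F.wk
  G k := rename φ (F.G k)
  B := F.B
  U := {z | (z.1, z.2 ∘ φ) ∈ F.U ∧ ∀ j ∉ range φ, j ∉ Z₀ → z.2 j ≠ 0}
  E := {z | z ∈ E₀ ∧ (z.1, z.2 ∘ φ) ∈ F.E}
  mov := φ '' F.mov
  zer := φ '' F.zer ∪ Z₀

/-- The family in which only the additional fields are base fields. -/
@[reducible] noncomputable def aux : Fam S Λ R' J' K :=
  { F.up W φ c E₀ Z₀ with mov := range φ, zer := Z₀, E := E₀ }

/-- The hypotheses for `Fam.up`. -/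
structure Up : Prop where
  inj : Injective φ
  w : ∀ j, W.w (φ j) = ∑ r, F.w j r • c r
  wt : ∀ j, W.wt (φ j) = F.wt j
  wl : W.wl = F.wl
  closed : IsClosed E₀
  inv : ∀ t, IsUnit t → ∀ z ∈ E₀, W.actT t z ∈ E₀
  base : ∀ l y y', (∀ j ∉ range φ, y j = y' j) → (l, y) ∈ E₀ → (l, y') ∈ E₀
  disj : ∀ j, φ j ∉ Z₀

end up

section add

variable (F : Fam S Λ R J K) (T : Set J) (a h : J → MvPolynomial J (MvPolynomial Λ ℂ))
  (χ : J → R → ℤ) (ψ : J → S → ℤ)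

/-- The vanishing base fields `j ∈ T` become movable, with the equations `a j * X j = h j`. -/
@[reducible] noncomputable def add : Fam S Λ R J (K ⊕ T) :=
  { F with
    χ := Sum.elim F.χ fun j => χ j
    wk := Sum.elim F.wk fun j => ψ j
    G := Sum.elim F.G fun j => a j * X j.1 - h j
    mov := F.mov ∪ T
    zer := F.zer \ T }

/-- The hypotheses for `Fam.add`. -/
structure Add : Prop where
  sub : T ⊆ F.zer
  free : ∀ k, ∀ α ∈ (F.G k).support, ∀ j ∈ T, α j = 0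
  fa : ∀ j ∈ T, ∀ α ∈ (a j).support, ∀ i ∈ T, α i = 0
  fh : ∀ j ∈ T, ∀ α ∈ (h j).support, ∀ i ∈ T, α i = 0
  ha : ∀ j ∈ T, F.toWt.Hom (a j * X j) (χ j) (ψ j)
  hh : ∀ j ∈ T, F.toWt.Hom (h j) (χ j) (ψ j)
  ne : ∀ j ∈ T, ∀ z ∈ F.cone, evz z (a j) ≠ 0
  U : ∀ l y y', (∀ j ∉ T, y j = y' j) → (l, y) ∈ F.U → (l, y') ∈ F.U
  E : ∀ l y y', (∀ j ∉ T, y j = y' j) → (l, y) ∈ F.E → (l, y') ∈ F.E

end add

/-- Other closed conditions and another semistable locus. -/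
@[reducible] def reE (F : Fam S Λ R J K) (E U : Set ((Λ → ℂ) × (J → ℂ))) : Fam S Λ R J K :=
  { F with E := E, U := U }

end Fam

namespace Ch

variable (ch : Ch ι J) (ν κ) in
/-- The solutions in the main stratum of the absolute theory. -/
abbrev zM (F : Fam S Λ R J K) : Set (ch.WF ν κ Λ) := ch.solF ν κ F ∩ ch.main κ F 0

variable (ch : Ch ι J) (ν κ) in
/-- The matched solutions in the main stratum of the absolute theory. -/
abbrev zD (F : Fam S Λ R J K) : Set (ch.WF ν κ Λ) := ch.zM ν κ F ∩ {x | Dia x}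

open Classical in
/-- Degrees of the tests for additional equations. -/
noncomputable def eA (ch : Ch ι J) (e : K → ι → ℕ) {T : Type}
    (p : T → MvPolynomial J (MvPolynomial Λ ℂ)) : K ⊕ T → ι → ℕ :=
  Sum.elim e fun j i => (p j).totalDegree * ∑ j, ch.b j i + 1

namespace Res

variable {ch' : Ch ι' J'} (D : ch'.Res ι J)

/-- A map that restricts the curve and the fields. -/
structure RC (W' : Wt S Λ R' J') (W : Wt S Λ R J) (Z' : Set (ch'.WF ν κ Λ))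
    (Z : Set (D.ch.WF ν κ Λ)) (f : ch'.WF ν κ Λ → D.ch.WF ν κ Λ) : Prop
    extends EqM (actF W') (actF W) Z' Z D.θF f where
  wt : ∀ j, W.wt j = W'.wt (D.φ j)
  fst : ∀ x ∈ Z', (f x).1 = x.1
  rel : ∀ x ∈ Z', D.Rel x.2 (f x).2
  p : ∀ x ∈ Z', ∀ n, (f x).2.p n = rV D.σ (x.2.p n)
  nod : ∀ x ∈ Z', Nod (D.σ D.o) (crv x.2)

variable (ν κ) in
/-- The domain of the projection. -/
abbrev TU (F : Fam S Λ R J K) (W : Wt S Λ R' J') (c : R → R' → ℤ)
    (E₀ : Set ((Λ → ℂ) × (J' → ℂ))) (Z₀ : Set J') : Set (ch'.WF ν κ Λ) :=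
  Lnk.T κ D (F.aux W D.φ c E₀ Z₀) (0 : ν → J' → ℕ)

variable {D} in
/-- The hypotheses for the projection from the chart `ch'` with the family `F.up` to the chart `D.ch`
with the family `F`. -/
structure Lnk.Pj (L : D.Lnk) (F : Fam S Λ R J K) (W : Wt S Λ R' J') (c : R → R' → ℤ)
    (E₀ : Set ((Λ → ℂ) × (J' → ℂ))) (Z₀ : Set J') (e : K → ι' → ℕ) (K₀ : Set K) (ℓ : R → ι → ℤ)
    (ℓ' : R' → ι' → ℤ) (b : ℕ) : Prop where
  up : F.Up W D.φ c E₀ Z₀
  std : D.ch.Std F (D.e e) K₀ ℓ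
  sup : ∀ k, Sup D.σ (e k)
  wd : ∀ j i, ch'.wd j i = ∑ r, W.w j r * ℓ' r i
  num : Num₀ D.ch
  num' : Num₀ ch'
  sm : F.Sm b
  nz : ∀ j ∈ L.I, j ∉ Z₀
  det : ∀ l y y', (l, y) ∈ E₀ → (l, y') ∈ E₀ → (∀ j ∈ L.I, y j = y' j) →
    ∀ j ∉ range D.φ, j ∉ Z₀ → (∀ j ∈ L.I, y j ≠ 0) → y j = y' j
  wt : ∀ i, ∑ j, L.n j * W.wt j i = 0
  gr : ∃ (I : Type) (_ : Fintype I) (_ : DecidableEq I) (φ : I → J') (n : J' → I → ℤ)
    (ψ : J' → (Λ → ℂ) → ℂ), Gr ch' (F.aux W D.φ c E₀ Z₀) (0 : Empty → J' → ℕ) φ n ψ ∧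
      Fintype.card ι' = Fintype.card ι + Fintype.card I

end Res

end Ch

end Vale.Agent.P269
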